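import Vale.Agent.P338.R2.H101.Iter

/-!
P338: transfer of lower bounds from transposition to multiplication.
-/

namespace Vale.Agent.P338.R2.H101

open Vale.Agent.P338.R2.H898
open Vale.Agent.P338.R2.H784 (ex Near)
open Filter

theorem ilog_mono {k : ℕ} {x y : ℝ} (hx : 0 ≤ x) (hxy : x ≤ y) : ilog k x ≤ ilog k y := by
  induction k with
  | zero => exact hxy
  | succ k ih =>
    rw [ilog_succ, ilog_succ]
    exact Real.log_le_log (by linarith [ilog_nonneg (k := k) hx]) (by linarith)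

theorem ilog_sq_le {k : ℕ} {x : ℝ} (hx : 1 ≤ x) : ilog (k + 1) (x ^ 2) ≤ 2 * ilog (k + 1) x := by
  induction k with
  | zero =>
    rw [ilog_succ, ilog_succ, ilog_zero, ilog_zero]
    have h1 : x ^ 2 + 2 ≤ (x + 2) ^ 2 := by nlinarith
    have h2 := Real.log_le_log (by positivity) h1
    rw [Real.log_pow] at h2
    exact_mod_cast h2
  | succ k ih =>
    rw [ilog_succ (k + 1), ilog_succ (k + 1)]
    have h0 : 0 ≤ ilog (k + 1) x := ilog_nonneg (by linarith)
    have h0' : 0 ≤ ilog (k + 1) (x ^ 2) := ilog_nonneg (by positivity)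
    have h1 : ilog (k + 1) (x ^ 2) + 2 ≤ 2 * (ilog (k + 1) x + 2) := by linarith
    have h2 := Real.log_le_log (by linarith) h1
    rw [Real.log_mul (by norm_num) (by linarith)] at h2
    have h3 : Real.log 2 ≤ Real.log (ilog (k + 1) x + 2) :=
      Real.log_le_log (by norm_num) (by linarith)
    linarith

/-- The iterated logarithms are slowly growing. -/
theorem slow_ilog (k : ℕ) : Slow (ilog (k + 1)) :=
  ⟨2, 1, k, by norm_num, fun _ _ hx hxy => ilog_mono (by linarith) hxy,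
    fun _ hx => ilog_sq_le hx, fun x hx => by
      have := ilog_nonneg (k := k + 1) (show (0 : ℝ) ≤ x by linarith)
      linarith⟩

theorem tendsto_ilog (k : ℕ) : Tendsto (ilog k) atTop atTop := by
  induction k with
  | zero => exact tendsto_id
  | succ k ih =>
    have h : ilog (k + 1) = fun x => Real.log (ilog k x + 2) := funext fun x => ilog_succ k x
    rw [h]
    exact Real.tendsto_log_atTop.comp (tendsto_atTop_add_const_right _ 2 ih)

theorem slow_tendsto {g : ℝ → ℝ} (hg : Slow g) : Tendsto g atTop atTop := by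
  obtain ⟨K, X, k, hK, hmono, hsq, hlow⟩ := hg
  refine tendsto_atTop_mono' _ ?_ ((tendsto_ilog (k + 1)).atTop_div_const hK)
  filter_upwards [eventually_ge_atTop X] with x hx
  rw [div_le_iff₀ hK]
  linarith [hlow x hx]

theorem dicho_num {c D K C₀ x G gn n T M j : ℝ} (hc : 0 < c) (hD : 0 < D) (hK : 0 < K)
    (hC₀ : 1 ≤ C₀) (hj : 0 ≤ j) (hx : 0 < x) (hG : 0 < G) (hgn : 0 < gn) (hM : 0 ≤ M)
    (g3 : c / 2 * (x * G) ≤ D * ((j + 1) * T) + D * (x * M)) (g4 : gn ≤ K * G)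
    (hn : n ≤ 8 * C₀ * x) :
    c / 4 / (D * (j + 1)) / (8 * C₀ * K) * (n * gn) ≤ T ∨
      c / 4 / (D * (j + 1)) / (8 * C₀ * K) * gn ≤ M := by
  have hC₀' : 0 < C₀ := by linarith
  have hKK : 0 < D * (j + 1) := by positivity
  have hcc : c / 2 * (x * G) = c / 4 * (x * G) + c / 4 * (x * G) := by ring
  rcases le_or_gt (c / 4 * (x * G)) (D * ((j + 1) * T)) with h8 | h8
  · left
    have g5 : n * gn ≤ 8 * C₀ * K * (x * G) := by
      calc n * gn ≤ 8 * C₀ * x * gn := mul_le_mul_of_nonneg_right hn hgn.le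
        _ ≤ 8 * C₀ * x * (K * G) := mul_le_mul_of_nonneg_left g4 (by positivity)
        _ = _ := by ring
    have g6 : c / 4 / (D * (j + 1)) * (x * G) ≤ T := by
      rw [div_mul_eq_mul_div, div_le_iff₀ hKK]
      linarith
    calc c / 4 / (D * (j + 1)) / (8 * C₀ * K) * (n * gn)
        ≤ c / 4 / (D * (j + 1)) / (8 * C₀ * K) * (8 * C₀ * K * (x * G)) :=
          mul_le_mul_of_nonneg_left g5 (by positivity)
      _ = c / 4 / (D * (j + 1)) * (x * G) := by
          field_simp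
      _ ≤ T := g6
  · right
    have g7 : c / 4 * (x * G) ≤ D * (x * M) := by linarith
    have g8 : c / 4 * G ≤ D * M := by
      have e1 : x * (c / 4 * G) ≤ x * (D * M) := by
        calc x * (c / 4 * G) = c / 4 * (x * G) := by ring
          _ ≤ _ := g7
          _ = _ := by ring
      exact le_of_mul_le_mul_left e1 hx
    have a1 : c / 4 / (D * (j + 1)) / (8 * C₀ * K) * gn ≤
        c / 4 / (D * (j + 1)) / (8 * C₀ * K) * (K * G) :=
      mul_le_mul_of_nonneg_left g4 (by positivity)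
    have a2 : c / 4 / (D * (j + 1)) / (8 * C₀ * K) * (K * G) =
        (c / 4 * G) / (D * ((j + 1) * (8 * C₀))) := by
      field_simp
    have a3 : (c / 4 * G) / (D * ((j + 1) * (8 * C₀))) ≤ M := by
      rw [div_le_iff₀ (by positivity)]
      refine g8.trans ?_
      have b1 : (1 : ℝ) ≤ (j + 1) * (8 * C₀) := by nlinarith
      have b2 : 0 ≤ D * M := mul_nonneg hD.le hM
      calc D * M = D * M * 1 := by ring
        _ ≤ D * M * ((j + 1) * (8 * C₀)) := mul_le_mul_of_nonneg_left b1 b2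
        _ = _ := by ring
    linarith

theorem split_num {c C K G I x T M t p : ℝ} (hp : 0 < p) (hj : (|C| + 1) * K / p ≤ c / 2)
    (hx : 0 ≤ x) (hG : 0 ≤ G) (hI : 0 ≤ I) (hT : 0 ≤ T) (hM : 0 ≤ M)
    (hIG : I ≤ K * G) (g1 : c * (x * G) ≤ t) (g2 : t ≤ C * (T + x * M + x * I / p)) :
    c / 2 * (x * G) ≤ (|C| + 1) * T + (|C| + 1) * (x * M) := by
  have a1 : C * (T + x * M + x * I / p) ≤ (|C| + 1) * (T + x * M + x * I / p) := by
    apply mul_le_mul_of_nonneg_right _ (by positivity)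
    have := le_abs_self C
    linarith
  have a2 : x * I / p ≤ x * (K * G) / p := by gcongr
  have a3 : (|C| + 1) * (x * (K * G) / p) ≤ c / 2 * (x * G) := by
    calc (|C| + 1) * (x * (K * G) / p) = (|C| + 1) * K / p * (x * G) := by ring
      _ ≤ c / 2 * (x * G) := mul_le_mul_of_nonneg_right hj (by positivity)
  have a4 : (|C| + 1) * (x * I / p) ≤ (|C| + 1) * (x * (K * G) / p) :=
    mul_le_mul_of_nonneg_left a2 (by positivity)
  have a5 : (|C| + 1) * (T + x * M + x * I / p) =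
      (|C| + 1) * T + (|C| + 1) * (x * M) + (|C| + 1) * (x * I / p) := by ring
  have a6 : c * (x * G) = c / 2 * (x * G) + c / 2 * (x * G) := by ring
  linarith

/-- Transfer of lower bounds. -/
theorem mulHardOr_of_transHardBy {C₀ : ℕ} (hC₀ : 32 ≤ C₀) {A A' : MTM} (hA : Multiplies A)
    {g : ℝ → ℝ} (hg : Slow g) (hI : ∀ k, IterIneq C₀ A A' k) (hR : TransHardBy g) :
    MulHardOr g A A' := by
  obtain ⟨K, X, k, hK, hmono, hsq, hlow⟩ := hg
  have hgpos : ∀ x : ℝ, X ≤ x → 0 ≤ x → 0 < g x := by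
    intro x hx hx0
    have h1 := hlow x hx
    have h2 := log_two_le_ilog (k := k) hx0
    have h3 := Real.log_two_gt_d9
    by_contra hcon
    push Not at hcon
    nlinarith
  have key : ∀ ρ < C₀, ∃ c : ℝ, 0 < c ∧ ∃ N : ℕ, ∀ n : ℕ, N ≤ n → n % C₀ = ρ →
      c * (n * g n) ≤ mulTime A n ∨
        ∃ k : ℕ, 1 ≤ k ∧ 2 ^ k ≤ n ∧ c * (k * g n) ≤ mulTime A' k := by
    intro ρ hρ
    obtain ⟨B, hB, C, hBC⟩ := hI k ρ hρ
    obtain ⟨c, hc, N₁, hN₁⟩ := hR B hB
    obtain ⟨j, hj⟩ : ∃ j : ℕ, (|C| + 1) * K / 2 ^ j ≤ c / 2 := by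
      obtain ⟨j, hj⟩ := pow_unbounded_of_one_lt ((|C| + 1) * K / (c / 2)) (one_lt_two)
      refine ⟨j, ?_⟩
      rw [div_le_iff₀ (by positivity)]
      rw [div_lt_iff₀ (by positivity)] at hj
      linarith
    set N₂ : ℕ := max (N₁ + 2) (max (⌈X⌉₊ + 1) (8 * C₀ + 1)) with hN₂
    refine ⟨c / 4 / ((|C| + 1) * (j + 1)) / (8 * C₀ * K), by positivity,
      C₀ * (4 * N₂ ^ 2) + C₀ + ⌈X⌉₊ + 1, fun n hn hmod => ?_⟩
    set μ := n / C₀ with hμ
    have hnμ : C₀ * μ + ρ = n := by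
      rw [← hmod]
      exact Nat.div_add_mod n C₀
    have hC₀' : 0 < C₀ := by omega
    have hμ1 : 4 * N₂ ^ 2 < μ + 1 := by
      have : C₀ * (4 * N₂ ^ 2) < C₀ * (μ + 1) := by
        calc C₀ * (4 * N₂ ^ 2) ≤ n := by omega
          _ = C₀ * μ + ρ := hnμ.symm
          _ < C₀ * μ + C₀ := by omega
          _ = C₀ * (μ + 1) := by ring
      exact lt_of_mul_lt_mul_left this (Nat.zero_le _)
    have hN₂pos : 2 ≤ N₂ := by
      have : N₁ + 2 ≤ N₂ := le_max_left _ _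
      omega
    have hμpos : 1 ≤ μ := by nlinarith
    obtain ⟨r, s, hrs, h1, h2, h3, h4, h5, h6, h7⟩ := exists_mu hμpos
    have hr : N₂ ≤ r := by
      by_contra hcon
      push Not at hcon
      have : r ^ 2 < N₂ ^ 2 := Nat.pow_lt_pow_left hcon (by norm_num)
      omega
    have hs : N₂ ≤ s := by
      by_contra hcon
      push Not at hcon
      have : s ^ 2 < N₂ ^ 2 := Nat.pow_lt_pow_left hcon (by norm_num)
      omega
    have hN₁2 : N₁ + 2 ≤ N₂ := le_max_left _ _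
    have hX2 : ⌈X⌉₊ + 1 ≤ N₂ := (le_max_left _ _).trans (le_max_right _ _)
    have h8C : 8 * C₀ + 1 ≤ N₂ := (le_max_right _ _).trans (le_max_right _ _)
    have hl1 : 1 ≤ lg r s := one_le_ex (by omega)
    have hln : 4 ^ lg r s ≤ n := by
      have := (size_facts hA hC₀ hρ (show 2 ≤ r by omega) (show 2 ≤ s by omega) ⟨h1, h2⟩).1
      rw [hrs, hnμ] at this
      exact this
    have g1 := hN₁ r s (by omega) (by omega) h1 h2
    have g2 := hBC r s (by omega) (by omega) h1 h2 j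
    obtain ⟨i, hi1, hil, hiM⟩ := exists_maxRate A' hl1
    have hM := maxRate_nonneg A' (lg r s)
    rw [hrs, hnμ] at g2
    have hsR : (1 : ℝ) ≤ s := by exact_mod_cast h7
    have hr0 : (0 : ℝ) ≤ r := Nat.cast_nonneg r
    have hrx : (r : ℝ) ≤ (r : ℝ) * s := by nlinarith
    have ha : X ≤ (r : ℝ) * s := by
      have e1 : X ≤ ⌈X⌉₊ := Nat.le_ceil X
      have e2 : (⌈X⌉₊ : ℝ) ≤ r := by
        exact_mod_cast (by omega : ⌈X⌉₊ ≤ r)
      linarith
    have h8x : 8 * (C₀ : ℝ) ≤ (r : ℝ) * s := by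
      have e2 : ((8 * C₀ : ℕ) : ℝ) ≤ r := by
        exact_mod_cast (by omega : 8 * C₀ ≤ r)
      push_cast at e2
      linarith
    have hrsn : (n : ℝ) ≤ 8 * C₀ * ((r : ℝ) * s) := by
      have : n ≤ 8 * C₀ * (r * s) := by
        calc n = C₀ * μ + ρ := hnμ.symm
          _ ≤ C₀ * μ + C₀ := by omega
          _ = C₀ * (μ + 1) := by ring
          _ ≤ C₀ * (8 * (r * s)) := by gcongr; omega
          _ = 8 * C₀ * (r * s) := by ring
      exact_mod_cast this
    set M : ℝ := maxRate A' (lg r s) with hMd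
    set x : ℝ := (r : ℝ) * s with hx
    have hx0 : 0 ≤ x := by positivity
    set T : ℝ := (mulTime A n : ℝ) with hT
    have hT0 : 0 ≤ T := Nat.cast_nonneg _
    have hXn : X ≤ n := by
      have e1 : X ≤ ⌈X⌉₊ := Nat.le_ceil X
      have e2 : (⌈X⌉₊ : ℝ) ≤ n := by
        exact_mod_cast (by omega : ⌈X⌉₊ ≤ n)
      linarith
    have hgx : 0 < g x := hgpos x ha hx0
    have hgn : 0 < g n := hgpos n hXn (Nat.cast_nonneg n)
    have hxM : 0 ≤ x * M := mul_nonneg hx0 hM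
    have hDpos : 0 < |C| + 1 := by positivity
    have hxpos : 0 < x := by
      have e1 : (1 : ℝ) ≤ C₀ := by exact_mod_cast hC₀'
      linarith
    have g3 : c / 2 * (x * g x) ≤ (|C| + 1) * ((j + 1) * T) + (|C| + 1) * (x * M) :=
      split_num (p := 2 ^ j) (by positivity) hj hx0 hgx.le (ilog_nonneg (k := k + 1) hx0)
        (by positivity) hM (hlow x ha) g1 g2
    have g4 : g n ≤ K * g x := by
      have a1 : (n : ℝ) ≤ x ^ 2 := by
        calc (n : ℝ) ≤ 8 * C₀ * x := hrsn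
          _ ≤ x * x := mul_le_mul_of_nonneg_right h8x hx0
          _ = _ := by ring
      exact (hmono n (x ^ 2) hXn a1).trans (hsq x ha)
    have hC₀R : (1 : ℝ) ≤ C₀ := by exact_mod_cast hC₀'
    rcases dicho_num hc hDpos hK hC₀R (Nat.cast_nonneg j) hxpos hgx hgn hM g3 g4 hrsn with
      h8 | h8
    · exact Or.inl h8
    · right
      have hi0 : (0 : ℝ) < i := by exact_mod_cast hi1
      refine ⟨i, hi1, ?_, ?_⟩
      · calc 2 ^ i ≤ 4 ^ i := Nat.pow_le_pow_left (by norm_num) i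
          _ ≤ 4 ^ lg r s := Nat.pow_le_pow_right (by norm_num) hil
          _ ≤ n := hln
      · have e2 : (mulTime A' i : ℝ) = i * M := by
          rw [hiM]
          field_simp
        rw [e2]
        calc c / 4 / ((|C| + 1) * (j + 1)) / (8 * C₀ * K) * (i * g n)
            = i * (c / 4 / ((|C| + 1) * (j + 1)) / (8 * C₀ * K) * g n) := by ring
          _ ≤ i * M := mul_le_mul_of_nonneg_left h8 hi0.le
  obtain ⟨c, hc, N, h⟩ := exists_uniform C₀ (fun ρ c N => ∀ n : ℕ, N ≤ n → ⌈X⌉₊ ≤ n →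
      n % C₀ = ρ → c * (n * g n) ≤ mulTime A n ∨
        ∃ k : ℕ, 1 ≤ k ∧ 2 ^ k ≤ n ∧ c * (k * g n) ≤ mulTime A' k) (by
      intro i c c' N N' hc' hcc hNN h n hn hn2 hmod
      have hg0 : 0 ≤ g n := by
        have e1 : X ≤ ⌈X⌉₊ := Nat.le_ceil X
        have e2 : (⌈X⌉₊ : ℝ) ≤ n := by exact_mod_cast hn2
        exact (hgpos n (e1.trans e2) (Nat.cast_nonneg n)).le
      rcases h n (hNN.trans hn) hn2 hmod with h1 | ⟨m, h1, h2, h3⟩
      · left
        have h2 : 0 ≤ (n : ℝ) * g n := by positivity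
        exact (mul_le_mul_of_nonneg_right hcc h2).trans h1
      · right
        have h4 : 0 ≤ (m : ℝ) * g n := by positivity
        exact ⟨m, h1, h2, (mul_le_mul_of_nonneg_right hcc h4).trans h3⟩) (fun ρ hρ => by
      obtain ⟨c, hc, N, h⟩ := key ρ hρ
      exact ⟨c, hc, N, fun n hn _ hmod => h n hn hmod⟩)
  exact ⟨c, hc, N + ⌈X⌉₊, fun n hn =>
    h (n % C₀) (Nat.mod_lt _ (by omega)) n (by omega) (by omega) rfl⟩

/-- Transfer of lower bounds, for machines with a regular running time. -/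
theorem mulHardBy_of_regular {A : MTM} {g : ℝ → ℝ} (hg : Slow g) (hR : Regular A)
    (h : MulHardOr g A A) : MulHardBy g A := by
  obtain ⟨c, hc, N, h⟩ := h
  obtain ⟨K, hK⟩ := hR
  obtain ⟨X, hX⟩ := (tendsto_atTop_atTop.1 (slow_tendsto hg)) 0
  refine ⟨c / (|K| + 1), by positivity, N + ⌈X⌉₊ + 1, fun n hn => ?_⟩
  have hn0 : (0 : ℝ) < n := by exact_mod_cast (by omega : 0 < n)
  have hgn : 0 ≤ g n := by
    apply hX
    have e1 : X ≤ ⌈X⌉₊ := Nat.le_ceil X
    have e2 : (⌈X⌉₊ : ℝ) ≤ n := by exact_mod_cast (by omega : ⌈X⌉₊ ≤ n)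
    linarith
  have hKpos : 0 < |K| + 1 := by positivity
  rcases h n (by omega) with h1 | ⟨k, h1, h2, h3⟩
  · refine le_trans ?_ h1
    apply mul_le_mul_of_nonneg_right _ (by positivity)
    rw [div_le_iff₀ hKpos]
    nlinarith [abs_nonneg K]
  · have hk0 : (0 : ℝ) < k := by exact_mod_cast h1
    have e1 := hK k n h1 h2
    have e2 : c * g n ≤ (mulTime A k : ℝ) / k := by
      rw [le_div_iff₀ hk0]
      linarith
    have e3 : K * ((mulTime A n : ℝ) / n) ≤ (|K| + 1) * ((mulTime A n : ℝ) / n) := by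
      apply mul_le_mul_of_nonneg_right _ (by positivity)
      linarith [le_abs_self K]
    have e4 : c * g n ≤ (|K| + 1) * mulTime A n / n := by
      rw [mul_div_assoc]
      linarith
    rw [le_div_iff₀ hn0] at e4
    rw [div_mul_eq_mul_div, div_le_iff₀ hKpos]
    linarith

/-- Fast multiplication gives fast transposition. -/
theorem transFastBy_of_mulFastBy {C₀ : ℕ} (hC₀ : 32 ≤ C₀) {A : MTM}
    {g : ℝ → ℝ} (hg : Slow g) (hI : ∀ k, IterIneq C₀ A A k) (hF : MulFastBy g A) :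
    TransFastBy g := by
  have htend := slow_tendsto hg
  obtain ⟨K, X, k, hK, hmono, hsq, hlow⟩ := hg
  obtain ⟨B, hB, C, hBC⟩ := hI k 0 (by omega)
  refine ⟨B, hB, fun ε hε => ?_⟩
  have hDpos : 0 < |C| + 1 := by positivity
  obtain ⟨j, hj⟩ : ∃ j : ℕ, (|C| + 1) * K / 2 ^ j ≤ ε / 3 := by
    obtain ⟨j, hj⟩ := pow_unbounded_of_one_lt ((|C| + 1) * K / (ε / 3)) (one_lt_two)
    refine ⟨j, ?_⟩
    rw [div_le_iff₀ (by positivity)]
    rw [div_lt_iff₀ (by positivity)] at hj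
    linarith
  have hC₀R : (0 : ℝ) < C₀ := by exact_mod_cast (by omega : 0 < C₀)
  obtain ⟨N₁, hN₁⟩ := hF (ε / (3 * (|C| + 1) * (j + 1) * (2 * C₀) * K)) (by positivity)
  obtain ⟨N₂, hN₂⟩ := hF (ε / (3 * (|C| + 1))) (by positivity)
  obtain ⟨X₁, hX₁⟩ := (tendsto_atTop_atTop.1 htend)
    (maxRate A (N₂ + ⌈X⌉₊) / (ε / (3 * (|C| + 1))))
  obtain ⟨X₂, hX₂⟩ := (tendsto_atTop_atTop.1 htend) 0
  refine ⟨N₁ + ⌈X⌉₊ + ⌈X₁⌉₊ + ⌈X₂⌉₊ + 2 * C₀ + 2, fun r s hr hs h1 h2 => ?_⟩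
  have hnear : Near r s := ⟨h1, h2⟩
  have g2 := hBC r s (by omega) (by omega) h1 h2 j
  have hl1 : 1 ≤ lg r s := one_le_ex (by omega)
  have hln : 4 ^ lg r s ≤ 16 * (r * s) := H784.four_pow_ex_le (by omega) hnear
  obtain ⟨i, hi1, hil, hiM⟩ := exists_maxRate A hl1
  have hM := maxRate_nonneg A (lg r s)
  have e2 : r * s ≤ 2 * H898.mu r s := H784.mul_le_two_mu
  have e3 : H898.mu r s ≤ 2 * (r * s) := H784.mu_le_two_mul (by omega) (by omega)
  have e4 : r ≤ r * s := Nat.le_mul_of_pos_right _ (by omega)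
  have e5 : 32 * H898.mu r s ≤ C₀ * H898.mu r s := Nat.mul_le_mul_right _ hC₀
  have e6 : C₀ * H898.mu r s ≤ C₀ * (2 * (r * s)) := Nat.mul_le_mul_left _ e3
  have e7 : lg r s ≤ r * s := by
    have a1 : lg r s ≤ max r s := by
      unfold lg
      rw [Nat.clog_le_iff_le_pow (by norm_num)]
      exact Nat.lt_two_pow_self.le
    have a2 : s ≤ r * s := Nat.le_mul_of_pos_left _ (by omega)
    exact a1.trans (max_le e4 a2)
  rw [add_zero] at g2
  set n := C₀ * H898.mu r s with hn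
  have hNn : N₁ ≤ n := by omega
  have hxn : r * s ≤ n := by omega
  have hnx : n ≤ 2 * C₀ * (r * s) := by
    calc n ≤ C₀ * (2 * (r * s)) := e6
      _ = _ := by ring
  have hnxx : n ≤ (r * s) ^ 2 := by
    calc n ≤ 2 * C₀ * (r * s) := hnx
      _ ≤ (r * s) * (r * s) := Nat.mul_le_mul_right _ (by omega)
      _ = _ := by ring
  have hrx : N₁ + ⌈X⌉₊ + ⌈X₁⌉₊ + ⌈X₂⌉₊ + 2 * C₀ + 2 ≤ r * s := by omega
  have hxR : ((r * s : ℕ) : ℝ) = (r : ℝ) * s := by push_cast; ring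
  have hXx : X ≤ (r : ℝ) * s := by
    have a1 : X ≤ ⌈X⌉₊ := Nat.le_ceil X
    have a2 : (⌈X⌉₊ : ℝ) ≤ ((r * s : ℕ) : ℝ) := by
      exact_mod_cast (by omega : ⌈X⌉₊ ≤ r * s)
    rw [hxR] at a2
    linarith
  have hX₁x : X₁ ≤ (r : ℝ) * s := by
    have a1 : X₁ ≤ ⌈X₁⌉₊ := Nat.le_ceil X₁
    have a2 : (⌈X₁⌉₊ : ℝ) ≤ ((r * s : ℕ) : ℝ) := by
      exact_mod_cast (by omega : ⌈X₁⌉₊ ≤ r * s)
    rw [hxR] at a2
    linarith
  have hX₂x : X₂ ≤ (r : ℝ) * s := by
    have a1 : X₂ ≤ ⌈X₂⌉₊ := Nat.le_ceil X₂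
    have a2 : (⌈X₂⌉₊ : ℝ) ≤ ((r * s : ℕ) : ℝ) := by
      exact_mod_cast (by omega : ⌈X₂⌉₊ ≤ r * s)
    rw [hxR] at a2
    linarith
  have hnxR : (n : ℝ) ≤ 2 * C₀ * ((r : ℝ) * s) := by exact_mod_cast hnx
  have hnxxR : (n : ℝ) ≤ ((r : ℝ) * s) ^ 2 := by exact_mod_cast hnxx
  have hXn : X ≤ (n : ℝ) := by
    have : ((r * s : ℕ) : ℝ) ≤ n := by exact_mod_cast hxn
    rw [hxR] at this
    linarith
  have hgx := hX₂ _ hX₂x
  have hMx := hX₁ _ hX₁x
  have hT := hN₁ n hNn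
  have hiR : (i : ℝ) ≤ (r : ℝ) * s := by
    have : ((i : ℕ) : ℝ) ≤ ((r * s : ℕ) : ℝ) := by exact_mod_cast hil.trans e7
    rw [hxR] at this
    exact this
  set M : ℝ := maxRate A (lg r s) with hMd
  set x : ℝ := (r : ℝ) * s with hx
  have hx0 : 0 ≤ x := by positivity
  set T : ℝ := (mulTime A n : ℝ) with hTd
  -- the large multiplications
  have k1 : (|C| + 1) * ((j + 1) * T) ≤ ε / 3 * (x * g x) := by
    have a1 : g n ≤ K * g x := (hmono n (x ^ 2) hXn hnxxR).trans (hsq x hXx)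
    have a2 : (n : ℝ) * g n ≤ 2 * C₀ * K * (x * g x) := by
      calc (n : ℝ) * g n ≤ n * (K * g x) := mul_le_mul_of_nonneg_left a1 (Nat.cast_nonneg _)
        _ ≤ 2 * C₀ * x * (K * g x) := mul_le_mul_of_nonneg_right hnxR (by positivity)
        _ = _ := by ring
    have a3 : T ≤ ε / (3 * (|C| + 1) * (j + 1) * (2 * C₀) * K) * (2 * C₀ * K * (x * g x)) :=
      hT.trans (mul_le_mul_of_nonneg_left a2 (by positivity))
    calc (|C| + 1) * ((j + 1) * T) ≤ (|C| + 1) * ((j + 1) *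
          (ε / (3 * (|C| + 1) * (j + 1) * (2 * C₀) * K) * (2 * C₀ * K * (x * g x)))) := by
          gcongr
      _ = ε / 3 * (x * g x) := by
          field_simp
  -- the small multiplications
  have k2 : M ≤ ε / (3 * (|C| + 1)) * g x := by
    have hi0 : (0 : ℝ) < i := by exact_mod_cast hi1
    rcases le_or_gt i (N₂ + ⌈X⌉₊) with h3 | h3
    · have a1 := le_maxRate A hi1 h3
      rw [div_le_iff₀ (by positivity)] at hMx
      rw [hiM]
      linarith
    · have a1 := hN₂ i (by omega)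
      have a2 : X ≤ (i : ℝ) := by
        have b1 : X ≤ ⌈X⌉₊ := Nat.le_ceil X
        have b2 : (⌈X⌉₊ : ℝ) ≤ i := by exact_mod_cast (by omega : ⌈X⌉₊ ≤ i)
        linarith
      have a3 := hmono i x a2 hiR
      rw [hiM, div_le_iff₀ hi0]
      calc (mulTime A i : ℝ) ≤ ε / (3 * (|C| + 1)) * (i * g i) := a1
        _ ≤ ε / (3 * (|C| + 1)) * (i * g x) := by gcongr
        _ = _ := by ring
  have k3 : (|C| + 1) * (x * M) ≤ ε / 3 * (x * g x) := by
    calc (|C| + 1) * (x * M) ≤ (|C| + 1) * (x * (ε / (3 * (|C| + 1)) * g x)) := by gcongr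
      _ = ε / 3 * (x * g x) := by
          field_simp
  have k4 : (|C| + 1) * (x * ilog (k + 1) x / 2 ^ j) ≤ ε / 3 * (x * g x) := by
    have a1 := hlow x hXx
    calc (|C| + 1) * (x * ilog (k + 1) x / 2 ^ j) ≤ (|C| + 1) * (x * (K * g x) / 2 ^ j) := by
          gcongr
      _ = (|C| + 1) * K / 2 ^ j * (x * g x) := by ring
      _ ≤ ε / 3 * (x * g x) := mul_le_mul_of_nonneg_right hj (by positivity)
  have hil0 := ilog_nonneg (k := k + 1) hx0
  have hT0 : 0 ≤ T := Nat.cast_nonneg _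
  calc (transTime B r s : ℝ) ≤ C * ((j + 1) * T + x * M + x * ilog (k + 1) x / 2 ^ j) := g2
    _ ≤ (|C| + 1) * ((j + 1) * T + x * M + x * ilog (k + 1) x / 2 ^ j) := by
        apply mul_le_mul_of_nonneg_right _ (by positivity)
        linarith [le_abs_self C]
    _ = (|C| + 1) * ((j + 1) * T) + (|C| + 1) * (x * M) +
        (|C| + 1) * (x * ilog (k + 1) x / 2 ^ j) := by ring
    _ ≤ ε / 3 * (x * g x) + ε / 3 * (x * g x) + ε / 3 * (x * g x) := by linarith
    _ = ε * (x * g x) := by ring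

end Vale.Agent.P338.R2.H101
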