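import Mathlib
import Vale.Agent.P338.R2.H898.Model

/-!
P338, unconditional lower bounds: the class of machines with one long work tape.
-/

namespace Vale.Agent.P338.R2.H101

open Vale.Agent.P338.R2.H898

/-- The output tape is write-only: if the symbols `r` and `r'` under the heads agree on all tapes
except the output tape, then the machine halts in both cases or does the same in both cases, and on
the output tape it writes the same symbol in both cases or leaves the symbol there unchanged in
both cases. -/
def WriteOnly (A : MTM) : Prop :=
  ∀ (q : A.State) (r r' : A.Tape → A.Sym), (∀ i, i ≠ A.out → r i = r' i) →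
    (A.step q r = none ∧ A.step q r' = none) ∨
    ∃ (q' : A.State) (a a' : A.Tape → A.Sym × Move),
      A.step q r = some (q', a) ∧ A.step q r' = some (q', a') ∧
      (∀ i, (a i).2 = (a' i).2) ∧ (∀ i, i ≠ A.out → (a i).1 = (a' i).1) ∧
      ((a A.out).1 = (a' A.out).1 ∨ ((a A.out).1 = r A.out ∧ (a' A.out).1 = r' A.out))

/-- On each pair of `n`-bit numbers the machine never changes the input tape, never changes a
nonblank cell of the output tape, and there is one tape `W` (it may depend on the numbers) such
that on every tape other than `W`, the input tape and the output tape the head stays in the cells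
`0, …, σ - 1` or nothing is ever written. -/
def OneLong (A : MTM) (σ n : ℕ) : Prop :=
  ∀ x y : List Bool, x.length = n → y.length = n → ∃ W : A.Tape, ∀ t : ℕ,
    (A.conf (mulWord x y) t).tape A.inp = (A.init (mulWord x y)).tape A.inp ∧
    (∀ p, (A.conf (mulWord x y) t).tape A.out p ≠ A.blank →
      (A.conf (mulWord x y) (t + 1)).tape A.out p = (A.conf (mulWord x y) t).tape A.out p) ∧
    ∀ i, i ≠ A.inp → i ≠ A.out → i ≠ W →
      (A.conf (mulWord x y) t).head i < σ ∨
        ∀ t' p, (A.conf (mulWord x y) t').tape i p = A.blank

end Vale.Agent.P338.R2.H101
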