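import Mathlib

/-!
P338, unconditional lower bounds: a mixing lemma for universal families of functions.
-/

namespace Vale.Agent.P338.R2.H101

open Finset

/-- If the pairs `x ≠ x'` collide for at most a `1 / |γ|` part of the `y`, then the values
`h x y` on a rectangle `A × B` hit the set `Z` about as often as expected. -/
theorem mixing_sq {α β γ : Type*} [DecidableEq α] [Fintype β] [Fintype γ] [DecidableEq γ]
    [DecidableEq β] (h : α → β → γ)
    (hu : ∀ x x', x ≠ x' → (#{y : β | h x y = h x' y} : ℝ) * Fintype.card γ ≤ Fintype.card β)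
    (hγ : 0 < Fintype.card γ)
    (A : Finset α) (B : Finset β) (Z : Finset γ) :
    (((#{p ∈ A ×ˢ B | h p.1 p.2 ∈ Z} : ℕ) : ℝ) - #A * #B * #Z / Fintype.card γ) ^ 2 ≤
      #A * #B * #Z * Fintype.card β := by
  classical
  set a : β → γ → ℝ := fun y z => (#{x ∈ A | h x y = z} : ℝ) with ha
  set g : ℝ := (Fintype.card γ : ℝ) with hg
  have hg0 : 0 < g := by rw [hg]; exact_mod_cast hγ
  have hsum1 : ∀ y, ∑ z, a y z = #A := by
    intro y
    have := Finset.card_eq_sum_card_fiberwise (f := fun x => h x y) (s := A) (t := univ)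
      (fun x _ => by simp)
    rw [this]
    push_cast
    rfl
  have hsq : ∑ y, ∑ z, a y z ^ 2 ≤ #A * Fintype.card β + (#A : ℝ) ^ 2 * Fintype.card β / g := by
    have h1 : ∀ y, ∑ z, a y z ^ 2 = ∑ x ∈ A, ∑ x' ∈ A, if h x y = h x' y then (1 : ℝ) else 0 := by
      intro y
      have h2 : ∀ z, a y z ^ 2 =
          ∑ x ∈ A, ∑ x' ∈ A, if (h x y = z ∧ h x' y = z) then (1 : ℝ) else 0 := by
        intro z
        have h3 : a y z = ∑ x ∈ A, if h x y = z then (1 : ℝ) else 0 := by
          rw [ha]
          simp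
        rw [sq, h3, Finset.sum_mul_sum]
        refine Finset.sum_congr rfl fun x _ => Finset.sum_congr rfl fun x' _ => ?_
        by_cases hx : h x y = z <;> by_cases hx' : h x' y = z <;> simp [hx, hx']
      simp_rw [h2]
      rw [Finset.sum_comm]
      refine Finset.sum_congr rfl fun x _ => ?_
      rw [Finset.sum_comm]
      refine Finset.sum_congr rfl fun x' _ => ?_
      by_cases hxx : h x y = h x' y
      · rw [if_pos hxx]
        rw [Finset.sum_eq_single (h x y)]
        · simp [hxx]
        · intro b _ hb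
          rw [if_neg]
          rintro ⟨h1, -⟩
          exact hb h1.symm
        · simp
      · rw [if_neg hxx]
        apply Finset.sum_eq_zero
        intro z _
        rw [if_neg]
        rintro ⟨h1, h2⟩
        exact hxx (h1.trans h2.symm)
    simp_rw [h1]
    rw [Finset.sum_comm]
    have h4 : ∀ x ∈ A, ∑ y : β, ∑ x' ∈ A, (if h x y = h x' y then (1 : ℝ) else 0) ≤
        Fintype.card β + #A * Fintype.card β / g := by
      intro x hx
      rw [Finset.sum_comm]
      have h5 : ∀ x' ∈ A, ∑ y : β, (if h x y = h x' y then (1 : ℝ) else 0) ≤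
          (if x = x' then (Fintype.card β : ℝ) else 0) + Fintype.card β / g := by
        intro x' _
        by_cases hxx : x = x'
        · subst hxx
          simp only [if_true, Finset.sum_const, nsmul_eq_mul, mul_one, card_univ]
          have : (0 : ℝ) ≤ Fintype.card β / g := by positivity
          linarith
        · rw [if_neg hxx, zero_add]
          have := hu x x' hxx
          rw [le_div_iff₀ hg0]
          refine le_trans (le_of_eq ?_) this
          congr 1
          simp
      calc _ ≤ ∑ x' ∈ A, ((if x = x' then (Fintype.card β : ℝ) else 0) + Fintype.card β / g) :=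
            Finset.sum_le_sum h5
        _ = _ := by
            rw [Finset.sum_add_distrib, Finset.sum_const, nsmul_eq_mul]
            rw [Finset.sum_ite_eq]
            rw [if_pos hx]
            ring
    calc _ ≤ ∑ x ∈ A, ((Fintype.card β : ℝ) + #A * Fintype.card β / g) := Finset.sum_le_sum h4
      _ = _ := by
        rw [Finset.sum_const, nsmul_eq_mul]
        ring
  have hvar : ∑ y, ∑ z, (a y z - #A / g) ^ 2 ≤ #A * Fintype.card β := by
    have h6 : ∀ y, ∑ z, (a y z - #A / g) ^ 2 = ∑ z, a y z ^ 2 - (#A : ℝ) ^ 2 / g := by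
      intro y
      have : ∀ z, (a y z - #A / g) ^ 2 = a y z ^ 2 - 2 * (#A / g) * a y z + (#A / g) ^ 2 := by
        intro z; ring
      simp_rw [this]
      rw [Finset.sum_add_distrib, Finset.sum_sub_distrib, ← Finset.mul_sum, hsum1 y,
        Finset.sum_const, nsmul_eq_mul, card_univ]
      rw [← hg]
      field_simp
      ring
    simp_rw [h6]
    rw [Finset.sum_sub_distrib, Finset.sum_const, nsmul_eq_mul, card_univ]
    have : (Fintype.card β : ℝ) * ((#A : ℝ) ^ 2 / g) = (#A : ℝ) ^ 2 * Fintype.card β / g := by ring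
    linarith
  have hN : ((#{p ∈ A ×ˢ B | h p.1 p.2 ∈ Z} : ℕ) : ℝ) = ∑ q ∈ B ×ˢ Z, a q.1 q.2 := by
    rw [Finset.sum_product]
    have h7 : ((#{p ∈ A ×ˢ B | h p.1 p.2 ∈ Z} : ℕ) : ℝ) =
        ∑ y ∈ B, (#{x ∈ A | h x y ∈ Z} : ℝ) := by
      rw [Finset.card_filter]
      push_cast
      rw [Finset.sum_product, Finset.sum_comm]
      refine Finset.sum_congr rfl fun y _ => ?_
      rw [Finset.card_filter]
      push_cast
      rfl
    rw [h7]
    refine Finset.sum_congr rfl fun y _ => ?_
    rw [Finset.card_eq_sum_card_fiberwise (f := fun x => h x y) (s := {x ∈ A | h x y ∈ Z})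
      (t := Z) (fun x hx => by simpa using (Finset.mem_filter.1 hx).2)]
    push_cast
    refine Finset.sum_congr rfl fun z hz => ?_
    rw [ha]
    simp only
    congr 2
    ext x
    simp only [mem_filter]
    constructor
    · rintro ⟨⟨h1, _⟩, h3⟩
      exact ⟨h1, h3⟩
    · rintro ⟨h1, h3⟩
      exact ⟨⟨h1, h3 ▸ hz⟩, h3⟩
  have hdiff : ((#{p ∈ A ×ˢ B | h p.1 p.2 ∈ Z} : ℕ) : ℝ) - #A * #B * #Z / g =
      ∑ q ∈ B ×ˢ Z, (a q.1 q.2 - #A / g) := by
    rw [hN, Finset.sum_sub_distrib, Finset.sum_const, nsmul_eq_mul, card_product]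
    push_cast
    ring
  rw [hdiff]
  calc (∑ q ∈ B ×ˢ Z, (a q.1 q.2 - #A / g)) ^ 2
      ≤ #(B ×ˢ Z) * ∑ q ∈ B ×ˢ Z, (a q.1 q.2 - #A / g) ^ 2 := sq_sum_le_card_mul_sum_sq
    _ ≤ #(B ×ˢ Z) * ∑ q : β × γ, (a q.1 q.2 - #A / g) ^ 2 := by
        apply mul_le_mul_of_nonneg_left _ (by positivity)
        exact Finset.sum_le_sum_of_subset_of_nonneg (Finset.subset_univ _)
          (fun _ _ _ => sq_nonneg _)
    _ = #(B ×ˢ Z) * ∑ y, ∑ z, (a y z - #A / g) ^ 2 := by
        rw [Fintype.sum_prod_type]
    _ ≤ #(B ×ˢ Z) * (#A * Fintype.card β) := by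
        apply mul_le_mul_of_nonneg_left hvar (by positivity)
    _ = _ := by
        rw [card_product]
        push_cast
        ring

/-- The form used below: on large rectangles the count is at most twice the expected one. -/
theorem mixing {α β γ : Type*} [DecidableEq α] [Fintype β] [Fintype γ] [DecidableEq γ]
    [DecidableEq β] (h : α → β → γ)
    (hu : ∀ x x', x ≠ x' → #{y : β | h x y = h x' y} * Fintype.card γ ≤ Fintype.card β)
    (hγ : 0 < Fintype.card γ)
    (A : Finset α) (B : Finset β) (Z : Finset γ)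
    (hbig : Fintype.card γ ^ 2 * Fintype.card β ≤ #A * #B * #Z) :
    Fintype.card γ * #{p ∈ A ×ˢ B | h p.1 p.2 ∈ Z} ≤ 2 * (#A * #B * #Z) := by
  have h1 := mixing_sq h (fun x x' hx => by exact_mod_cast hu x x' hx) hγ A B Z
  set N : ℝ := ((#{p ∈ A ×ˢ B | h p.1 p.2 ∈ Z} : ℕ) : ℝ) with hN
  set g : ℝ := (Fintype.card γ : ℝ) with hg
  have hg0 : 0 < g := by rw [hg]; exact_mod_cast hγ
  set P : ℝ := #A * #B * #Z with hP
  have hP0 : 0 ≤ P := by positivity
  have hbig' : g ^ 2 * Fintype.card β ≤ P := by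
    rw [hg, hP]
    exact_mod_cast hbig
  have h2 : (g * N - P) ^ 2 ≤ P ^ 2 := by
    have h3 : (g * N - P) ^ 2 = g ^ 2 * (N - P / g) ^ 2 := by
      field_simp
    rw [h3]
    calc g ^ 2 * (N - P / g) ^ 2 ≤ g ^ 2 * (P * Fintype.card β) := by
          apply mul_le_mul_of_nonneg_left h1 (by positivity)
      _ = P * (g ^ 2 * Fintype.card β) := by ring
      _ ≤ P * P := mul_le_mul_of_nonneg_left hbig' hP0
      _ = P ^ 2 := by ring
  have h4 : g * N - P ≤ P := by
    have := abs_le_of_sq_le_sq h2 hP0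
    exact (abs_le.1 this).2
  have h5 : g * N ≤ 2 * P := by linarith
  rw [hN, hg, hP] at h5
  exact_mod_cast h5

end Vale.Agent.P338.R2.H101
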