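import Mathlib

/-!
P338, unconditional lower bounds: the convolution of bit vectors is a universal family.
-/

namespace Vale.Agent.P338.R2.H101

open Finset

/-- Extension of a finite sequence by zeros. -/
def ext {Y : ℕ} (y : Fin Y → ZMod 2) (j : ℕ) : ZMod 2 := if h : j < Y then y ⟨j, h⟩ else 0

/-- The `s`-th of `μ` middle coefficients of the convolution of `x` and `y` modulo two. -/
def conv {X Y : ℕ} (μ : ℕ) (x : Fin X → ZMod 2) (y : Fin Y → ZMod 2) (s : Fin μ) : ZMod 2 :=
  ∑ i : Fin X, x i * ext y (X - 1 + s - i)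

theorem ext_add {Y : ℕ} (y y' : Fin Y → ZMod 2) (j : ℕ) : ext (y + y') j = ext y j + ext y' j := by
  unfold ext
  split_ifs <;> simp

theorem ext_sub {Y : ℕ} (y y' : Fin Y → ZMod 2) (j : ℕ) : ext (y - y') j = ext y j - ext y' j := by
  unfold ext
  split_ifs <;> simp

theorem conv_sub_left {X Y : ℕ} (μ : ℕ) (x x' : Fin X → ZMod 2) (y : Fin Y → ZMod 2) :
    conv μ (x - x') y = conv μ x y - conv μ x' y := by
  funext s
  simp only [conv, Pi.sub_apply, sub_mul, Finset.sum_sub_distrib]

theorem conv_sub_right {X Y : ℕ} (μ : ℕ) (x : Fin X → ZMod 2) (y y' : Fin Y → ZMod 2) :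
    conv μ x (y - y') = conv μ x y - conv μ x y' := by
  funext s
  simp only [conv, Pi.sub_apply, ext_sub, mul_sub, Finset.sum_sub_distrib]

/-- The vector with the block `e` at the positions `b, b + 1, …`. -/
def place {Y : ℕ} (μ b : ℕ) (e : Fin μ → ZMod 2) : Fin Y → ZMod 2 := fun j =>
  if h : b ≤ (j : ℕ) ∧ (j : ℕ) < b + μ then e ⟨(j : ℕ) - b, by omega⟩ else 0

theorem place_sub {Y : ℕ} (μ b : ℕ) (e e' : Fin μ → ZMod 2) :
    (place μ b (e - e') : Fin Y → ZMod 2) = place μ b e - place μ b e' := by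
  funext j
  simp only [place, Pi.sub_apply]
  split_ifs <;> simp

theorem ext_place {Y : ℕ} (μ b : ℕ) (hY : b + μ ≤ Y) (e : Fin μ → ZMod 2) (j : ℕ) :
    ext (place μ b e : Fin Y → ZMod 2) j =
      if h : b ≤ j ∧ j < b + μ then e ⟨j - b, by omega⟩ else 0 := by
  unfold ext place
  by_cases h1 : j < Y
  · rw [dif_pos h1]
  · rw [dif_neg h1, dif_neg]
    omega

theorem triangular {X Y μ : ℕ} (hXY : X + μ ≤ Y + 1) (d : Fin X → ZMod 2) (i0 : Fin X)
    (h0 : d i0 ≠ 0) (hmin : ∀ i, i < i0 → d i = 0) (e : Fin μ → ZMod 2)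
    (he : conv μ d (place μ (X - 1 - i0) e : Fin Y → ZMod 2) = 0) : e = 0 := by
  have hi0 := i0.2
  have hd0 : d i0 = 1 := by
    have : ∀ a : ZMod 2, a ≠ 0 → a = 1 := by decide
    exact this _ h0
  have key : ∀ s : ℕ, ∀ hs : s < μ, e ⟨s, hs⟩ = 0 := by
    intro s
    induction s using Nat.strong_induction_on with
    | _ s ih =>
      intro hs
      have h1 := congrFun he ⟨s, hs⟩
      simp only [conv, Pi.zero_apply] at h1
      rw [Finset.sum_eq_single i0] at h1
      · rw [hd0, one_mul, ext_place _ _ (by omega), dif_pos (by omega)] at h1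
        rw [← h1]
        congr 2
        omega
      · intro i _ hi
        rcases lt_or_gt_of_ne hi with hlt | hgt
        · rw [hmin i hlt, zero_mul]
        · rw [ext_place _ _ (by omega)]
          have hi2 := i.2
          have hgt' : (i0 : ℕ) < i := hgt
          by_cases hc : X - 1 - (i0 : ℕ) ≤ X - 1 + s - i ∧ X - 1 + s - i < X - 1 - i0 + μ
          · rw [dif_pos hc, ih (X - 1 + s - i - (X - 1 - i0)) (by omega), mul_zero]
          · rw [dif_neg hc, mul_zero]
      · intro h; exact absurd (Finset.mem_univ _) h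
  funext s
  exact key s s.2

/-- The middle coefficients of the convolution form a universal family. -/
theorem conv_universal {X Y μ : ℕ} (hXY : X + μ ≤ Y + 1) (x x' : Fin X → ZMod 2) (hx : x ≠ x') :
    #{y : Fin Y → ZMod 2 | conv μ x y = conv μ x' y} * Fintype.card (Fin μ → ZMod 2) ≤
      Fintype.card (Fin Y → ZMod 2) := by
  classical
  have hd : ∃ i, (x - x') i ≠ 0 := by
    by_contra hcon
    push Not at hcon
    apply hx
    funext i
    have := hcon i
    simpa [sub_eq_zero] using this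
  obtain ⟨i0, hi0, hmin⟩ : ∃ i0 : Fin X, (x - x') i0 ≠ 0 ∧ ∀ i, i < i0 → (x - x') i = 0 := by
    obtain ⟨i, hi⟩ := hd
    have hne : (Finset.univ.filter fun i : Fin X => (x - x') i ≠ 0).Nonempty := ⟨i, Finset.mem_filter.2 ⟨Finset.mem_univ _, hi⟩⟩
    refine ⟨Finset.min' _ hne, ?_, ?_⟩
    · exact (Finset.mem_filter.1 (Finset.min'_mem _ hne)).2
    · intro j hj
      by_contra hcon
      exact absurd (Finset.min'_le _ j (by simpa using hcon)) (not_le.2 hj)
  rw [← Finset.card_univ, ← Finset.card_product, ← Finset.card_univ]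
  refine Finset.card_le_card_of_injOn (fun p => p.1 + place μ (X - 1 - i0) p.2)
    (fun _ _ => by simp) ?_
  rintro ⟨y, e⟩ hy ⟨y', e'⟩ hy' heq
  simp only [coe_product, coe_filter, mem_univ, true_and, coe_univ, Set.mem_prod, Set.mem_ofPred_eq,
    Set.mem_univ, and_true] at hy hy' heq
  have h1 : (place μ (X - 1 - i0) (e' - e) : Fin Y → ZMod 2) = y - y' := by
    rw [place_sub]
    have : y - y' = (y + place μ (X - 1 - i0) e) - place μ (X - 1 - i0) e - y' := by abel
    rw [this, heq]
    abel
  have h2 : conv μ (x - x') (y - y') = 0 := by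
    rw [conv_sub_left, conv_sub_right, conv_sub_right]
    rw [hy, hy']
    simp
  rw [← h1] at h2
  have h3 := triangular hXY (x - x') i0 hi0 hmin _ h2
  have h4 : e' = e := by
    have := sub_eq_zero.1 h3
    exact this
  subst h4
  have h5 : y = y' := by
    have := add_right_cancel heq
    exact this
  rw [h5]

end Vale.Agent.P338.R2.H101
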