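import Mathlib
import Vale.Agent.P338.R2.H101.Mix
import Vale.Agent.P338.R2.H101.Toeplitz

/-!
P338, unconditional lower bounds: a procedure that reads few input bits predicts `k` coefficients
of the convolution correctly on at most a `2 / 2 ^ k` part of the inputs.
-/

namespace Vale.Agent.P338.R2.H101

open Finset

/-- Pairs of bit vectors. -/
abbrev Inp (X Y : ℕ) := (Fin X → ZMod 2) × (Fin Y → ZMod 2)

/-- The bit with the given index. -/
def bit {X Y : ℕ} (ω : Inp X Y) : Fin X ⊕ Fin Y → ZMod 2 := Sum.elim ω.1 ω.2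

theorem card_cube {N : ℕ} (S : Finset (Fin N)) (x : Fin N → ZMod 2) :
    #{x' : Fin N → ZMod 2 | ∀ i ∈ S, x' i = x i} = 2 ^ (N - #S) := by
  classical
  have h1 : ({x' : Fin N → ZMod 2 | ∀ i ∈ S, x' i = x i} : Finset _) =
      Fintype.piFinset (fun i => if i ∈ S then {x i} else Finset.univ) := by
    ext x'
    simp only [mem_filter, mem_univ, true_and, Fintype.mem_piFinset]
    constructor
    · intro h i
      by_cases hi : i ∈ S
      · simp [hi, h i hi]
      · simp [hi]
    · intro h i hi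
      have := h i
      simpa [hi] using this
  rw [h1, Fintype.card_piFinset]
  have h2 : ∀ i : Fin N, #(if i ∈ S then {x i} else (Finset.univ : Finset (ZMod 2))) =
      if i ∈ S then 1 else 2 := by
    intro i
    by_cases hi : i ∈ S <;> simp [hi, ZMod.card]
  simp_rw [h2]
  rw [Finset.prod_ite]
  simp only [prod_const_one, prod_const, one_mul]
  congr 1
  rw [Finset.filter_not, Finset.filter_mem_eq_inter, Finset.univ_inter, Finset.card_univ_sdiff,
    Fintype.card_fin]

theorem card_agree {μ : ℕ} (K : Finset (Fin μ)) (e : Fin μ → ZMod 2) :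
    #{z : Fin μ → ZMod 2 | ∀ s ∈ K, z s = e s} = 2 ^ (μ - #K) := card_cube K e

/-- Cubes. -/
theorem cube_count {X Y μ : ℕ} (hXY : X + μ ≤ Y + 1) (R : Finset (Fin X ⊕ Fin Y))
    (ω : Inp X Y) (hR : #R + 2 * μ ≤ X) (K : Finset (Fin μ)) (e : Fin μ → ZMod 2) :
    2 ^ #K * #{ω' : Inp X Y | (∀ i ∈ R, bit ω' i = bit ω i) ∧
      ∀ s ∈ K, conv μ ω'.1 ω'.2 s = e s} ≤
    2 * #{ω' : Inp X Y | ∀ i ∈ R, bit ω' i = bit ω i} := by
  classical
  set S1 : Finset (Fin X) := R.toLeft with hS1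
  set S2 : Finset (Fin Y) := R.toRight with hS2
  set A : Finset (Fin X → ZMod 2) := {x' | ∀ i ∈ S1, x' i = ω.1 i} with hA
  set B : Finset (Fin Y → ZMod 2) := {y' | ∀ i ∈ S2, y' i = ω.2 i} with hB
  set Z : Finset (Fin μ → ZMod 2) := {z | ∀ s ∈ K, z s = e s} with hZ
  have hK : #K ≤ μ := by simpa using Finset.card_le_univ K
  have hcardR : #S1 + #S2 = #R := by
    rw [hS1, hS2]
    exact Finset.card_toLeft_add_card_toRight
  have hcA : #A = 2 ^ (X - #S1) := card_cube S1 ω.1
  have hcB : #B = 2 ^ (Y - #S2) := card_cube S2 ω.2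
  have hcZ : #Z = 2 ^ (μ - #K) := card_agree K e
  have hS2Y : #S2 ≤ Y := by simpa using Finset.card_le_univ S2
  have hagree : ∀ ω' : Inp X Y, (∀ i ∈ R, bit ω' i = bit ω i) ↔ ω'.1 ∈ A ∧ ω'.2 ∈ B := by
    intro ω'
    rw [hA, hB]
    simp only [mem_filter, mem_univ, true_and]
    constructor
    · intro h
      refine ⟨fun i hi => ?_, fun i hi => ?_⟩
      · exact h (Sum.inl i) (by simpa [hS1] using hi)
      · exact h (Sum.inr i) (by simpa [hS2] using hi)
    · rintro ⟨h1, h2⟩ i hi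
      cases i with
      | inl i => exact h1 i (by simpa [hS1] using hi)
      | inr i => exact h2 i (by simpa [hS2] using hi)
  have hcube : ({ω' : Inp X Y | ∀ i ∈ R, bit ω' i = bit ω i} : Finset _) = A ×ˢ B := by
    ext ω'
    simp only [mem_filter, mem_univ, true_and, mem_product]
    exact hagree ω'
  have hgood : ({ω' : Inp X Y | (∀ i ∈ R, bit ω' i = bit ω i) ∧
      ∀ s ∈ K, conv μ ω'.1 ω'.2 s = e s} : Finset _) =
      {p ∈ A ×ˢ B | conv μ p.1 p.2 ∈ Z} := by
    ext ω'
    simp only [mem_filter, mem_univ, true_and, mem_product, hZ]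
    rw [hagree ω']
  have hmix := mixing (conv μ : (Fin X → ZMod 2) → (Fin Y → ZMod 2) → (Fin μ → ZMod 2))
    (fun x x' hx => conv_universal hXY x x' hx) (Fintype.card_pos) A B Z (by
      rw [hcA, hcB, hcZ]
      simp only [Fintype.card_pi, Finset.prod_const, card_univ, Fintype.card_fin, ZMod.card]
      rw [← pow_mul, ← pow_add, ← pow_add, ← pow_add]
      apply Nat.pow_le_pow_right (by norm_num)
      omega)
  rw [hgood, hcube, card_product]
  have hγ : Fintype.card (Fin μ → ZMod 2) = 2 ^ #K * 2 ^ (μ - #K) := by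
    simp only [Fintype.card_pi, Finset.prod_const, card_univ, Fintype.card_fin, ZMod.card]
    rw [← pow_add]
    congr 1
    omega
  rw [hγ, hcZ] at hmix
  have hpos : 0 < 2 ^ (μ - #K) := by positivity
  refine Nat.le_of_mul_le_mul_left ?_ hpos
  calc 2 ^ (μ - #K) * (2 ^ #K * #{p ∈ A ×ˢ B | conv μ p.1 p.2 ∈ Z})
      = 2 ^ #K * 2 ^ (μ - #K) * #{p ∈ A ×ˢ B | conv μ p.1 p.2 ∈ Z} := by ring
    _ ≤ 2 * (#A * #B * 2 ^ (μ - #K)) := hmix
    _ = _ := by ring

/-- A procedure that reads few bits of its input, adaptively, and emits predictions on the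
coefficients of the convolution: `k` predictions are all correct on few inputs only. -/
theorem reader_count {X Y μ : ℕ} (hXY : X + μ ≤ Y + 1)
    (R : Inp X Y → Finset (Fin X ⊕ Fin Y)) (g : Inp X Y → Finset (Fin μ × ZMod 2))
    (hloc : ∀ ω ω', (∀ i ∈ R ω, bit ω' i = bit ω i) → R ω' = R ω ∧ g ω' = g ω)
    (hR : ∀ ω, #(R ω) + 2 * μ ≤ X) (k : ℕ) :
    2 ^ k * #{ω : Inp X Y | k ≤ #((g ω).image Prod.fst) ∧
      ∀ p ∈ g ω, conv μ ω.1 ω.2 p.1 = p.2} ≤ 2 * 2 ^ (X + Y) := by
  classical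
  set f : Inp X Y → Finset (Inp X Y) := fun ω => {ω' | ∀ i ∈ R ω, bit ω' i = bit ω i} with hf
  set G : Finset (Inp X Y) := {ω : Inp X Y | k ≤ #((g ω).image Prod.fst) ∧
      ∀ p ∈ g ω, conv μ ω.1 ω.2 p.1 = p.2} with hG
  have hself : ∀ ω, ω ∈ f ω := by intro ω; simp [hf]
  have hmem : ∀ ω ω', ω' ∈ f ω ↔ f ω' = f ω := by
    intro ω ω'
    constructor
    · intro h
      have h' : ∀ i ∈ R ω, bit ω' i = bit ω i := by simpa [hf] using h
      obtain ⟨hR', -⟩ := hloc ω ω' h'
      ext ω''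
      simp only [hf, mem_filter, mem_univ, true_and]
      rw [hR']
      constructor
      · intro h2 i hi; rw [h2 i hi, h' i hi]
      · intro h2 i hi; rw [h2 i hi, h' i hi]
    · intro h
      rw [← h]
      exact hself ω'
  have hsplitG : #G = ∑ c ∈ Finset.univ.image f, #{ω ∈ G | f ω = c} :=
    Finset.card_eq_sum_card_fiberwise (fun ω _ => by simp)
  have hsplitU : #(Finset.univ : Finset (Inp X Y)) =
      ∑ c ∈ Finset.univ.image f, #{ω ∈ (Finset.univ : Finset (Inp X Y)) | f ω = c} :=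
    Finset.card_eq_sum_card_fiberwise (fun ω _ => by simp)
  have hcardU : #(Finset.univ : Finset (Inp X Y)) = 2 ^ (X + Y) := by
    rw [card_univ, Fintype.card_prod]
    simp only [Fintype.card_pi, Finset.prod_const, card_univ, Fintype.card_fin, ZMod.card]
    rw [← pow_add]
  rw [← hcardU, hsplitG, hsplitU, Finset.mul_sum, Finset.mul_sum]
  refine Finset.sum_le_sum fun c hc => ?_
  obtain ⟨ω0, -, rfl⟩ := Finset.mem_image.1 hc
  have hfib : (Finset.univ.filter fun ω : Inp X Y => f ω = f ω0) =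
      Finset.univ.filter fun ω' : Inp X Y => ∀ i ∈ R ω0, bit ω' i = bit ω0 i := by
    ext ω'
    rw [mem_filter, ← hmem ω0 ω']
    simp [hf]
  rw [hfib]
  by_cases hk : k ≤ #((g ω0).image Prod.fst)
  · set K : Finset (Fin μ) := (g ω0).image Prod.fst with hK
    set e : Fin μ → ZMod 2 := fun s => if (s, 1) ∈ g ω0 then 1 else 0 with he
    have h1 := cube_count hXY (R ω0) ω0 (hR ω0) K e
    have hsub : (G.filter fun ω => f ω = f ω0) ⊆
        Finset.univ.filter fun ω' : Inp X Y => (∀ i ∈ R ω0, bit ω' i = bit ω0 i) ∧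
          ∀ s ∈ K, conv μ ω'.1 ω'.2 s = e s := by
      intro ω' hω'
      rw [mem_filter, ← hmem ω0 ω'] at hω'
      obtain ⟨h2, h3⟩ := hω'
      have h4 : ∀ i ∈ R ω0, bit ω' i = bit ω0 i := by simpa [hf] using h3
      obtain ⟨-, hg⟩ := hloc ω0 ω' h4
      rw [hG, mem_filter] at h2
      obtain ⟨-, -, h5⟩ := h2
      rw [hg] at h5
      rw [mem_filter]
      refine ⟨mem_univ _, h4, ?_⟩
      intro s hs
      rw [hK, mem_image] at hs
      obtain ⟨p, hp, rfl⟩ := hs
      by_cases h6 : (p.1, (1 : ZMod 2)) ∈ g ω0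
      · rw [he]
        simp only [h6, if_true]
        exact h5 _ h6
      · rw [he]
        simp only [h6, if_false]
        rw [h5 p hp]
        have h7 : p.2 ≠ 1 := by
          intro h8
          apply h6
          rw [← h8]
          exact hp
        have : ∀ a : ZMod 2, a ≠ 1 → a = 0 := by decide
        exact this _ h7
    calc 2 ^ k * #{ω ∈ G | f ω = f ω0}
        ≤ 2 ^ #K * #{ω' : Inp X Y | (∀ i ∈ R ω0, bit ω' i = bit ω0 i) ∧
          ∀ s ∈ K, conv μ ω'.1 ω'.2 s = e s} :=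
          Nat.mul_le_mul (Nat.pow_le_pow_right (by norm_num) hk) (Finset.card_le_card hsub)
      _ ≤ _ := h1
  · have : ({ω ∈ G | f ω = f ω0} : Finset _) = ∅ := by
      rw [Finset.eq_empty_iff_forall_notMem]
      intro ω' hω'
      rw [mem_filter, ← hmem ω0 ω'] at hω'
      obtain ⟨h2, h3⟩ := hω'
      have h4 : ∀ i ∈ R ω0, bit ω' i = bit ω0 i := by simpa [hf] using h3
      obtain ⟨-, hg⟩ := hloc ω0 ω' h4
      rw [hG, mem_filter] at h2
      obtain ⟨-, h5, -⟩ := h2
      rw [hg] at h5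
      exact hk h5
    rw [this]
    simp

end Vale.Agent.P338.R2.H101
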