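import Mathlib
import Vale.Agent.P338.R2.H101.Reader

/-!
P338, unconditional lower bounds: the convolution modulo two inside an integer product.
-/

namespace Vale.Agent.P338.R2.H101

open Finset

/-- The number with the digits `f 0, f 1, …` in base `2 ^ D`, least significant digit first. -/
def digSum (D K : ℕ) (f : ℕ → ℕ) : ℕ := ∑ i ∈ range K, f i * 2 ^ (D * i)

theorem digSum_succ (D K : ℕ) (f : ℕ → ℕ) :
    digSum D (K + 1) f = 2 ^ (D * K) * f K + digSum D K f := by
  rw [digSum, Finset.sum_range_succ, digSum]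
  ring

theorem digSum_lt {D K : ℕ} {f : ℕ → ℕ} (hf : ∀ i < K, f i < 2 ^ D) :
    digSum D K f < 2 ^ (D * K) := by
  induction K with
  | zero => simp [digSum]
  | succ K ih =>
    rw [digSum_succ]
    have h1 := ih (fun i hi => hf i (by omega))
    have h2 := hf K (by omega)
    have h3 : 2 ^ (D * (K + 1)) = 2 ^ (D * K) * 2 ^ D := by rw [← pow_add]; ring_nf
    rw [h3]
    have h4 : f K + 1 ≤ 2 ^ D := h2
    calc 2 ^ (D * K) * f K + digSum D K f < 2 ^ (D * K) * f K + 2 ^ (D * K) := by omega
      _ = 2 ^ (D * K) * (f K + 1) := by ring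
      _ ≤ _ := Nat.mul_le_mul_left _ h4

theorem digSum_testBit {D K : ℕ} {f : ℕ → ℕ} (hf : ∀ i < K, f i < 2 ^ D) (m r : ℕ) (hr : r < D) :
    (digSum D K f).testBit (D * m + r) = if m < K then (f m).testBit r else false := by
  induction K with
  | zero => simp [digSum]
  | succ K ih =>
    have h1 := ih (fun i hi => hf i (by omega))
    have hlt : digSum D K f < 2 ^ (D * K) := digSum_lt (fun i hi => hf i (by omega))
    rw [digSum_succ, Nat.testBit_two_pow_mul_add _ hlt]
    rcases lt_trichotomy m K with hm | hm | hm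
    · have h2 : D * m + r < D * K := by
        calc D * m + r < D * m + D := by omega
          _ = D * (m + 1) := by ring
          _ ≤ D * K := Nat.mul_le_mul_left _ hm
      rw [if_pos h2, h1, if_pos hm, if_pos (by omega)]
    · subst hm
      rw [if_neg (by omega), if_pos (by omega)]
      congr 1
      omega
    · have h2 : D * K + D ≤ D * m := by
        calc D * K + D = D * (K + 1) := by ring
          _ ≤ D * m := Nat.mul_le_mul_left _ hm
      rw [if_neg (by omega), if_neg (by omega)]
      apply Nat.testBit_eq_false_of_lt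
      calc f K < 2 ^ D := hf K (by omega)
        _ ≤ 2 ^ (D * m + r - D * K) := Nat.pow_le_pow_right (by norm_num) (by omega)

/-- The natural numbers `0, 1` of the coordinates of a bit vector, extended by zeros. -/
def nat {X : ℕ} (x : Fin X → ZMod 2) (i : ℕ) : ℕ := if h : i < X then (x ⟨i, h⟩).val else 0

theorem nat_le_one {X : ℕ} (x : Fin X → ZMod 2) (i : ℕ) : nat x i ≤ 1 := by
  unfold nat
  split_ifs
  · have := ZMod.val_lt (x ⟨i, by assumption⟩)
    omega
  · omega

theorem nat_cast {X : ℕ} (x : Fin X → ZMod 2) (i : ℕ) : ((nat x i : ℕ) : ZMod 2) = ext x i := by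
  unfold nat ext
  split_ifs <;> simp

/-- The number in which the bits of `x` are spread at distance `D`. -/
def spread (D : ℕ) {X : ℕ} (x : Fin X → ZMod 2) : ℕ := digSum D X (nat x)

theorem nat_lt {X D : ℕ} (hD : 1 ≤ D) (x : Fin X → ZMod 2) (i : ℕ) : nat x i < 2 ^ D :=
  lt_of_le_of_lt (nat_le_one x i) (Nat.one_lt_two_pow (by omega))

theorem spread_lt {X D : ℕ} (hD : 1 ≤ D) (x : Fin X → ZMod 2) : spread D x < 2 ^ (D * X) :=
  digSum_lt fun i _ => nat_lt hD x i

/-- The coefficients of the product. -/
def coef {X Y : ℕ} (x : Fin X → ZMod 2) (y : Fin Y → ZMod 2) (m : ℕ) : ℕ :=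
  ∑ i ∈ range X, if i ≤ m then nat x i * nat y (m - i) else 0

theorem coef_le {X Y : ℕ} (x : Fin X → ZMod 2) (y : Fin Y → ZMod 2) (m : ℕ) : coef x y m ≤ X := by
  unfold coef
  calc _ ≤ ∑ i ∈ range X, 1 := by
        refine Finset.sum_le_sum fun i _ => ?_
        split_ifs
        · calc nat x i * nat y (m - i) ≤ 1 * 1 := Nat.mul_le_mul (nat_le_one _ _) (nat_le_one _ _)
            _ = 1 := by norm_num
        · omega
    _ = X := by simp

theorem spread_mul (D : ℕ) {X Y : ℕ} (x : Fin X → ZMod 2) (y : Fin Y → ZMod 2) :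
    spread D x * spread D y = digSum D (X + Y) (coef x y) := by
  unfold spread digSum coef
  rw [Finset.sum_mul]
  simp_rw [Finset.sum_mul]
  rw [Finset.sum_comm]
  refine Finset.sum_congr rfl fun i hi => ?_
  rw [Finset.mem_range] at hi
  have h1 : X + Y = i + (X + Y - i) := by omega
  rw [h1, Finset.sum_range_add]
  have h2 : ∑ m ∈ range i, (if i ≤ m then nat x i * nat y (m - i) else 0) * 2 ^ (D * m) = 0 := by
    apply Finset.sum_eq_zero
    intro m hm
    rw [Finset.mem_range] at hm
    rw [if_neg (by omega), zero_mul]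
  rw [h2, zero_add]
  have h3 : range Y ⊆ range (X + Y - i) := by
    intro j hj
    rw [Finset.mem_range] at hj ⊢
    omega
  rw [Finset.mul_sum]
  rw [← Finset.sum_subset h3]
  · refine Finset.sum_congr rfl fun j _ => ?_
    rw [if_pos (by omega)]
    have : i + j - i = j := by omega
    rw [this, mul_add, pow_add]
    ring
  · intro j _ hj
    rw [Finset.mem_range] at hj
    rw [if_pos (by omega)]
    have : nat y (i + j - i) = 0 := by
      unfold nat
      rw [dif_neg (by omega)]
    rw [this]
    ring

theorem prod_bit {D X Y μ : ℕ} (hD : 1 ≤ D) (hX : X < 2 ^ D)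
    (x : Fin X → ZMod 2) (y : Fin Y → ZMod 2) (s : Fin μ) :
    (spread D x * spread D y).testBit (D * (X - 1 + s)) = decide (conv μ x y s = 1) := by
  have hs := s.2
  rw [spread_mul]
  have h1 := digSum_testBit (D := D) (K := X + Y) (f := coef x y)
    (fun i _ => lt_of_le_of_lt (coef_le x y i) hX) (X - 1 + s) 0 (by omega)
  rw [add_zero] at h1
  rw [h1]
  have hcast : ((coef x y (X - 1 + s) : ℕ) : ZMod 2) = conv μ x y s := by
    unfold coef conv
    push_cast
    rw [Finset.sum_range]
    refine Finset.sum_congr rfl fun i _ => ?_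
    have hi := i.2
    rw [if_pos (by omega)]
    rw [nat_cast, nat_cast]
    congr 1
    unfold ext
    rw [dif_pos hi]
  by_cases hlt : X - 1 + (s : ℕ) < X + Y
  · rw [if_pos hlt]
    rw [Nat.testBit_zero]
    rw [decide_eq_decide, ← hcast]
    constructor
    · intro h
      have h2 : ((coef x y (X - 1 + s) : ℕ) : ZMod 2) = ((coef x y (X - 1 + s) % 2 : ℕ) : ZMod 2) := by
        simp
      rw [h2, h]
      simp
    · intro h
      rcases Nat.mod_two_eq_zero_or_one (coef x y (X - 1 + s)) with h2 | h2
      · exfalso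
        have h3 : ((coef x y (X - 1 + s) : ℕ) : ZMod 2) =
            ((coef x y (X - 1 + s) % 2 : ℕ) : ZMod 2) := by simp
        rw [h3, h2] at h
        revert h
        decide
      · exact h2
  · rw [if_neg hlt]
    have : coef x y (X - 1 + s) = 0 := by
      unfold coef
      apply Finset.sum_eq_zero
      intro i hi
      rw [Finset.mem_range] at hi
      rw [if_pos (by omega)]
      have : nat y (X - 1 + s - i) = 0 := by
        unfold nat
        rw [dif_neg (by omega)]
      rw [this, mul_zero]
    rw [← hcast, this]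
    simp

theorem spread_testBit {D X : ℕ} (hD : 1 ≤ D) (x : Fin X → ZMod 2) (p : ℕ) :
    (spread D x).testBit p =
      if h : D ∣ p ∧ p / D < X then decide (x ⟨p / D, h.2⟩ = 1) else false := by
  have h1 := digSum_testBit (D := D) (K := X) (f := nat x) (fun i _ => nat_lt hD x i) (p / D)
    (p % D) (Nat.mod_lt _ (by omega))
  rw [Nat.div_add_mod] at h1
  unfold spread
  rw [h1]
  by_cases h2 : p / D < X
  · rw [if_pos h2]
    by_cases h3 : D ∣ p
    · rw [dif_pos ⟨h3, h2⟩]
      have h4 : p % D = 0 := Nat.mod_eq_zero_of_dvd h3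
      rw [h4, Nat.testBit_zero]
      unfold nat
      rw [dif_pos h2, decide_eq_decide]
      have : ∀ a : ZMod 2, a.val % 2 = 1 ↔ a = 1 := by decide
      exact this _
    · rw [dif_neg (fun h => h3 h.1)]
      have h4 : 0 < p % D := Nat.pos_of_ne_zero fun h => h3 (Nat.dvd_of_mod_eq_zero h)
      apply Nat.testBit_eq_false_of_lt
      exact lt_of_le_of_lt (nat_le_one x _) (Nat.one_lt_two_pow (by omega))
  · rw [if_neg h2, dif_neg (fun h => h2 h.2)]

end Vale.Agent.P338.R2.H101
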