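import Mathlib
import Vale.Agent.P338.R2.H101.Class

/-!
P338, unconditional lower bounds: simulation of the visits of a machine to a segment of its work
tape.
-/

namespace Vale.Agent.P338.R2.H101

open Vale.Agent.P338.R2.H898

open Classical

section Defs

variable (A : MTM)

/-- The symbols seen by the simulation: `s` on the input tape, blank on the output tape. -/
noncomputable def look (s : A.Sym) (c : A.Conf) : A.Tape → A.Sym := fun i =>
  if i = A.inp then s else if i = A.out then A.blank else c.tape i (c.head i)

/-- The next configuration of the simulation. -/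
noncomputable def cnext (s : A.Sym) (c : A.Conf) : A.Conf :=
  match A.step c.state (look A s c) with
  | none => c
  | some (q, a) =>
    { state := q
      tape := fun i =>
        if i = A.inp ∨ i = A.out then c.tape i else Function.update (c.tape i) (c.head i) (a i).1
      head := fun i => (a i).2.app (c.head i) }

/-- What the simulation writes on the output tape. -/
noncomputable def emit (s : A.Sym) (c : A.Conf) : Finset (ℕ × A.Sym) :=
  match A.step c.state (look A s c) with
  | none => ∅
  | some (_, a) => if (a A.out).1 = A.blank then ∅ else {(c.head A.out, (a A.out).1)}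

/-- State, head positions and contents of the first `σ` cells of the tapes. -/
abbrev Iface (M σ : ℕ) := A.State × (A.Tape → Fin (M + 1)) × (A.Tape → Fin σ → A.Sym)

variable {A} {M σ : ℕ}

/-- The interface of a configuration. -/
noncomputable def iface (c : A.Conf) : Iface A M σ :=
  (c.state, fun i => Fin.ofNat (M + 1) (c.head i), fun i p => c.tape i p)

/-- Load an interface; the tape `W` keeps its contents. -/
noncomputable def load (W : A.Tape) (f : Iface A M σ) (c : A.Conf) : A.Conf :=
  { state := f.1
    tape := fun i p => if i = W then c.tape i p else if h : p < σ then f.2.2 i ⟨p, h⟩ else A.blank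
    head := fun i => (f.2.1 i : ℕ) }

/-- One step of the simulation when the input tape has the contents `u`. -/
noncomputable def st (u : ℕ → A.Sym) (c : A.Conf) : A.Conf := cnext A (u (c.head A.inp)) c

/-- What the simulation writes on the output tape when the input tape has the contents `u`. -/
noncomputable def em (u : ℕ → A.Sym) (c : A.Conf) : Finset (ℕ × A.Sym) :=
  emit A (u (c.head A.inp)) c

/-- The simulation of a list of visits, latest visit first. -/
noncomputable def sim (u : ℕ → A.Sym) (W : A.Tape) (c0 : A.Conf) :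
    List (Iface A M σ × ℕ) → A.Conf
  | [] => c0
  | a :: L => (st u)^[a.2] (load W a.1 (sim u W c0 L))

/-- Everything written on the output tape during the simulation. -/
noncomputable def ems (u : ℕ → A.Sym) (W : A.Tape) (c0 : A.Conf) :
    List (Iface A M σ × ℕ) → Finset (ℕ × A.Sym)
  | [] => ∅
  | a :: L => ems u W c0 L ∪
      (Finset.range a.2).biUnion fun j => em u ((st u)^[j] (load W a.1 (sim u W c0 L)))

/-- The last visit becomes one step longer. -/
def inc : List (Iface A M σ × ℕ) → List (Iface A M σ × ℕ)
  | [] => []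
  | a :: L => (a.1, a.2 + 1) :: L

/-- The visits belonging to the key `κ` before the time `t`. -/
noncomputable def lst (M σ : ℕ) (c : ℕ → A.Conf) (key : ℕ → ℕ × ℕ) (κ : ℕ × ℕ) :
    ℕ → List (Iface A M σ × ℕ)
  | 0 => []
  | t + 1 =>
    if key t = κ then
      if t = 0 ∨ key (t - 1) ≠ key t then (iface (c t), 1) :: lst M σ c key κ t
      else inc (lst M σ c key κ t)
    else lst M σ c key κ t

end Defs

variable {A : MTM} {M σ : ℕ}

theorem cnext_head (s : A.Sym) (c : A.Conf) (i : A.Tape) :
    (cnext A s c).head i ≤ c.head i + 1 ∧ c.head i ≤ (cnext A s c).head i + 1 := by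
  unfold cnext
  rcases A.step c.state (look A s c) with _ | ⟨q, a⟩
  · exact ⟨by simp, by simp⟩
  · show (a i).2.app (c.head i) ≤ c.head i + 1 ∧ c.head i ≤ (a i).2.app (c.head i) + 1
    rcases (a i).2 with _ | _ | _ <;> simp only [Move.app] <;> omega

theorem st_head (u : ℕ → A.Sym) (c : A.Conf) (i : A.Tape) (j : ℕ) :
    ((st u)^[j] c).head i ≤ c.head i + j ∧ c.head i ≤ ((st u)^[j] c).head i + j := by
  induction j with
  | zero => simp
  | succ j ih =>
    rw [Function.iterate_succ_apply']
    have := cnext_head (u (((st u)^[j] c).head A.inp)) ((st u)^[j] c) i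
    have h2 : st u ((st u)^[j] c) = cnext A (u (((st u)^[j] c).head A.inp)) ((st u)^[j] c) := rfl
    rw [h2]
    omega

/-- The cell `p` of the input tape is close to the starting position of some visit. -/
def Near (L : List (Iface A M σ × ℕ)) (p : ℕ) : Prop :=
  ∃ a ∈ L, (a.1.2.1 A.inp : ℕ) ≤ p + a.2 ∧ p ≤ (a.1.2.1 A.inp : ℕ) + a.2

theorem st_local (u u' : ℕ → A.Sym) (c : A.Conf) (l : ℕ)
    (h : ∀ p, c.head A.inp ≤ p + l → p ≤ c.head A.inp + l → u p = u' p) (j : ℕ) (hj : j ≤ l) :
    (st u)^[j] c = (st u')^[j] c ∧ em u ((st u)^[j] c) = em u' ((st u')^[j] c) := by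
  have key : ∀ j ≤ l, (st u)^[j] c = (st u')^[j] c := by
    intro j
    induction j with
    | zero => simp
    | succ j ih =>
      intro hj
      rw [Function.iterate_succ_apply', Function.iterate_succ_apply', ← ih (by omega)]
      have h1 := st_head u c A.inp j
      have h2 := h (((st u)^[j] c).head A.inp) (by omega) (by omega)
      unfold st
      unfold st at h2
      rw [h2]
  refine ⟨key j hj, ?_⟩
  rw [← key j hj]
  have h1 := st_head u c A.inp j
  have h2 := h (((st u)^[j] c).head A.inp) (by omega) (by omega)
  unfold em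
  rw [h2]

theorem sim_local (u u' : ℕ → A.Sym) (W : A.Tape) (c0 : A.Conf)
    (L : List (Iface A M σ × ℕ)) (h : ∀ p, Near L p → u p = u' p) :
    sim u W c0 L = sim u' W c0 L ∧ ems u W c0 L = ems u' W c0 L := by
  induction L with
  | nil => exact ⟨rfl, rfl⟩
  | cons a L ih =>
    obtain ⟨h1, h2⟩ := ih (fun p hp => h p (by
      obtain ⟨b, hb, hb'⟩ := hp
      exact ⟨b, List.mem_cons_of_mem _ hb, hb'⟩))
    have h3 : ∀ j ≤ a.2, (st u)^[j] (load W a.1 (sim u W c0 L)) =
        (st u')^[j] (load W a.1 (sim u W c0 L)) ∧
        em u ((st u)^[j] (load W a.1 (sim u W c0 L))) =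
        em u' ((st u')^[j] (load W a.1 (sim u W c0 L))) := by
      intro j hj
      apply st_local u u' _ a.2 _ j hj
      intro p hp hp'
      exact h p ⟨a, List.mem_cons_self, hp, hp'⟩
    constructor
    · show (st u)^[a.2] (load W a.1 (sim u W c0 L)) = (st u')^[a.2] (load W a.1 (sim u' W c0 L))
      rw [← h1]
      exact (h3 a.2 le_rfl).1
    · show ems u W c0 L ∪ (Finset.range a.2).biUnion _ = ems u' W c0 L ∪ (Finset.range a.2).biUnion _
      rw [← h1, h2]
      congr 1
      apply Finset.biUnion_congr rfl
      intro j hj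
      rw [Finset.mem_range] at hj
      exact (h3 j (by omega)).2

/-! Agreement between the simulation and the real run. -/

/-- Agreement in the state, the heads, the short tapes and the blank tapes `Z`. -/
structure Full (W : A.Tape) (σ : ℕ) (Z : A.Tape → Prop) (d c : A.Conf) : Prop where
  state : d.state = c.state
  head : d.head = c.head
  small : ∀ i, i ≠ A.inp → i ≠ A.out → i ≠ W → ∀ p, p < σ ∨ Z i → d.tape i p = c.tape i p

/-- Agreement on the segment `S` of the tape `W`. -/
def Cont (W : A.Tape) (S : Set ℕ) (d c : A.Conf) : Prop :=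
  W ≠ A.inp → W ≠ A.out → ∀ p ∈ S, d.tape W p = c.tape W p

/-- The symbols seen by the simulation are those seen by the machine. -/
theorem look_eq {W : A.Tape} {Z : A.Tape → Prop} {S : Set ℕ} {d c : A.Conf} {u : ℕ → A.Sym}
    (hF : Full W σ Z d c) (hC : Cont W S d c) (hu : c.tape A.inp = u)
    (hW : c.head W ∈ S) (hσ : ∀ i, i ≠ A.inp → i ≠ A.out → i ≠ W → c.head i < σ ∨ Z i)
    (i : A.Tape) (hi : i ≠ A.out) : look A (u (d.head A.inp)) d i = c.tape i (c.head i) := by
  unfold look
  by_cases h1 : i = A.inp
  · rw [if_pos h1, h1, hu, hF.head]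
  · rw [if_neg h1, if_neg hi, hF.head]
    by_cases h2 : i = W
    · subst h2
      exact hC h1 hi _ hW
    · exact hF.small i h1 hi h2 _ (hσ i h1 hi h2)

theorem step_cases {W : A.Tape} {Z : A.Tape → Prop} {S : Set ℕ} {d c : A.Conf} {u : ℕ → A.Sym}
    (hwo : WriteOnly A)
    (hio : A.inp ≠ A.out) (hF : Full W σ Z d c) (hC : Cont W S d c) (hu : c.tape A.inp = u)
    (hW : c.head W ∈ S) (hσ : ∀ i, i ≠ A.inp → i ≠ A.out → i ≠ W → c.head i < σ ∨ Z i) :
    (A.act c = none ∧ A.step d.state (look A (u (d.head A.inp)) d) = none) ∨
    ∃ (q' : A.State) (a a' : A.Tape → A.Sym × Move),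
      A.act c = some (q', a) ∧ A.step d.state (look A (u (d.head A.inp)) d) = some (q', a') ∧
      (∀ i, (a i).2 = (a' i).2) ∧ (∀ i, i ≠ A.out → (a i).1 = (a' i).1) ∧
      ((a A.out).1 = (a' A.out).1 ∨
        ((a A.out).1 = c.tape A.out (c.head A.out) ∧ (a' A.out).1 = A.blank)) := by
  have h1 := hwo c.state (fun i => c.tape i (c.head i)) (look A (u (d.head A.inp)) d)
    (fun i hi => (look_eq hF hC hu hW hσ i hi).symm)
  have h2 : look A (u (d.head A.inp)) d A.out = A.blank := by
    unfold look
    rw [if_neg (Ne.symm hio), if_pos rfl]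
  rw [h2] at h1
  rw [hF.state]
  exact h1

/-- Agreement is kept by one step. -/
theorem agree_step {W : A.Tape} {Z : A.Tape → Prop} {S : Set ℕ} {d c : A.Conf} {u : ℕ → A.Sym}
    (hwo : WriteOnly A)
    (hio : A.inp ≠ A.out) (hF : Full W σ Z d c) (hC : Cont W S d c) (hu : c.tape A.inp = u)
    (hW : c.head W ∈ S) (hσ : ∀ i, i ≠ A.inp → i ≠ A.out → i ≠ W → c.head i < σ ∨ Z i) :
    Full W σ Z (st u d) (A.next c) ∧ Cont W S (st u d) (A.next c) := by
  rcases step_cases hwo hio hF hC hu hW hσ with ⟨h1, h2⟩ | ⟨q', a, a', h1, h2, h3, h4, -⟩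
  · have e1 : st u d = d := by
      unfold st cnext
      rw [h2]
    have e2 : A.next c = c := by
      unfold MTM.next
      rw [h1]
    rw [e1, e2]
    exact ⟨hF, hC⟩
  · have e1 : st u d =
        { state := q'
          tape := fun i => if i = A.inp ∨ i = A.out then d.tape i
            else Function.update (d.tape i) (d.head i) (a' i).1
          head := fun i => (a' i).2.app (d.head i) } := by
      unfold st cnext
      rw [h2]
    have e2 : A.next c =
        { state := q'
          tape := fun i => Function.update (c.tape i) (c.head i) (a i).1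
          head := fun i => (a i).2.app (c.head i) } := by
      unfold MTM.next
      rw [h1]
    rw [e1, e2]
    constructor
    · constructor
      · rfl
      · funext i
        simp only [hF.head, h3]
      · intro i hi1 hi2 hi3 p hp
        simp only [hi1, hi2, or_self, if_false, hF.head, h4 i hi2]
        by_cases hp' : p = c.head i
        · subst hp'
          simp
        · rw [Function.update_of_ne hp', Function.update_of_ne hp']
          exact hF.small i hi1 hi2 hi3 p hp
    · intro hi1 hi2 p hp
      simp only [hi1, hi2, or_self, if_false, hF.head, h4 W hi2]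
      by_cases hp' : p = c.head W
      · subst hp'
        simp
      · rw [Function.update_of_ne hp', Function.update_of_ne hp']
        exact hC hi1 hi2 p hp

/-- What the simulation writes on the output tape is written by the machine. -/
theorem em_sound {W : A.Tape} {Z : A.Tape → Prop} {S : Set ℕ} {d c : A.Conf} {u : ℕ → A.Sym}
    (hwo : WriteOnly A)
    (hio : A.inp ≠ A.out) (hF : Full W σ Z d c) (hC : Cont W S d c) (hu : c.tape A.inp = u)
    (hW : c.head W ∈ S) (hσ : ∀ i, i ≠ A.inp → i ≠ A.out → i ≠ W → c.head i < σ ∨ Z i)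
    {p : ℕ} {e : A.Sym} (he : (p, e) ∈ em u d) :
    e ≠ A.blank ∧ (A.next c).tape A.out p = e := by
  rcases step_cases hwo hio hF hC hu hW hσ with ⟨h1, h2⟩ | ⟨q', a, a', h1, h2, h3, h4, h5⟩
  · exfalso
    unfold em emit at he
    rw [h2] at he
    simp at he
  · unfold em emit at he
    rw [h2] at he
    simp only at he
    by_cases h6 : (a' A.out).1 = A.blank
    · rw [if_pos h6] at he
      simp at he
    · rw [if_neg h6] at he
      simp only [Finset.mem_singleton, Prod.mk.injEq] at he
      obtain ⟨rfl, rfl⟩ := he
      refine ⟨h6, ?_⟩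
      unfold MTM.next
      rw [h1]
      simp only [hF.head]
      rw [Function.update_self]
      rcases h5 with h5 | ⟨-, h5⟩
      · exact h5
      · exact absurd h5 h6

/-- The machine fills a blank cell of the output tape: the simulation writes it, too. -/
theorem em_complete {W : A.Tape} {Z : A.Tape → Prop} {S : Set ℕ} {d c : A.Conf} {u : ℕ → A.Sym}
    (hwo : WriteOnly A)
    (hio : A.inp ≠ A.out) (hF : Full W σ Z d c) (hC : Cont W S d c) (hu : c.tape A.inp = u)
    (hW : c.head W ∈ S) (hσ : ∀ i, i ≠ A.inp → i ≠ A.out → i ≠ W → c.head i < σ ∨ Z i)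
    {p : ℕ} (hb : c.tape A.out p = A.blank) (he : (A.next c).tape A.out p ≠ A.blank) :
    (p, (A.next c).tape A.out p) ∈ em u d := by
  rcases step_cases hwo hio hF hC hu hW hσ with ⟨h1, h2⟩ | ⟨q', a, a', h1, h2, h3, h4, h5⟩
  · exfalso
    apply he
    unfold MTM.next
    rw [h1]
    exact hb
  · have e2 : A.next c =
        { state := q'
          tape := fun i => Function.update (c.tape i) (c.head i) (a i).1
          head := fun i => (a i).2.app (c.head i) } := by
      unfold MTM.next
      rw [h1]
    rw [e2] at he ⊢
    simp only at he ⊢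
    by_cases hp : p = c.head A.out
    · subst hp
      rw [Function.update_self] at he ⊢
      have h6 : (a A.out).1 = (a' A.out).1 := by
        rcases h5 with h5 | ⟨h5, -⟩
        · exact h5
        · exact absurd (h5.trans hb) he
      rw [h6] at he ⊢
      unfold em emit
      rw [h2]
      simp only
      rw [if_neg he, hF.head]
      simp
    · rw [Function.update_of_ne hp] at he
      exact absurd hb he

end Vale.Agent.P338.R2.H101
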