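import Mathlib
import Vale.Agent.P338.R2.H101.Sim

/-!
P338, unconditional lower bounds: the simulation with the true list of visits follows the run.
-/

namespace Vale.Agent.P338.R2.H101

open Vale.Agent.P338.R2.H898

open Classical

variable {A : MTM} {M σ : ℕ}

/-- A run of length `τ` in which the input tape has the contents `u` all the time, the heads stay
in the cells up to `M`, and on each tape except the input tape, the output tape and `W` the head
stays in the cells below `σ` or the tape, from the set `Z`, remains blank. -/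
structure Runs (A : MTM) (M σ : ℕ) (W : A.Tape) (Z : A.Tape → Prop) (u : ℕ → A.Sym)
    (c : ℕ → A.Conf) (τ : ℕ) : Prop where
  step : ∀ t < τ, c (t + 1) = A.next (c t)
  inp : ∀ t < τ, (c t).tape A.inp = u
  bound : ∀ t < τ, ∀ i, (c t).head i ≤ M
  small : ∀ t < τ, ∀ i, i ≠ A.inp → i ≠ A.out → i ≠ W → (c t).head i < σ ∨ Z i
  blank : ∀ t < τ, ∀ i, Z i → ∀ p, (c t).tape i p = A.blank

/-- The configuration of the simulation before the step that belongs to the time `t`. -/
noncomputable def pre (M σ : ℕ) (u : ℕ → A.Sym) (W : A.Tape) (c0 : A.Conf) (c : ℕ → A.Conf)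
    (key : ℕ → ℕ × ℕ) (κ : ℕ × ℕ) (t : ℕ) : A.Conf :=
  if t = 0 ∨ key (t - 1) ≠ key t then
    load W (iface (M := M) (σ := σ) (c t)) (sim u W c0 (lst M σ c key κ t))
  else sim u W c0 (lst M σ c key κ t)

theorem lst_succ_ne {c : ℕ → A.Conf} {key : ℕ → ℕ × ℕ} {κ : ℕ × ℕ} {t : ℕ} (h : key t ≠ κ) :
    lst M σ c key κ (t + 1) = lst M σ c key κ t := by
  rw [lst, if_neg h]

theorem lst_succ_start {c : ℕ → A.Conf} {key : ℕ → ℕ × ℕ} {κ : ℕ × ℕ} {t : ℕ} (h : key t = κ)
    (h' : t = 0 ∨ key (t - 1) ≠ key t) :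
    lst M σ c key κ (t + 1) = (iface (c t), 1) :: lst M σ c key κ t := by
  rw [lst, if_pos h, if_pos h']

theorem lst_succ_inc {c : ℕ → A.Conf} {key : ℕ → ℕ × ℕ} {κ : ℕ × ℕ} {t : ℕ} (h : key t = κ)
    (h' : ¬ (t = 0 ∨ key (t - 1) ≠ key t)) :
    lst M σ c key κ (t + 1) = inc (lst M σ c key κ t) := by
  rw [lst, if_pos h, if_neg h']

theorem inc_ne_nil {L : List (Iface A M σ × ℕ)} (h : L ≠ []) : inc L ≠ [] := by
  cases L with
  | nil => exact absurd rfl h
  | cons a L => simp [inc]

theorem lst_ne_nil {c : ℕ → A.Conf} {key : ℕ → ℕ × ℕ} {κ : ℕ × ℕ} {t : ℕ} (h : key t = κ) :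
    lst M σ c key κ (t + 1) ≠ [] := by
  induction t with
  | zero =>
    rw [lst_succ_start h (Or.inl rfl)]
    simp
  | succ t ih =>
    by_cases h' : key t = key (t + 1)
    · rw [lst_succ_inc h (by simpa using h')]
      exact inc_ne_nil (ih (h'.trans h))
    · rw [lst_succ_start h (Or.inr (by simpa using h'))]
      simp

theorem sim_inc (u : ℕ → A.Sym) (W : A.Tape) (c0 : A.Conf) {L : List (Iface A M σ × ℕ)}
    (h : L ≠ []) : sim u W c0 (inc L) = st u (sim u W c0 L) := by
  cases L with
  | nil => exact absurd rfl h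
  | cons a L =>
    show (st u)^[a.2 + 1] (load W a.1 (sim u W c0 L)) = _
    rw [Function.iterate_succ_apply']
    rfl

theorem ems_inc (u : ℕ → A.Sym) (W : A.Tape) (c0 : A.Conf) {L : List (Iface A M σ × ℕ)}
    (h : L ≠ []) : ems u W c0 (inc L) = ems u W c0 L ∪ em u (sim u W c0 L) := by
  cases L with
  | nil => exact absurd rfl h
  | cons a L =>
    show ems u W c0 L ∪ (Finset.range (a.2 + 1)).biUnion
      (fun j => em u ((st u)^[j] (load W a.1 (sim u W c0 L)))) =
      (ems u W c0 L ∪ (Finset.range a.2).biUnion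
      (fun j => em u ((st u)^[j] (load W a.1 (sim u W c0 L))))) ∪
      em u ((st u)^[a.2] (load W a.1 (sim u W c0 L)))
    rw [Finset.range_add_one, Finset.biUnion_insert]
    ext x
    simp only [Finset.mem_union]
    tauto

theorem sim_succ (u : ℕ → A.Sym) (W : A.Tape) (c0 : A.Conf) {c : ℕ → A.Conf}
    {key : ℕ → ℕ × ℕ} {κ : ℕ × ℕ} {t : ℕ} (h : key t = κ) :
    sim u W c0 (lst M σ c key κ (t + 1)) = st u (pre M σ u W c0 c key κ t) := by
  by_cases h' : t = 0 ∨ key (t - 1) ≠ key t
  · rw [lst_succ_start h h', pre, if_pos h']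
    rfl
  · rw [lst_succ_inc h h', pre, if_neg h', sim_inc]
    push Not at h'
    obtain ⟨t, rfl⟩ : ∃ s, t = s + 1 := ⟨t - 1, by omega⟩
    exact lst_ne_nil (h'.2.trans h)

theorem ems_succ (u : ℕ → A.Sym) (W : A.Tape) (c0 : A.Conf) {c : ℕ → A.Conf}
    {key : ℕ → ℕ × ℕ} {κ : ℕ × ℕ} {t : ℕ} (h : key t = κ) :
    ems u W c0 (lst M σ c key κ (t + 1)) =
      ems u W c0 (lst M σ c key κ t) ∪ em u (pre M σ u W c0 c key κ t) := by
  by_cases h' : t = 0 ∨ key (t - 1) ≠ key t
  · rw [lst_succ_start h h', pre, if_pos h']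
    show ems u W c0 _ ∪ (Finset.range 1).biUnion _ = _
    simp
  · rw [lst_succ_inc h h', pre, if_neg h', ems_inc]
    push Not at h'
    obtain ⟨t, rfl⟩ : ∃ s, t = s + 1 := ⟨t - 1, by omega⟩
    exact lst_ne_nil (h'.2.trans h)

theorem mem_ems {u : ℕ → A.Sym} {W : A.Tape} {c0 : A.Conf} {c : ℕ → A.Conf}
    {key : ℕ → ℕ × ℕ} {κ : ℕ × ℕ} {x : ℕ × A.Sym} (T : ℕ) :
    x ∈ ems u W c0 (lst M σ c key κ T) ↔
      ∃ t < T, key t = κ ∧ x ∈ em u (pre M σ u W c0 c key κ t) := by
  induction T with
  | zero => simp [lst, ems]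
  | succ T ih =>
    by_cases h : key T = κ
    · rw [ems_succ u W c0 h, Finset.mem_union, ih]
      constructor
      · rintro (⟨t, ht, h1, h2⟩ | h1)
        · exact ⟨t, by omega, h1, h2⟩
        · exact ⟨T, by omega, h, h1⟩
      · rintro ⟨t, ht, h1, h2⟩
        by_cases h3 : t = T
        · subst h3
          exact Or.inr h2
        · exact Or.inl ⟨t, by omega, h1, h2⟩
    · rw [lst_succ_ne h, ih]
      constructor
      · rintro ⟨t, ht, h1, h2⟩
        exact ⟨t, by omega, h1, h2⟩
      · rintro ⟨t, ht, h1, h2⟩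
        refine ⟨t, ?_, h1, h2⟩
        by_contra h3
        have : t = T := by omega
        subst this
        exact h h1

theorem load_full {W : A.Tape} {Z : A.Tape → Prop} (c d : A.Conf) (hM : ∀ i, c.head i ≤ M)
    (hZ : ∀ i, Z i → ∀ p, c.tape i p = A.blank) :
    Full W σ Z (load W (iface (M := M) (σ := σ) c) d) c := by
  constructor
  · rfl
  · funext i
    have h1 : (load W (iface (M := M) (σ := σ) c) d).head i =
        ((Fin.ofNat (M + 1) (c.head i) : Fin (M + 1)) : ℕ) := rfl
    rw [h1, Fin.val_ofNat]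
    exact Nat.mod_eq_of_lt (Nat.lt_succ_of_le (hM i))
  · intro i _ _ h3 p hp
    unfold load iface
    simp only [if_neg h3]
    by_cases hp' : p < σ
    · rw [dif_pos hp']
    · rw [dif_neg hp']
      rcases hp with hp | hp
      · exact absurd hp hp'
      · rw [hZ i hp p]

theorem load_cont {W : A.Tape} {S : Set ℕ} {f : Iface A M σ} {d c : A.Conf} (h : Cont W S d c) :
    Cont W S (load W f d) c := by
  intro h1 h2 p hp
  unfold load
  simp only [if_true]
  exact h h1 h2 p hp

/-- The simulation with the true list of visits to the segment `S` follows the run. -/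
theorem pre_agree (hwo : WriteOnly A) (hio : A.inp ≠ A.out) {W : A.Tape} {Z : A.Tape → Prop}
    {u : ℕ → A.Sym}
    {c : ℕ → A.Conf} {τ : ℕ} (hc : Runs A M σ W Z u c τ) {key : ℕ → ℕ × ℕ} {κ : ℕ × ℕ}
    {S : Set ℕ} (hin : ∀ t < τ, key t = κ → (c t).head W ∈ S)
    (hbetween : ∀ t0 t t1, t1 < τ → t0 ≤ t → t ≤ t1 → key t0 = κ → key t1 = κ →
      (c t).head W ∈ S → key t = κ)
    {c0 : A.Conf} {t0 : ℕ} (ht0 : key t0 = κ) (hfirst : ∀ t < t0, key t ≠ κ)
    (hc0 : Cont W S c0 (c t0)) :
    ∀ t < τ, key t = κ → Full W σ Z (pre M σ u W c0 c key κ t) (c t) ∧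
      Cont W S (pre M σ u W c0 c key κ t) (c t) := by
  have hnil : ∀ t ≤ t0, lst M σ c key κ t = [] := by
    intro t
    induction t with
    | zero => intro _; rfl
    | succ t ih =>
      intro ht
      rw [lst_succ_ne (hfirst t (by omega))]
      exact ih (by omega)
  -- the invariant
  have hinv : ∀ t, t0 ≤ t → ∀ t1, t ≤ t1 → t1 < τ → key t1 = κ →
      Cont W S (sim u W c0 (lst M σ c key κ t)) (c t) ∧
      (t0 < t → key (t - 1) = κ → Full W σ Z (sim u W c0 (lst M σ c key κ t)) (c t)) := by
    intro t ht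
    induction t, ht using Nat.le_induction with
    | base =>
      intro t1 _ _ _
      refine ⟨?_, fun h => absurd h (lt_irrefl _)⟩
      rw [hnil t0 le_rfl]
      exact hc0
    | succ t ht ih =>
      intro t1 ht1 ht1' hk1
      obtain ⟨ih1, ih2⟩ := ih t1 (by omega) ht1' hk1
      by_cases hk : key t = κ
      · have hpre : Full W σ Z (pre M σ u W c0 c key κ t) (c t) ∧
            Cont W S (pre M σ u W c0 c key κ t) (c t) := by
          unfold pre
          by_cases h' : t = 0 ∨ key (t - 1) ≠ key t
          · rw [if_pos h']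
            exact ⟨load_full _ _ (hc.bound t (by omega)) (hc.blank t (by omega)), load_cont ih1⟩
          · rw [if_neg h']
            push Not at h'
            refine ⟨ih2 ?_ (h'.2.trans hk), ih1⟩
            by_contra hcon
            have : t = t0 := by omega
            subst this
            exact hfirst (t - 1) (by omega) (h'.2.trans hk)
        have hstep := agree_step hwo hio hpre.1 hpre.2 (hc.inp t (by omega))
          (hin t (by omega) hk) (hc.small t (by omega))
        rw [← hc.step t (by omega)] at hstep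
        rw [sim_succ u W c0 hk]
        exact ⟨hstep.2, fun _ _ => hstep.1⟩
      · rw [lst_succ_ne hk]
        refine ⟨?_, fun _ h => absurd (by simpa using h) hk⟩
        intro h1 h2 p hp
        rw [ih1 h1 h2 p hp, hc.step t (by omega)]
        have hns : (c t).head W ∉ S := fun h =>
          hk (hbetween t0 t t1 ht1' ht (by omega) ht0 hk1 h)
        have hp' : p ≠ (c t).head W := fun h => hns (h ▸ hp)
        unfold MTM.next
        rcases A.act (c t) with _ | ⟨q, a⟩
        · rfl
        · simp only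
          rw [Function.update_of_ne hp']
  intro t ht hk
  have ht0' : t0 ≤ t := by
    by_contra hcon
    exact hfirst t (by omega) hk
  obtain ⟨ih1, ih2⟩ := hinv t ht0' t le_rfl ht hk
  unfold pre
  by_cases h' : t = 0 ∨ key (t - 1) ≠ key t
  · rw [if_pos h']
    exact ⟨load_full _ _ (hc.bound t ht) (hc.blank t ht), load_cont ih1⟩
  · rw [if_neg h']
    push Not at h'
    refine ⟨ih2 ?_ (h'.2.trans hk), ih1⟩
    by_contra hcon
    have : t = t0 := by omega
    subst this
    exact hfirst (t - 1) (by omega) (h'.2.trans hk)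

/-! Length and total duration of the list. -/

/-- The total duration. -/
def total (L : List (Iface A M σ × ℕ)) : ℕ := (L.map Prod.snd).sum

theorem total_inc (L : List (Iface A M σ × ℕ)) : total (inc L) ≤ total L + 1 := by
  cases L with
  | nil => simp [inc]
  | cons a L =>
    simp only [inc, total, List.map_cons, List.sum_cons]
    omega

theorem length_inc (L : List (Iface A M σ × ℕ)) : (inc L).length = L.length := by
  cases L with
  | nil => rfl
  | cons a L => simp [inc]

theorem total_lst (c : ℕ → A.Conf) (key : ℕ → ℕ × ℕ) (κ : ℕ × ℕ) (T : ℕ) :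
    total (lst M σ c key κ T) ≤ ((Finset.range T).filter fun t => key t = κ).card := by
  induction T with
  | zero => simp [lst, total]
  | succ T ih =>
    rw [Finset.range_add_one, Finset.filter_insert]
    by_cases h : key T = κ
    · rw [if_pos h, Finset.card_insert_of_notMem (by simp)]
      by_cases h' : T = 0 ∨ key (T - 1) ≠ key T
      · rw [lst_succ_start h h']
        simp only [total, List.map_cons, List.sum_cons] at ih ⊢
        omega
      · rw [lst_succ_inc h h']
        exact (total_inc _).trans (by omega)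
    · rw [if_neg h, lst_succ_ne h]
      exact ih

theorem length_lst (c : ℕ → A.Conf) (key : ℕ → ℕ × ℕ) (κ : ℕ × ℕ) (T : ℕ) :
    (lst M σ c key κ T).length =
      ((Finset.range T).filter fun t => key t = κ ∧ (t = 0 ∨ key (t - 1) ≠ key t)).card := by
  induction T with
  | zero => simp [lst]
  | succ T ih =>
    rw [Finset.range_add_one, Finset.filter_insert]
    by_cases h : key T = κ
    · by_cases h' : T = 0 ∨ key (T - 1) ≠ key T
      · rw [if_pos ⟨h, h'⟩, Finset.card_insert_of_notMem (by simp), lst_succ_start h h',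
          List.length_cons, ih]
      · rw [if_neg (fun hh => h' hh.2), lst_succ_inc h h', length_inc, ih]
    · rw [if_neg (fun hh => h hh.1), lst_succ_ne h]
      exact ih

end Vale.Agent.P338.R2.H101
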