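import Mathlib
import Vale.Agent.P338.R2.H898.Model
import Vale.Agent.P338.R2.H101.Conv

/-!
P338, unconditional lower bounds: the input words.
-/

namespace Vale.Agent.P338.R2.H101

open Vale.Agent.P338.R2.H898

/-! The input words. -/

theorem foldl_val (l : List Bool) (a : ℕ) :
    l.foldl (fun a b => 2 * a + b.toNat) a = 2 ^ l.length * a + val l := by
  induction l generalizing a with
  | nil => simp [val]
  | cons b l ih =>
    have h1 : val (b :: l) = 2 ^ l.length * (2 * 0 + b.toNat) + val l := ih _
    rw [List.foldl_cons, ih, h1, List.length_cons]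
    ring

theorem val_append (l l' : List Bool) : val (l ++ l') = 2 ^ l'.length * val l + val l' := by
  unfold val
  rw [List.foldl_append]
  exact foldl_val l' _

@[simp] theorem length_bin (k z : ℕ) : (bin k z).length = k := by simp [bin]

theorem getElem?_bin (k z p : ℕ) (hp : p < k) : (bin k z)[p]? = some (z.testBit (k - 1 - p)) := by
  unfold bin
  rw [List.getElem?_ofFn, dif_pos hp]

theorem bin_succ (k z : ℕ) : bin (k + 1) z = bin k (z / 2) ++ [z.testBit 0] := by
  apply List.ext_getElem?
  intro p
  rcases lt_trichotomy p k with hp | hp | hp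
  · rw [getElem?_bin _ _ _ (by omega), List.getElem?_append_left (by simpa using hp),
      getElem?_bin _ _ _ hp, ← Nat.testBit_succ]
    congr 2
    omega
  · subst hp
    rw [getElem?_bin _ _ _ (by omega), List.getElem?_append_right (by simp)]
    simp
  · rw [List.getElem?_eq_none (by simp; omega), List.getElem?_eq_none (by simp; omega)]

theorem val_bin (k z : ℕ) : val (bin k z) = z % 2 ^ k := by
  induction k generalizing z with
  | zero => simp [bin, val, Nat.mod_one]
  | succ k ih =>
    rw [bin_succ, val_append, ih]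
    simp only [List.length_singleton, pow_one]
    have h1 : val [z.testBit 0] = z % 2 := by
      rw [Nat.testBit_zero]
      rcases Nat.mod_two_eq_zero_or_one z with h | h <;> simp [val, h]
    rw [h1, pow_succ, mul_comm (2 ^ k) 2, Nat.mod_mul]
    ring

/-- The first factor. -/
def wx (n D : ℕ) {X Y : ℕ} (ω : Inp X Y) : List Bool := bin n (spread D ω.1)

/-- The second factor. -/
def wy (n D : ℕ) {X Y : ℕ} (ω : Inp X Y) : List Bool := bin n (spread D ω.2)

/-- The input word. -/
def word (n D : ℕ) {X Y : ℕ} (ω : Inp X Y) : List Letter := mulWord (wx n D ω) (wy n D ω)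

/-- The coordinate stored in the cell `p` of the input tape. -/
def coord (n D X Y p : ℕ) : Option (Fin X ⊕ Fin Y) :=
  if p < n then
    if h : D ∣ (n - 1 - p) ∧ (n - 1 - p) / D < X then some (Sum.inl ⟨_, h.2⟩) else none
  else
    if h : p ≤ 2 * n ∧ n < p ∧ D ∣ (2 * n - p) ∧ (2 * n - p) / D < Y then
      some (Sum.inr ⟨_, h.2.2.2⟩) else none

theorem word_getElem? {n D X Y : ℕ} (ω : Inp X Y) (p : ℕ) :
    (word n D ω)[p]? =
      if p < n then some (bitL ((spread D ω.1).testBit (n - 1 - p)))
      else if p = n then some Letter.hash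
      else if p ≤ 2 * n then some (bitL ((spread D ω.2).testBit (2 * n - p)))
      else none := by
  unfold word mulWord wx wy
  by_cases h1 : p < n
  · rw [if_pos h1, List.getElem?_append_left (by simpa using h1), List.getElem?_map,
      getElem?_bin _ _ _ h1]
    rfl
  · rw [if_neg h1, List.getElem?_append_right (by simpa using h1)]
    simp only [List.length_map, length_bin]
    by_cases h2 : p = n
    · rw [if_pos h2, h2]
      simp
    · rw [if_neg h2]
      have h3 : p - n = (p - n - 1) + 1 := by omega
      rw [h3, List.getElem?_cons_succ, List.getElem?_map]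
      by_cases h4 : p ≤ 2 * n
      · rw [if_pos h4, getElem?_bin _ _ _ (by omega)]
        simp only [Option.map_some, Option.some.injEq]
        congr 2
        omega
      · rw [if_neg h4, List.getElem?_eq_none (by simp; omega)]
        rfl

/-- A cell of the input depends only on the coordinate stored in it. -/
theorem word_local {n D X Y : ℕ} (hD : 1 ≤ D) (ω ω' : Inp X Y) (p : ℕ)
    (h : ∀ i, coord n D X Y p = some i → bit ω i = bit ω' i) :
    (word n D ω)[p]? = (word n D ω')[p]? := by
  rw [word_getElem?, word_getElem?]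
  by_cases h1 : p < n
  · rw [if_pos h1, if_pos h1, spread_testBit hD, spread_testBit hD]
    unfold coord at h
    rw [if_pos h1] at h
    split_ifs with h2
    · rw [dif_pos h2] at h
      have := h _ rfl
      simp only [bit, Sum.elim_inl] at this
      rw [this]
    · rfl
  · rw [if_neg h1, if_neg h1]
    by_cases h2 : p = n
    · rw [if_pos h2, if_pos h2]
    · rw [if_neg h2, if_neg h2]
      by_cases h3 : p ≤ 2 * n
      · rw [if_pos h3, if_pos h3, spread_testBit hD, spread_testBit hD]
        unfold coord at h
        rw [if_neg h1] at h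
        split_ifs with h4
        · rw [dif_pos ⟨h3, by omega, h4.1, h4.2⟩] at h
          have := h _ rfl
          simp only [bit, Sum.elim_inr] at this
          rw [this]
        · rfl
      · rw [if_neg h3, if_neg h3]

theorem coord_inl {n D X Y p : ℕ} {i : Fin X} (h : coord n D X Y p = some (Sum.inl i)) :
    p < n ∧ D ∣ (n - 1 - p) ∧ (n - 1 - p) / D = i := by
  unfold coord at h
  by_cases h1 : p < n
  · rw [if_pos h1] at h
    by_cases h2 : D ∣ (n - 1 - p) ∧ (n - 1 - p) / D < X
    · rw [dif_pos h2] at h
      simp only [Option.some.injEq, Sum.inl.injEq] at h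
      exact ⟨h1, h2.1, congrArg Fin.val h⟩
    · rw [dif_neg h2] at h
      simp at h
  · rw [if_neg h1] at h
    by_cases h2 : p ≤ 2 * n ∧ n < p ∧ D ∣ (2 * n - p) ∧ (2 * n - p) / D < Y
    · rw [dif_pos h2] at h
      simp at h
    · rw [dif_neg h2] at h
      simp at h

theorem coord_inr {n D X Y p : ℕ} {i : Fin Y} (h : coord n D X Y p = some (Sum.inr i)) :
    n < p ∧ p ≤ 2 * n ∧ D ∣ (2 * n - p) ∧ (2 * n - p) / D = i := by
  unfold coord at h
  by_cases h1 : p < n
  · rw [if_pos h1] at h
    by_cases h2 : D ∣ (n - 1 - p) ∧ (n - 1 - p) / D < X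
    · rw [dif_pos h2] at h
      simp at h
    · rw [dif_neg h2] at h
      simp at h
  · rw [if_neg h1] at h
    by_cases h2 : p ≤ 2 * n ∧ n < p ∧ D ∣ (2 * n - p) ∧ (2 * n - p) / D < Y
    · rw [dif_pos h2] at h
      simp only [Option.some.injEq, Sum.inr.injEq] at h
      exact ⟨h2.2.1, h2.1, h2.2.2.1, congrArg Fin.val h⟩
    · rw [dif_neg h2] at h
      simp at h

/-- The cells with coordinates are at distance at least `D`. -/
theorem coord_sep {n D X Y : ℕ} (hY : D * Y ≤ n) (p p' : ℕ) (i i' : Fin X ⊕ Fin Y)
    (h : coord n D X Y p = some i) (h' : coord n D X Y p' = some i') (hpp : p < p') :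
    p + D ≤ p' := by
  cases i with
  | inl i =>
    obtain ⟨h1, h2, -⟩ := coord_inl h
    cases i' with
    | inl i' =>
      obtain ⟨h3, h4, -⟩ := coord_inl h'
      have h7 : D ≤ (n - 1 - p) - (n - 1 - p') := Nat.le_of_dvd (by omega) (Nat.dvd_sub h2 h4)
      omega
    | inr i' =>
      obtain ⟨h3, h4, h5, h6⟩ := coord_inr h'
      have h8 : 2 * n - p' = D * i' := by rw [← h6, Nat.mul_div_cancel' h5]
      have h9 : D * ((i' : ℕ) + 1) ≤ D * Y := Nat.mul_le_mul_left _ i'.2
      rw [Nat.mul_succ] at h9
      omega
  | inr i =>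
    obtain ⟨h1, h2, h2', -⟩ := coord_inr h
    cases i' with
    | inl i' =>
      obtain ⟨h3, -⟩ := coord_inl h'
      omega
    | inr i' =>
      obtain ⟨h3, h4, h5, h6⟩ := coord_inr h'
      have h7 : D ≤ (2 * n - p) - (2 * n - p') := Nat.le_of_dvd (by omega) (Nat.dvd_sub h2' h5)
      omega

end Vale.Agent.P338.R2.H101
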