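import Mathlib
import Vale.Agent.P338.R2.H101.Word
import Vale.Agent.P338.R2.H101.Truth

/-!
P338, unconditional lower bounds: one list of visits predicts many product bits for few inputs.
-/

namespace Vale.Agent.P338.R2.H101

open Vale.Agent.P338.R2.H898

open Classical

theorem data_count {n D X Y : ℕ} (hD : 1 ≤ D) (hY : D * Y ≤ n) (lo hi : ℕ) :
    (Finset.univ.filter fun i : Fin X ⊕ Fin Y =>
      ∃ p, lo ≤ p ∧ p ≤ hi ∧ coord n D X Y p = some i).card ≤ (hi - lo) / D + 1 := by
  have hch : ∀ i : Fin X ⊕ Fin Y, ∃ p, (∃ p, lo ≤ p ∧ p ≤ hi ∧ coord n D X Y p = some i) →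
      lo ≤ p ∧ p ≤ hi ∧ coord n D X Y p = some i := by
    intro i
    by_cases h : ∃ p, lo ≤ p ∧ p ≤ hi ∧ coord n D X Y p = some i
    · obtain ⟨p, hp⟩ := h
      exact ⟨p, fun _ => hp⟩
    · exact ⟨0, fun h' => absurd h' h⟩
  choose f hf using hch
  have h1 : ((hi - lo) / D + 1) = (Finset.range ((hi - lo) / D + 1)).card := by simp
  rw [h1]
  apply Finset.card_le_card_of_injOn (fun i => (f i - lo) / D)
  · intro i hi'
    simp only [Finset.coe_filter, Finset.mem_univ, true_and, Set.mem_ofPred_eq] at hi'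
    obtain ⟨h2, h3, h4⟩ := hf i hi'
    simp only [Finset.coe_range, Set.mem_Iio]
    have : (f i - lo) / D ≤ (hi - lo) / D := Nat.div_le_div_right (by omega)
    omega
  · intro i hi' i' hi'' heq
    simp only [Finset.coe_filter, Finset.mem_univ, true_and, Set.mem_ofPred_eq] at hi' hi''
    obtain ⟨h2, h3, h4⟩ := hf i hi'
    obtain ⟨h2', h3', h4'⟩ := hf i' hi''
    simp only at heq
    have key : ∀ a b : ℕ, lo ≤ a → a + D ≤ b → (a - lo) / D < (b - lo) / D := by
      intro a b ha hab
      have : b - lo ≥ (a - lo) + D := by omega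
      calc (a - lo) / D < (a - lo) / D + 1 := by omega
        _ = ((a - lo) + D) / D := by rw [Nat.add_div_right _ (by omega)]
        _ ≤ _ := Nat.div_le_div_right this
    rcases lt_trichotomy (f i) (f i') with h | h | h
    · have := key _ _ h2 (coord_sep hY _ _ _ _ h4 h4' h)
      omega
    · rw [h, h4'] at h4
      simpa using h4.symm
    · have := key _ _ h2' (coord_sep hY _ _ _ _ h4' h4 h)
      omega

section

variable {A : MTM} {M σ : ℕ}

/-- The coordinates that can be read during the visits of the list. -/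
noncomputable def rset (n D X Y : ℕ) (L : List (Iface A M σ × ℕ)) : Finset (Fin X ⊕ Fin Y) :=
  Finset.univ.filter fun i => ∃ p, Near L p ∧ coord n D X Y p = some i

theorem rset_card {n D X Y : ℕ} (hD : 1 ≤ D) (hY : D * Y ≤ n) (L : List (Iface A M σ × ℕ)) :
    (rset n D X Y L).card ≤ 2 * total L / D + L.length := by
  induction L with
  | nil =>
    have : rset n D X Y ([] : List (Iface A M σ × ℕ)) = ∅ := by
      rw [Finset.eq_empty_iff_forall_notMem]
      intro i hi
      unfold rset at hi
      rw [Finset.mem_filter] at hi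
      obtain ⟨-, p, ⟨a, ha, -⟩, -⟩ := hi
      simp at ha
    rw [this]
    simp
  | cons a L ih =>
    have h1 : rset n D X Y (a :: L) ⊆ (Finset.univ.filter fun i : Fin X ⊕ Fin Y =>
        ∃ p, (a.1.2.1 A.inp : ℕ) - a.2 ≤ p ∧ p ≤ (a.1.2.1 A.inp : ℕ) + a.2 ∧
          coord n D X Y p = some i) ∪ rset n D X Y L := by
      intro i hi
      unfold rset at hi
      rw [Finset.mem_filter] at hi
      obtain ⟨-, p, ⟨b, hb, hb1, hb2⟩, hp⟩ := hi
      rw [Finset.mem_union]
      rcases List.mem_cons.1 hb with rfl | hb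
      · left
        rw [Finset.mem_filter]
        exact ⟨Finset.mem_univ _, p, by omega, hb2, hp⟩
      · right
        unfold rset
        rw [Finset.mem_filter]
        exact ⟨Finset.mem_univ _, p, ⟨b, hb, hb1, hb2⟩, hp⟩
    have h2 := data_count (X := X) hD hY ((a.1.2.1 A.inp : ℕ) - a.2) ((a.1.2.1 A.inp : ℕ) + a.2)
    have h3 : ((a.1.2.1 A.inp : ℕ) + a.2 - ((a.1.2.1 A.inp : ℕ) - a.2)) / D ≤ 2 * a.2 / D :=
      Nat.div_le_div_right (by omega)
    have h4 : total (a :: L) = a.2 + total L := by simp [total]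
    have h5 : 2 * a.2 / D + 2 * total L / D ≤ 2 * (a.2 + total L) / D := by
      rw [mul_add]
      exact Nat.div_add_div_le_add_div
    calc (rset n D X Y (a :: L)).card ≤ _ := Finset.card_le_card h1
      _ ≤ _ := Finset.card_union_le _ _
      _ ≤ (2 * a.2 / D + 1) + (2 * total L / D + L.length) :=
          Nat.add_le_add (h2.trans (by omega)) ih
      _ ≤ _ := by
        rw [h4, List.length_cons]
        omega

/-- The contents of the input tape. -/
noncomputable def tapeOf (A : MTM) (n D : ℕ) {X Y : ℕ} (ω : Inp X Y) : ℕ → A.Sym := fun p =>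
  (((word n D ω)[p]?).map A.letter).getD A.blank

/-- The output cell with the `s`-th middle coefficient. -/
def ocell (n D X : ℕ) (s : ℕ) : ℕ := 2 * n - 1 - D * (X - 1 + s)

/-- The predictions on the coefficients contained in a set of written symbols. -/
noncomputable def preds (A : MTM) (n D X μ : ℕ) (E : Finset (ℕ × A.Sym)) :
    Finset (Fin μ × ZMod 2) :=
  Finset.univ.filter fun p => (ocell n D X p.1, A.letter (bitL (decide (p.2 = 1)))) ∈ E

/-- The inputs on which the simulation of the list `L` makes at least `k` predictions, all of them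
correct. -/
noncomputable def lucky (n D X Y μ : ℕ) (W : A.Tape) (c0 : A.Conf) (L : List (Iface A M σ × ℕ))
    (k : ℕ) : Finset (Inp X Y) :=
  Finset.univ.filter fun ω =>
    k ≤ ((preds A n D X μ (ems (tapeOf A n D ω) W c0 L)).image Prod.fst).card ∧
    ∀ p ∈ preds A n D X μ (ems (tapeOf A n D ω) W c0 L), conv μ ω.1 ω.2 p.1 = p.2

theorem lucky_card {n D X Y μ : ℕ} (hD : 1 ≤ D) (hY : D * Y ≤ n) (hXY : X + μ ≤ Y + 1)
    (W : A.Tape) (c0 : A.Conf) (L : List (Iface A M σ × ℕ))
    (hL : 2 * total L / D + L.length + 2 * μ ≤ X) (k : ℕ) :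
    2 ^ k * (lucky n D X Y μ W c0 L k).card ≤ 2 * 2 ^ (X + Y) := by
  have h := reader_count hXY (fun _ => rset n D X Y L)
    (fun ω => preds A n D X μ (ems (tapeOf A n D ω) W c0 L)) (by
      intro ω ω' hag
      refine ⟨rfl, ?_⟩
      have h1 := sim_local (tapeOf A n D ω') (tapeOf A n D ω) W c0 L (by
        intro p hp
        unfold tapeOf
        rw [word_local hD ω' ω p]
        intro i hi
        apply hag
        unfold rset
        rw [Finset.mem_filter]
        exact ⟨Finset.mem_univ _, p, hp, hi⟩)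
      rw [h1.2]) (by
      intro ω
      have := rset_card (X := X) hD hY L
      omega) k
  exact h

end

end Vale.Agent.P338.R2.H101
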