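import Vale.Agent.P338.R2.H101.FastDef
import Vale.Agent.P338.R2.H778.CostSum
import Vale.Agent.P338.R2.H898.Clean
import Vale.Agent.P338.R2.H207.Bridge

/-!
P338: the analytic end of the reduction with a bounded number of large multiplications.
-/

namespace Vale.Agent.P338.R2.H101

open Vale.Agent.P338.R2.H898
open Vale.Agent.P338.R2.H778 (Tot)
open Vale.Agent.P338.R2.H784 (ex Near)

/-- The upper bound for the transposition time. -/
def Bound2 (C : ℝ) (r s tA tA' tB : ℕ) : Prop :=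
  ∀ j : ℕ, (tB : ℝ) ≤ C * (((j : ℝ) + 1) * tA + (4 : ℝ) ^ ex r s * ((tA' : ℝ) / ex r s +
    (Nat.log 2 (ex r s + 1) : ℝ) / 2 ^ j + Nat.log 2 (Nat.log 2 (ex r s + 1) + 1) + 1))

theorem log_height_le {l c6 h : ℕ} (hh : h ≤ Nat.log 2 l + c6) :
    Nat.log 2 (h - 1) ≤ Nat.log 2 (Nat.log 2 (l + 1) + 1) + c6 + 1 := by
  have h1 : Nat.log 2 l ≤ Nat.log 2 (l + 1) := Nat.log_mono_right (by omega)
  set a := Nat.log 2 (l + 1) with ha
  have h2 : a + 1 < 2 ^ (Nat.log 2 (a + 1) + 1) := Nat.lt_pow_succ_log_self (by norm_num) _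
  have h3 : c6 < 2 ^ c6 := Nat.lt_two_pow_self
  have h4 : h - 1 < 2 ^ (Nat.log 2 (a + 1) + c6 + 2) := by
    have e1 : (2 : ℕ) ^ (Nat.log 2 (a + 1) + c6 + 2) =
        2 * (2 ^ (Nat.log 2 (a + 1) + 1) * 2 ^ c6) := by
      rw [← pow_add, ← pow_succ']
      congr 1
      omega
    rw [e1]
    have e2 : 2 ^ (Nat.log 2 (a + 1) + 1) ≤ 2 ^ (Nat.log 2 (a + 1) + 1) * 2 ^ c6 :=
      Nat.le_mul_of_pos_right _ (by positivity)
    have e3 : 2 ^ c6 ≤ 2 ^ (Nat.log 2 (a + 1) + 1) * 2 ^ c6 :=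
      Nat.le_mul_of_pos_left _ (by positivity)
    omega
  have h5 := Nat.log_lt_of_lt_pow' (b := 2) (x := Nat.log 2 (a + 1) + c6 + 2) (y := h - 1)
    (by omega) h4
  omega

/-- The cost of the loop from the height `h`. -/
theorem tot_le {l T c1 c2 c3 c6 N h t : ℕ} (hN : N ≤ c3 * 4 ^ l) (hh : h ≤ Nat.log 2 l + c6)
    (ht : Tot l T c1 c2 N h t) (j : ℕ) :
    (t : ℝ) ≤ ((c1 * (c3 + 1) + 8 * c1 + 6 * c2) * (2 * c6 + 2) : ℕ) * (((j : ℝ) + 1) * T +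
      (4 : ℝ) ^ l * ((Nat.log 2 (l + 1) : ℝ) / 2 ^ j + Nat.log 2 (Nat.log 2 (l + 1) + 1) + 1)) := by
  have h1 := ht.le hN j
  have hc1 : (0 : ℝ) ≤ c1 := by positivity
  have hc2 : (0 : ℝ) ≤ c2 := by positivity
  have hc3 : (0 : ℝ) ≤ c3 := by positivity
  have hc6 : (0 : ℝ) ≤ c6 := by positivity
  have hT : (0 : ℝ) ≤ T := by positivity
  have hj : (0 : ℝ) ≤ j := by positivity
  have hp : (0 : ℝ) < 4 ^ l := by positivity
  have hcc : (0 : ℝ) ≤ c1 * (c3 + 1) := by positivity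
  have hlog : (Nat.log 2 (h - 1) : ℝ) ≤ Nat.log 2 (Nat.log 2 (l + 1) + 1) + c6 + 1 := by
    exact_mod_cast log_height_le hh
  have hh' : (h : ℝ) ≤ Nat.log 2 (l + 1) + c6 := by
    have : Nat.log 2 l ≤ Nat.log 2 (l + 1) := Nat.log_mono_right (by omega)
    exact_mod_cast hh.trans (by omega)
  have h2j : (1 : ℝ) ≤ 2 ^ j := one_le_pow₀ (by norm_num)
  have hdiv : (h : ℝ) / 2 ^ j ≤ (Nat.log 2 (l + 1) : ℝ) / 2 ^ j + c6 := by
    have e1 : (h : ℝ) / 2 ^ j ≤ ((Nat.log 2 (l + 1) : ℝ) + c6) / 2 ^ j :=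
      div_le_div_of_nonneg_right hh' (by positivity)
    have e2 : (c6 : ℝ) / 2 ^ j ≤ c6 := div_le_self hc6 h2j
    rw [add_div] at e1
    linarith
  set X : ℝ := (Nat.log 2 (l + 1) : ℝ) / 2 ^ j with hX
  set Y : ℝ := (Nat.log 2 (Nat.log 2 (l + 1) + 1) : ℝ) with hY
  have hX0 : 0 ≤ X := by positivity
  have hY0 : 0 ≤ Y := by positivity
  set A : ℝ := c1 * (c3 + 1) + 8 * c1 + 6 * c2 with hA
  have hA0 : 0 ≤ A := by positivity
  have hcast : (((c1 * (c3 + 1) + 8 * c1 + 6 * c2) * (2 * c6 + 2) : ℕ) : ℝ) = A * (2 * c6 + 2) := by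
    rw [hA]
    push_cast
    ring
  rw [hcast]
  have e1 : (2 * c1 * j + 2 * c1 + 2 * c2) * (T : ℝ) ≤ A * (2 * c6 + 2) * (((j : ℝ) + 1) * T) := by
    have e2 : (2 * c1 * j + 2 * c1 + 2 * c2 : ℝ) ≤ A * (j + 1) := by
      rw [hA]
      nlinarith [mul_nonneg hc1 hj, mul_nonneg hc2 hj, mul_nonneg hcc hj]
    have e3 : A * (j + 1) ≤ A * (j + 1) * (2 * c6 + 2) := by
      have : (0 : ℝ) ≤ A * (j + 1) := by positivity
      nlinarith
    calc (2 * c1 * j + 2 * c1 + 2 * c2) * (T : ℝ) ≤ A * (j + 1) * (2 * c6 + 2) * T :=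
          mul_le_mul_of_nonneg_right (e2.trans e3) hT
      _ = _ := by ring
  have e4 : 4 * c1 * ((h : ℝ) / 2 ^ j) ≤ A * X + A * c6 := by
    have e5 : (4 * c1 : ℝ) ≤ A := by rw [hA]; nlinarith
    calc 4 * c1 * ((h : ℝ) / 2 ^ j) ≤ 4 * c1 * (X + c6) :=
          mul_le_mul_of_nonneg_left hdiv (by positivity)
      _ ≤ A * (X + c6) := mul_le_mul_of_nonneg_right e5 (by positivity)
      _ = _ := by ring
  have e6 : (c1 * (c3 + 1) + 2 * c1 + 4 * c2) * ((Nat.log 2 (h - 1) : ℝ) + 1) ≤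
      A * (Y + c6 + 2) := by
    have e7 : (c1 * (c3 + 1) + 2 * c1 + 4 * c2 : ℝ) ≤ A := by rw [hA]; nlinarith
    have e8 : (0 : ℝ) ≤ (Nat.log 2 (h - 1) : ℝ) := by positivity
    exact mul_le_mul e7 (by linarith) (by linarith) hA0
  have e9 : A * X + A * c6 + A * (Y + c6 + 2) ≤ A * (2 * c6 + 2) * (X + Y + 1) := by
    have f1 := mul_nonneg hA0 hX0
    have f2 := mul_nonneg hA0 hY0
    have f3 := mul_nonneg (mul_nonneg hA0 hc6) hX0
    have f4 := mul_nonneg (mul_nonneg hA0 hc6) hY0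
    have f5 : A * (2 * c6 + 2) * (X + Y + 1) = 2 * (A * c6 * X) + 2 * (A * c6 * Y) +
        2 * (A * c6) + 2 * (A * X) + 2 * (A * Y) + 2 * A := by ring
    rw [f5]
    linarith
  calc (t : ℝ) ≤ _ := h1
    _ ≤ A * (2 * c6 + 2) * (((j : ℝ) + 1) * T) + (4 : ℝ) ^ l * (A * (2 * c6 + 2) * (X + Y + 1)) := by
        apply add_le_add e1
        apply mul_le_mul_of_nonneg_left _ hp.le
        linarith
    _ = _ := by ring

/-- The constant of the final bound. -/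
def fastConst (c1 c2 c3 c4 c5 c6 : ℕ) : ℕ :=
  c4 * ((c1 * (c3 + 1) + 8 * c1 + 6 * c2) * (2 * c6 + 2) + c3 + 2 * c5 + 2)

/-- From the cost of the program to `Bound2`: `t` is the cost of the adaptive loop from the height
`h`, `M` the number of modular multiplications. -/
theorem bound2_of_tot {r s tA tA' tB c1 c2 c3 c4 c5 c6 N M h t : ℕ} (hl : 1 ≤ ex r s)
    (hN : N ≤ c3 * 4 ^ ex r s) (hM : M * ex r s ≤ c5 * 4 ^ ex r s)
    (hh : h ≤ Nat.log 2 (ex r s) + c6) (ht : Tot (ex r s) tA c1 c2 N h t)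
    (hB : tB ≤ c4 * (t + tA + 4 ^ ex r s + N + M * (tA' + ex r s))) :
    Bound2 (fastConst c1 c2 c3 c4 c5 c6) r s tA tA' tB := by
  intro j
  have h1 := tot_le hN hh ht j
  set l := ex r s with hldef
  have hl0 : (0 : ℝ) < l := by exact_mod_cast hl
  have hp : (0 : ℝ) < 4 ^ l := by positivity
  have hN' : (N : ℝ) ≤ c3 * 4 ^ l := by exact_mod_cast hN
  have hM' : (M : ℝ) * l ≤ c5 * 4 ^ l := by exact_mod_cast hM
  have hB' : (tB : ℝ) ≤ c4 * (t + tA + 4 ^ l + N + M * (tA' + l)) := by exact_mod_cast hB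
  have hc3 : (0 : ℝ) ≤ c3 := Nat.cast_nonneg _
  have hc4 : (0 : ℝ) ≤ c4 := Nat.cast_nonneg _
  have hc5 : (0 : ℝ) ≤ c5 := Nat.cast_nonneg _
  have hj : (0 : ℝ) ≤ j := Nat.cast_nonneg _
  have hT : (0 : ℝ) ≤ tA := Nat.cast_nonneg _
  have hT' : (0 : ℝ) ≤ tA' := Nat.cast_nonneg _
  set K : ℕ := (c1 * (c3 + 1) + 8 * c1 + 6 * c2) * (2 * c6 + 2) with hK
  have hK0 : (0 : ℝ) ≤ K := Nat.cast_nonneg _
  set X : ℝ := (Nat.log 2 (l + 1) : ℝ) / 2 ^ j with hX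
  set Y : ℝ := (Nat.log 2 (Nat.log 2 (l + 1) + 1) : ℝ) with hY
  have hX0 : 0 ≤ X := by positivity
  have hY0 : 0 ≤ Y := by positivity
  set S : ℝ := ((j : ℝ) + 1) * tA + (4 : ℝ) ^ l * ((tA' : ℝ) / l + X + Y + 1) with hS
  have hjT : (0 : ℝ) ≤ j * tA := mul_nonneg hj hT
  have hQ0 : (0 : ℝ) ≤ (4 : ℝ) ^ l * ((tA' : ℝ) / l) := by positivity
  have hPX : (0 : ℝ) ≤ (4 : ℝ) ^ l * X := by positivity
  have hPY : (0 : ℝ) ≤ (4 : ℝ) ^ l * Y := by positivity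
  have hSe : S = j * tA + tA + (4 : ℝ) ^ l * ((tA' : ℝ) / l) + (4 : ℝ) ^ l * X +
      (4 : ℝ) ^ l * Y + (4 : ℝ) ^ l := by
    rw [hS]
    ring
  have e1 : (t : ℝ) ≤ K * S := by
    refine h1.trans (mul_le_mul_of_nonneg_left ?_ hK0)
    rw [hSe]
    have : ((j : ℝ) + 1) * tA + (4 : ℝ) ^ l * (X + Y + 1) = j * tA + tA + (4 : ℝ) ^ l * X +
      (4 : ℝ) ^ l * Y + (4 : ℝ) ^ l := by ring
    rw [this]
    linarith
  have e2 : (tA : ℝ) ≤ S := by
    rw [hSe]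
    linarith
  have e3 : (4 : ℝ) ^ l ≤ S := by
    rw [hSe]
    linarith
  have e4 : (N : ℝ) ≤ c3 * S := hN'.trans (mul_le_mul_of_nonneg_left e3 hc3)
  have e5 : (M : ℝ) * (tA' + l) ≤ 2 * c5 * S := by
    have a1 : (M : ℝ) ≤ c5 * 4 ^ l / l := by
      rw [le_div_iff₀ hl0]
      exact hM'
    have a2 : (M : ℝ) * tA' ≤ c5 * (4 ^ l * (tA' / l)) := by
      calc (M : ℝ) * tA' ≤ c5 * 4 ^ l / l * tA' := mul_le_mul_of_nonneg_right a1 hT'
        _ = c5 * (4 ^ l * (tA' / l)) := by ring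
    have a3 : (4 : ℝ) ^ l * (tA' / l) ≤ S := by
      rw [hSe]
      linarith
    have a4 : (M : ℝ) * tA' ≤ c5 * S := a2.trans (mul_le_mul_of_nonneg_left a3 hc5)
    have a5 : (M : ℝ) * l ≤ c5 * S := hM'.trans (mul_le_mul_of_nonneg_left e3 hc5)
    rw [mul_add]
    linarith
  calc (tB : ℝ) ≤ c4 * (t + tA + 4 ^ l + N + M * (tA' + l)) := hB'
    _ ≤ c4 * (K * S + S + S + c3 * S + 2 * c5 * S) := by
        apply mul_le_mul_of_nonneg_left _ hc4
        linarith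
    _ = (fastConst c1 c2 c3 c4 c5 c6 : ℕ) * S := by
        rw [fastConst, ← hK]
        push_cast
        ring

theorem one_le_ex {r s : ℕ} (hr : 2 ≤ r) : 1 ≤ ex r s := by
  unfold ex
  exact Nat.clog_pos (by norm_num) (by omega)

/-- `log x + 2 ≤ (log x) ^ 4` for `x ≥ 4`. -/
theorem log_add_two_le_pow {x : ℝ} (hx : 4 ≤ x) :
    Real.log (Real.log x + 2) ≤ 4 * Real.log (Real.log x) := by
  have h4 : (1.38 : ℝ) ≤ Real.log 4 := by
    rw [show (4 : ℝ) = 2 ^ 2 by norm_num, Real.log_pow]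
    have := Real.log_two_gt_d9
    push_cast
    linarith
  have h1 : (1.38 : ℝ) ≤ Real.log x := h4.trans (Real.log_le_log (by norm_num) hx)
  have h2 : Real.log x + 2 ≤ Real.log x ^ 4 := by
    have e1 : (1.38 : ℝ) ^ 2 ≤ Real.log x ^ 2 := pow_le_pow_left₀ (by norm_num) h1 2
    have e2 : (1.9 : ℝ) ≤ Real.log x ^ 2 := by
      norm_num at e1 ⊢
      linarith
    nlinarith [sq_nonneg (Real.log x ^ 2 - 1.9), sq_nonneg (Real.log x - 1.38)]
  calc Real.log (Real.log x + 2) ≤ Real.log (Real.log x ^ 4) :=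
        Real.log_le_log (by linarith) h2
    _ = 4 * Real.log (Real.log x) := by
        rw [Real.log_pow]
        norm_num

theorem loglog_nonneg {x : ℝ} (hx : 4 ≤ x) : 0 ≤ Real.log (Real.log x) := by
  have h4 : (1.38 : ℝ) ≤ Real.log 4 := by
    rw [show (4 : ℝ) = 2 ^ 2 by norm_num, Real.log_pow]
    have := Real.log_two_gt_d9
    push_cast
    linarith
  exact Real.log_nonneg (by linarith [Real.log_le_log (by norm_num) hx])

theorem lg_eq_ex (r s : ℕ) : lg r s = ex r s := rfl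

/-- `log₂ (log₂ (l + 1) + 1)` is absorbed. -/
theorem loglog_ex_le {r s : ℕ} (hr : 2 ≤ r) (hs : 2 ≤ s) (hn : Near r s) (j : ℕ) :
    (Nat.log 2 (Nat.log 2 (ex r s + 1) + 1) : ℝ) ≤
      5 * ((j : ℝ) + 1) + 8 * (Real.log (Real.log (r * s)) / 2 ^ j) := by
  have hrs : (4 : ℝ) ≤ (r : ℝ) * s := by
    have : 2 * 2 ≤ r * s := Nat.mul_le_mul hr hs
    exact_mod_cast this
  have g1 := H207.log_ex_le hr hs hn
  have g2 := log_add_two_le_pow hrs
  have hlog : 0 ≤ Real.log ((r : ℝ) * s) := Real.log_nonneg (by linarith)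
  have hLL := loglog_nonneg hrs
  set a := Nat.log 2 (ex r s + 1) with ha
  set Y := Real.log (Real.log ((r : ℝ) * s) + 2) with hY
  have hY0 : 0 ≤ Y := Real.log_nonneg (by linarith)
  have g3 := log_add_two_le hY0 j
  have h2 := Real.log_two_gt_d9
  have e1 : ((2 : ℝ)) ^ Nat.log 2 (a + 1) ≤ (a : ℝ) + 1 := by
    have := Nat.pow_log_le_self 2 (x := a + 1) (by omega)
    exact_mod_cast this
  have e2 : (a : ℝ) + 1 ≤ 8 * (Y + 2) := by linarith
  have e3 := Real.log_le_log (by positivity) (e1.trans e2)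
  rw [Real.log_pow, Real.log_mul (by norm_num) (by linarith),
    show (8 : ℝ) = 2 ^ 3 by norm_num, Real.log_pow] at e3
  push_cast at e3
  have h2j : (0 : ℝ) < 2 ^ j := by positivity
  have hj : (0 : ℝ) ≤ j := Nat.cast_nonneg j
  have e4 : Y / 2 ^ j ≤ 4 * (Real.log (Real.log ((r : ℝ) * s)) / 2 ^ j) := by
    rw [← mul_div_assoc]
    exact div_le_div_of_nonneg_right g2 h2j.le
  have e5 : (0 : ℝ) ≤ Real.log (Real.log ((r : ℝ) * s)) / 2 ^ j := by positivity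
  set Z := Real.log (Real.log ((r : ℝ) * s)) / 2 ^ j with hZ
  have e6 : (Nat.log 2 (a + 1) : ℝ) * Real.log 2 ≤ 3 * Real.log 2 + ((j + 1) + 4 * Z) := by
    linarith
  have e7 : ((Nat.log 2 (a + 1) : ℝ) - 3) * Real.log 2 ≤ (j + 1) + 4 * Z := by linarith
  by_contra hcon
  push Not at hcon
  have e8 : 2 * ((j : ℝ) + 1) + 8 * Z < (Nat.log 2 (a + 1) : ℝ) - 3 := by linarith
  have e9 : (2 * ((j : ℝ) + 1) + 8 * Z) * (1 / 2) < ((Nat.log 2 (a + 1) : ℝ) - 3) * Real.log 2 := by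
    apply mul_lt_mul e8 (by linarith) (by norm_num)
    linarith
  linarith

/-- **The inequality of the reduction.** -/
theorem fastIneq_of_bound2 {C₀ : ℕ} {A A' : MTM} (hA : Multiplies A)
    (h : ∀ ρ < C₀, ∃ B : MTM, Transposes B ∧ ∃ C : ℝ, ∀ r s : ℕ, 2 ≤ r → 2 ≤ s → Near r s →
      ∀ M : Fin r → Fin s → Bool, Bound2 C r s (mulTime A (C₀ * H898.mu r s + ρ))
        (mulTime A' (ex r s)) (B.time (matWord M))) :
    FastIneq C₀ A A' := by
  intro ρ hρ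
  obtain ⟨B, hB, C, hC⟩ := h ρ hρ
  refine ⟨B, hB, |C| * 640, fun r s hr hs h1 h2 j => ?_⟩
  obtain ⟨M, hM⟩ := H207.exists_transTime B r s
  have hnear : Near r s := ⟨h1, h2⟩
  have hb := hC r s hr hs hnear M j
  rw [hM, lg_eq_ex]
  have g0 := mul_le_mulTime hA (show 1 ≤ C₀ by omega) ρ (show 1 ≤ r by omega)
    (show 1 ≤ s by omega)
  set T : ℝ := (mulTime A (C₀ * H898.mu r s + ρ) : ℝ)
  set T' : ℝ := (mulTime A' (ex r s) : ℝ)
  have g4 := loglog_ex_le hr hs hnear j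
  have g1 := H207.log_ex_le hr hs hnear
  set l := ex r s with hl
  have hT : 0 ≤ T := Nat.cast_nonneg _
  have hT' : 0 ≤ T' := Nat.cast_nonneg _
  have h4 : 4 ^ l ≤ 16 * (r * s) := H784.four_pow_ex_le (by omega) hnear
  have h4' : (4 : ℝ) ^ l ≤ 16 * ((r : ℝ) * s) := by exact_mod_cast h4
  have hrs : (4 : ℝ) ≤ (r : ℝ) * s := by
    have : 2 * 2 ≤ r * s := Nat.mul_le_mul hr hs
    exact_mod_cast this
  have g2 := log_add_two_le_pow hrs
  have hLL := loglog_nonneg hrs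
  set LL := Real.log (Real.log ((r : ℝ) * s)) with hLLdef
  set x : ℝ := (r : ℝ) * s with hx
  have hx0 : 0 ≤ x := by linarith
  have hj : (0 : ℝ) ≤ j := Nat.cast_nonneg j
  have h2j : (0 : ℝ) < 2 ^ j := by positivity
  set Z : ℝ := LL / 2 ^ j with hZ
  have hZ0 : 0 ≤ Z := by positivity
  have k1 : (Nat.log 2 (l + 1) : ℝ) / 2 ^ j ≤ 32 * Z := by
    rw [hZ, ← mul_div_assoc]
    exact div_le_div_of_nonneg_right (by linarith) h2j.le
  have k2 : T' / l + (Nat.log 2 (l + 1) : ℝ) / 2 ^ j + Nat.log 2 (Nat.log 2 (l + 1) + 1) + 1 ≤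
      T' / l + 40 * Z + 6 * (j + 1) := by linarith
  have k0 : 0 ≤ T' / l + (Nat.log 2 (l + 1) : ℝ) / 2 ^ j +
      Nat.log 2 (Nat.log 2 (l + 1) + 1) + 1 := by positivity
  have k3 : (4 : ℝ) ^ l * (T' / l + (Nat.log 2 (l + 1) : ℝ) / 2 ^ j +
      Nat.log 2 (Nat.log 2 (l + 1) + 1) + 1) ≤ 16 * x * (T' / l + 40 * Z + 6 * (j + 1)) :=
    mul_le_mul h4' k2 k0 (by positivity)
  have k4 : 16 * x * (T' / l + 40 * Z + 6 * (j + 1)) =
      16 * (x * (T' / l)) + 640 * (x * Z) + 96 * ((j + 1) * x) := by ring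
  have k5 : ((j : ℝ) + 1) * x ≤ (j + 1) * (2 * T) := mul_le_mul_of_nonneg_left g0 (by positivity)
  have k6 : 0 ≤ ((j : ℝ) + 1) * T := by positivity
  have k7 : 0 ≤ x * (T' / l) := by positivity
  have k8 : x * LL / 2 ^ j = x * Z := by rw [hZ, mul_div_assoc]
  rw [k8]
  calc (B.time (matWord M) : ℝ)
      ≤ C * (((j : ℝ) + 1) * T + (4 : ℝ) ^ l * (T' / l + (Nat.log 2 (l + 1) : ℝ) / 2 ^ j +
        Nat.log 2 (Nat.log 2 (l + 1) + 1) + 1)) := hb
    _ ≤ |C| * (((j : ℝ) + 1) * T + (4 : ℝ) ^ l * (T' / l + (Nat.log 2 (l + 1) : ℝ) / 2 ^ j +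
        Nat.log 2 (Nat.log 2 (l + 1) + 1) + 1)) :=
        mul_le_mul_of_nonneg_right (le_abs_self C) (by positivity)
    _ ≤ |C| * (640 * (((j : ℝ) + 1) * T + x * (T' / l) + x * Z)) := by
        apply mul_le_mul_of_nonneg_left _ (abs_nonneg C)
        linarith
    _ = |C| * 640 * (((j : ℝ) + 1) * T + x * (T' / l) + x * Z) := by ring

end Vale.Agent.P338.R2.H101
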