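import Vale.Agent.P338.R2.H898.Model

/-!
P338: the reduction with a bounded number of large multiplications, definitions.
-/

namespace Vale.Agent.P338.R2.H898

/-- `2 ^ lg r s` is the side of the padded matrix: `lg r s` is the least `l` with
`r, s ≤ 2 ^ l`. -/
def lg (r s : ℕ) : ℕ := Nat.clog 2 (max r s)

/-- The inequality of the reduction in which the number of large multiplications is bounded: `A`
is the machine for large multiplications, `A'` the machine for multiplications of
`lg r s`-bit numbers. -/
def FastIneq (C₀ : ℕ) (A A' : MTM) : Prop :=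
  ∀ ρ < C₀, ∃ B : MTM, Transposes B ∧ ∃ C : ℝ, ∀ r s : ℕ, 2 ≤ r → 2 ≤ s → r ≤ 4 * s → s ≤ 4 * r →
    ∀ j : ℕ, (transTime B r s : ℝ) ≤
      C * ((j + 1) * mulTime A (C₀ * mu r s + ρ) + r * s * (mulTime A' (lg r s) / lg r s) +
        r * s * Real.log (Real.log (r * s)) / 2 ^ j)

end Vale.Agent.P338.R2.H898
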