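import Vale.Agent.P338.R2.H101.Iter

/-!
P338: the analytic end of the reduction with `log*` phases.
-/

namespace Vale.Agent.P338.R2.H101

open Vale.Agent.P338.R2.H898
open Vale.Agent.P338.R2.H784 (ex Near)

theorem exists_iterate_log_le_one (n : ℕ) : ∀ x : ℝ, x ≤ n → ∃ k : ℕ, Real.log^[k] x ≤ 1 := by
  induction n with
  | zero =>
    intro x hx
    refine ⟨0, ?_⟩
    simp only [Function.iterate_zero, id]
    push_cast at hx
    linarith
  | succ n ih =>
    intro x hx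
    rcases le_or_gt x 1 with h | h
    · exact ⟨0, h⟩
    · push_cast at hx
      have h1 : Real.log x ≤ x - 1 := Real.log_le_sub_one_of_pos (by linarith)
      obtain ⟨k, hk⟩ := ih (Real.log x) (by linarith)
      exact ⟨k + 1, hk⟩

theorem iterate_logStar_le_one (x : ℝ) : Real.log^[logStar x] x ≤ 1 := by
  have h : {k : ℕ | Real.log^[k] x ≤ 1}.Nonempty :=
    exists_iterate_log_le_one ⌈x⌉₊ x (Nat.le_ceil x)
  exact Nat.sInf_mem h

/-- One phase. -/
theorem star_step {y : ℝ} (hy : 11 ≤ y) {h₁ h₂ : ℕ} (h : (h₁ : ℝ) ≤ 2 * y + 10) (h1 : 1 ≤ h₁)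
    (h2 : h₂ ≤ Nat.log 2 h₁ + 3) : (h₂ : ℝ) ≤ 2 * Real.log y + 10 := by
  have g2 := Real.log_two_gt_d9
  have g3 : Real.log 3 ≤ 2 := by
    have := Real.log_le_sub_one_of_pos (show (0 : ℝ) < 3 by norm_num)
    linarith
  have e1 : ((2 : ℝ)) ^ Nat.log 2 h₁ ≤ (h₁ : ℝ) := by
    have := Nat.pow_log_le_self 2 (x := h₁) (by omega)
    exact_mod_cast this
  have e2 : (h₁ : ℝ) ≤ 3 * y := by linarith
  have e3 := Real.log_le_log (by positivity) (e1.trans e2)
  rw [Real.log_pow, Real.log_mul (by norm_num) (by linarith)] at e3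
  have e4 : (h₂ : ℝ) ≤ Nat.log 2 h₁ + 3 := by exact_mod_cast h2
  have e5 : 0 ≤ Real.log y := Real.log_nonneg (by linarith)
  have e6 : (0 : ℝ) ≤ Nat.log 2 h₁ := Nat.cast_nonneg _
  nlinarith

/-- The heights. -/
theorem Lp.heights {T₀ : ℕ → ℕ} {c l k h₀ h V : ℕ} {x : ℝ} (hx : (h₀ : ℝ) ≤ 2 * x + 10)
    (hp : Lp T₀ c l k h₀ h V) :
    (h : ℝ) ≤ 2 * Real.log^[k] x + 10 ∧ ∀ i < k, 11 ≤ Real.log^[i] x := by
  induction hp with
  | zero h => exact ⟨hx, fun i hi => absurd hi (by omega)⟩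
  | @succ k h h₁ h₂ K V hp h32 h2 hK ih =>
    obtain ⟨g1, g2⟩ := ih hx
    have h32' : (32 : ℝ) ≤ h₁ := by exact_mod_cast h32
    have g3 : 11 ≤ Real.log^[k] x := by linarith
    refine ⟨?_, fun i hi => ?_⟩
    · rw [Function.iterate_succ_apply']
      exact star_step g3 g1 (by omega) h2
    · rcases Nat.lt_succ_iff_lt_or_eq.1 hi with h3 | h3
      · exact g2 i h3
      · rw [h3]
        exact g3

theorem Lp.le {T₀ : ℕ → ℕ} {c l k h₀ h V : ℕ} (hp : Lp T₀ c l k h₀ h V) : h ≤ h₀ := by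
  induction hp with
  | zero => exact le_rfl
  | @succ k h h₁ h₂ K V hp h32 h2 hK ih =>
    have e1 : Nat.log 2 h₁ + 3 ≤ h₁ := by
      have e2 : 2 ^ Nat.log 2 h₁ ≤ h₁ := Nat.pow_log_le_self 2 (by omega)
      have e3 : 5 ≤ Nat.log 2 h₁ := by
        rw [Nat.le_log_iff_pow_le (by norm_num) (by omega)]
        omega
      obtain ⟨m, hm⟩ : ∃ m, Nat.log 2 h₁ = m + 5 := ⟨Nat.log 2 h₁ - 5, by omega⟩
      rw [hm] at e2 ⊢
      rw [pow_add] at e2
      have e4 : m < 2 ^ m := Nat.lt_two_pow_self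
      omega
    omega

/-- The cost of the small multiplications. -/
theorem Lp.cost {T₀ : ℕ → ℕ} {c l : ℕ} {K T : ℝ}
    (hK : ∀ i ≤ l, (4 : ℝ) ^ l * T₀ i ≤ K * ((i + 1) * T)) {k h₀ h V : ℕ} (hh0 : h₀ ≤ l)
    (hp : Lp T₀ c l k h₀ h V) : (V : ℝ) ≤ k * (c * (K * T + 4 ^ l)) := by
  induction hp with
  | zero => simp
  | @succ k h h₁ h₂ N V hp h32 h2 hN ih =>
    have hp' := hp.le
    have e1 := hK h₁ (by omega)
    have e2 := (Nat.cast_le (α := ℝ)).2 hN
    push_cast at e2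
    have e0 := ih hh0
    have hc : (0 : ℝ) ≤ c := Nat.cast_nonneg _
    have hh : (0 : ℝ) < (h₁ : ℝ) + 1 := by positivity
    have hT₀ : (0 : ℝ) ≤ T₀ h₁ := Nat.cast_nonneg _
    have e3 : ((h₁ : ℝ) + 1) * (N * T₀ h₁) ≤ (h₁ + 1) * (c * (K * T)) := by
      calc ((h₁ : ℝ) + 1) * (N * T₀ h₁) = N * (h₁ + 1) * T₀ h₁ := by ring
        _ ≤ c * 4 ^ l * T₀ h₁ := mul_le_mul_of_nonneg_right e2 hT₀
        _ = c * (4 ^ l * T₀ h₁) := by ring
        _ ≤ c * (K * ((h₁ + 1) * T)) := mul_le_mul_of_nonneg_left e1 hc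
        _ = _ := by ring
    have e4 : (N : ℝ) * T₀ h₁ ≤ c * (K * T) := le_of_mul_le_mul_left e3 hh
    have e5 : (N : ℝ) * h₁ ≤ c * 4 ^ l := by
      refine le_trans ?_ e2
      apply mul_le_mul_of_nonneg_left _ (Nat.cast_nonneg _)
      linarith
    push_cast
    have e6 : (c : ℝ) * (K * T + 4 ^ l) = c * (K * T) + c * 4 ^ l := by ring
    have e7 : ((k : ℝ) + 1) * (c * (K * T + 4 ^ l)) = k * (c * (K * T + 4 ^ l)) +
        (c * (K * T) + c * 4 ^ l) := by ring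
    rw [e7]
    linarith

theorem ex_le_two_log {r s : ℕ} (hr : 2 ≤ r) (hs : 2 ≤ s) (hn : Near r s) :
    (ex r s : ℝ) ≤ 2 * Real.log (r * s) + 10 := by
  have h4 : 4 ^ ex r s ≤ 16 * (r * s) := H784.four_pow_ex_le (by omega) hn
  have h4' : (4 : ℝ) ^ ex r s ≤ 16 * ((r : ℝ) * s) := by exact_mod_cast h4
  have hrs : (4 : ℝ) ≤ (r : ℝ) * s := by
    have : 2 * 2 ≤ r * s := Nat.mul_le_mul hr hs
    exact_mod_cast this
  have e1 := Real.log_le_log (by positivity) h4'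
  rw [Real.log_pow, Real.log_mul (by norm_num) (by positivity),
    show (16 : ℝ) = 4 ^ 2 by norm_num, Real.log_pow] at e1
  push_cast at e1
  have e3 : 1 ≤ Real.log 4 := by
    have : Real.log 4 = 2 * Real.log 2 := by
      rw [show (4 : ℝ) = 2 ^ 2 by norm_num, Real.log_pow]
      norm_num
    have := Real.log_two_gt_d9
    linarith
  have e4 : 0 ≤ Real.log ((r : ℝ) * s) := Real.log_nonneg (by linarith)
  have e5 : (0 : ℝ) ≤ ex r s := Nat.cast_nonneg _
  nlinarith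

/-- **The inequality with `log*` phases.** -/
theorem starIneq_of_costStar {C₀ : ℕ} (hC₀ : 32 ≤ C₀) {A A' : MTM} (hA : Multiplies A)
    (h : ∀ ρ < C₀, ∃ B : MTM, Transposes B ∧ ∃ c : ℕ, ∀ r s : ℕ, 1 ≤ r →
      1 ≤ s → Near r s → ∀ N : Fin r → Fin s → Bool, ∃ k h V,
        Lp (mulTime A') c (ex r s) k (ex r s) h V ∧ B.time (matWord N) ≤
          c * ((k + 1) * (mulTime A (C₀ * H898.mu r s + ρ) + 4 ^ ex r s +
            (C₀ * H898.mu r s + ρ)) + V)) :
    StarIneq C₀ A A' := by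
  intro ρ hρ
  obtain ⟨B, hB, c, hc⟩ := h ρ hρ
  refine ⟨B, hB, c * (3 + c * (16 + mulTime A' 0 + 1)), fun r s hr hs h1 h2 => ?_⟩
  obtain ⟨N, hN⟩ := H207.exists_transTime B r s
  have hnear : Near r s := ⟨h1, h2⟩
  obtain ⟨k, h', V, hlp, hle⟩ := hc r s (by omega) (by omega) hnear N
  obtain ⟨f1, f2, f3, f4⟩ := size_facts hA hC₀ hρ hr hs hnear
  have f5 := ex_le_two_log hr hs hnear
  have g1 := small_total hA hC₀ hρ hr hs hnear (hlp.cost (K := 1)
    (T := 4 ^ ex r s * (maxRate A' (ex r s) + mulTime A' 0)) (fun i hi => small_bound A' hi)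
    le_rfl)
  rw [hN, lg_eq_ex]
  set n := C₀ * H898.mu r s + ρ with hn
  set l := ex r s with hl
  have hrs : (4 : ℝ) ≤ (r : ℝ) * s := by
    have : 2 * 2 ≤ r * s := Nat.mul_le_mul hr hs
    exact_mod_cast this
  -- the number of phases
  have g2 : k + 1 ≤ logStar ((r : ℝ) * s) := by
    have a1 := (hlp.heights f5).2
    have a2 := iterate_logStar_le_one ((r : ℝ) * s)
    by_contra hcon
    push Not at hcon
    rcases Nat.eq_zero_or_pos (logStar ((r : ℝ) * s)) with h0 | h0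
    · rw [h0] at a2
      simp only [Function.iterate_zero, id] at a2
      linarith
    · obtain ⟨m, hm⟩ : ∃ m, logStar ((r : ℝ) * s) = m + 1 :=
        ⟨logStar ((r : ℝ) * s) - 1, by omega⟩
      rw [hm, Function.iterate_succ_apply] at a2
      have a3 := a1 m (by omega)
      linarith
  have hM := maxRate_nonneg A' l
  set M : ℝ := maxRate A' l with hMd
  set x : ℝ := (r : ℝ) * s with hx
  have hx0 : 0 ≤ x := by positivity
  set T : ℝ := (mulTime A n : ℝ) with hT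
  have hT0 : 0 ≤ T := Nat.cast_nonneg _
  have e1 : (4 : ℝ) ^ l ≤ T := by
    have : 4 ^ l ≤ mulTime A n := f1.trans f3
    rw [hT]
    exact_mod_cast this
  have e2 : (n : ℝ) ≤ T := by
    rw [hT]
    exact_mod_cast f3
  have e3 : (B.time (matWord N) : ℝ) ≤ c * ((k + 1) * (T + 4 ^ l + n) + V) := by
    rw [hT]
    exact_mod_cast hle
  have hcc : (0 : ℝ) ≤ c := Nat.cast_nonneg _
  have hk : (0 : ℝ) ≤ k := Nat.cast_nonneg _
  have h0 : (0 : ℝ) ≤ mulTime A' 0 := Nat.cast_nonneg _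
  have hxM : 0 ≤ x * M := mul_nonneg hx0 hM
  have g2' : (k : ℝ) + 1 ≤ logStar x := by exact_mod_cast g2
  set a : ℝ := c * (16 + mulTime A' 0 + 1) with ha
  have ha0 : 0 ≤ a := by positivity
  set S : ℝ := T + x * M with hS
  have hS0 : 0 ≤ S := by positivity
  have hTS : T ≤ S := by
    rw [hS]
    linarith
  have e4 : (V : ℝ) ≤ (k + 1) * (a * S) := by
    refine g1.trans (mul_le_mul_of_nonneg_right (by linarith) (by positivity))
  calc (B.time (matWord N) : ℝ) ≤ c * ((k + 1) * (T + 4 ^ l + n) + V) := e3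
    _ ≤ c * ((k + 1) * (3 * S) + (k + 1) * (a * S)) := by
        apply mul_le_mul_of_nonneg_left _ hcc
        apply add_le_add _ e4
        apply mul_le_mul_of_nonneg_left _ (by positivity)
        linarith
    _ = c * (3 + a) * ((k + 1) * S) := by ring
    _ ≤ c * (3 + a) * (logStar x * S) := by
        apply mul_le_mul_of_nonneg_left _ (by positivity)
        exact mul_le_mul_of_nonneg_right g2' hS0

end Vale.Agent.P338.R2.H101
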