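import Vale.Agent.P338.R2.H784.Fp.Embed
import Vale.Agent.P338.R2.H806.Fp.StarTop
import Vale.Agent.P338.R2.H101.Transfer
import Vale.Agent.P338.R2.H101.Star

/-!
P338: the reduction with phases over `F_p`, final inequalities.
-/

namespace Vale.Agent.P338.R2.H101

open Vale.Agent.P338.R2.H898

theorem fastIneq {A A' : MTM} (hA : Multiplies A) (hA' : Multiplies A') : FastIneq 18432 A A' :=
  fastIneq_of_costK (by norm_num) hA fun ρ _ => H784.Fp.costK hA hA' 1 ρ

theorem iterIneq {A A' : MTM} (hA : Multiplies A) (hA' : Multiplies A') (k : ℕ) :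
    IterIneq 18432 A A' k :=
  iterIneq_of_costK (by norm_num) hA fun ρ _ => H784.Fp.costK hA hA' k ρ

theorem starIneq {A A' : MTM} (hA : Multiplies A) (hA' : Multiplies A') :
    StarIneq 18432 A A' := by
  have := A.finTape
  exact starIneq_of_costStar (by norm_num) hA fun ρ _ =>
    H806.Fp.costS_of_ph hA (Y := A'.Tape ⊕ H784.Fp.ZF)
      (fun {inst} => ⟨_, _, H784.Fp.phSpec hA hA'⟩) ρ

end Vale.Agent.P338.R2.H101
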