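import Mathlib
import Vale.Agent.P338.R2.H525.Fp.Spec

/-!
P338, stage 2: the number level of a round over `F_p`.
-/

namespace Vale.Agent.P338.R2.H101.FpNum

open Vale.Agent.P338.R2.H525.Fp Finset

/-! The reduction modulo `p` by multiplications. -/

theorem mmN_eq {W p x y : ℕ} (hp : 1 ≤ p) (h : x * y * p < 2 ^ W) :
    mmN W p (2 ^ W / p + 1) x y = x * y % p := by
  unfold mmN
  set v := x * y with hv
  set P := 2 ^ W with hP
  have hvP : v < P := lt_of_le_of_lt (Nat.le_mul_of_pos_right v hp) h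
  rw [Nat.mod_eq_of_lt hvP]
  set k := P / p with hk
  set r := P % p with hr
  set a := v / p with ha
  set b := v % p with hb
  have h1 : p * k + r = P := Nat.div_add_mod P p
  have h2 : p * a + b = v := Nat.div_add_mod v p
  have hr' : r < p := Nat.mod_lt _ hp
  have hb' : b < p := Nat.mod_lt _ hp
  obtain ⟨t, ht⟩ : ∃ t, t + r = p := ⟨p - r, by omega⟩
  -- the value of `F`
  set F := t * a + (k + 1) * b with hF
  have h3 : (k + 1) * v = P * a + F := by
    calc (k + 1) * v = (k + 1) * (p * a + b) := by rw [h2]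
      _ = (p * k + p) * a + (k + 1) * b := by ring
      _ = (p * k + (t + r)) * a + (k + 1) * b := by rw [ht]
      _ = (p * k + r) * a + (t * a + (k + 1) * b) := by ring
      _ = P * a + F := by rw [h1]
  have h4 : p * F = P * b + t * v := by
    calc p * F = t * (p * a) + (p * k + p) * b := by rw [hF]; ring
      _ = t * (p * a) + (p * k + (t + r)) * b := by rw [ht]
      _ = (p * k + r) * b + t * (p * a + b) := by ring
      _ = P * b + t * v := by rw [h1, h2]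
  have h5 : t * v < P := by
    calc t * v ≤ p * v := Nat.mul_le_mul_right _ (by omega)
      _ = v * p := Nat.mul_comm _ _
      _ < P := h
  have h6 : F < P := by
    have h7 : p * F < p * P := by
      calc p * F = P * b + t * v := h4
        _ < P * b + P := by omega
        _ = P * (b + 1) := by ring
        _ ≤ P * p := Nat.mul_le_mul_left _ hb'
        _ = p * P := Nat.mul_comm _ _
    exact Nat.lt_of_mul_lt_mul_left h7
  rw [h3, Nat.mul_add_mod, Nat.mod_eq_of_lt h6, h4]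
  have hPpos : 0 < P := by rw [hP]; positivity
  rw [Nat.mul_add_div hPpos, Nat.div_eq_of_lt h5, add_zero]

/-! Triangular numbers. -/

theorem tri_succ (d : ℕ) : tri (d + 1) = tri d + d := by
  unfold tri
  rw [← Nat.choose_two_right, ← Nat.choose_two_right, Nat.choose_succ_succ' d 1]
  simp
  ring

theorem tri_zero : tri 0 = 0 := rfl

theorem tri_add (a b : ℕ) : tri (a + b) = tri a + tri b + a * b := by
  induction b with
  | zero => simp [tri_zero]
  | succ b ih =>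
    rw [← add_assoc, tri_succ, ih, tri_succ]
    ring

/-! The round. -/

/-- The skewed data. -/
def aa (D : Dim) (a : ℕ → ℕ → ℕ) (x c : ℕ) : ℕ := if x ≤ c ∧ c - x < D.X then a x (c - x) else 0

/-- The slots of the first product. -/
def Z1 (D : Dim) (a : ℕ → ℕ → ℕ) (q c : ℕ) : ℕ :=
  ∑ x ∈ range D.X, aa D a x c * D.ker (D.X + q - x)

/-- After the multiplication by the middle factors. -/
def Z2 (D : Dim) (a : ℕ → ℕ → ℕ) (q c : ℕ) : ℕ := Z1 D a q c * D.mid q c % D.p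

/-- The slots of the second product. -/
def Z3 (D : Dim) (a : ℕ → ℕ → ℕ) (y c : ℕ) : ℕ :=
  ∑ q ∈ range D.Q, Z2 D a q c * D.ker (D.Q + y - q)

variable {D : Dim}

theorem one_lt_p (hD : D.Ok) : 1 < D.p := hD.hp.one_lt

theorem Q_eq (hD : D.Ok) : D.Q + 1 = D.p := by
  have := one_lt_p hD
  unfold Dim.Q
  omega

theorem two_X_le_Q (hD : D.Ok) : 2 * D.X ≤ D.Q := by
  have := Q_eq hD
  have := hD.hXp
  omega

theorem pow_Q (hD : D.Ok) : (D.w : ZMod D.p) ^ D.Q = 1 := by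
  have h := hD.hw
  unfold Dim.Q
  rw [← h]
  exact pow_orderOf_eq_one _

theorem w_ne_zero (hD : D.Ok) : (D.w : ZMod D.p) ≠ 0 := by
  have := Fact.mk hD.hp
  intro h
  have h1 := pow_Q hD
  have h2 := two_X_le_Q hD
  have h3 := hD.hX
  rw [h, zero_pow (by omega)] at h1
  exact zero_ne_one h1

theorem cast_ker (d : ℕ) : ((D.ker d : ℕ) : ZMod D.p) = (D.w : ZMod D.p) ^ tri d := by
  unfold Dim.ker
  rw [ZMod.natCast_mod]
  push_cast
  rfl

theorem cast_mid (q c : ℕ) : ((D.mid q c : ℕ) : ZMod D.p) =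
    (D.w : ZMod D.p) ^ (q * (c + (D.Q - 1) * (D.X + q))) := by
  unfold Dim.mid
  rw [ZMod.natCast_mod]
  push_cast
  rfl

theorem cast_post (x y : ℕ) : ((D.post x y : ℕ) : ZMod D.p) =
    (D.w : ZMod D.p) ^ ((D.Q - 1) * (tri (D.X - x) + tri y)) := by
  unfold Dim.post
  rw [ZMod.natCast_mod]
  push_cast
  rfl

/-- `w ^ (Q (Q - 1) / 2) = -1`. -/
theorem pow_tri_Q (hD : D.Ok) : (D.w : ZMod D.p) ^ tri D.Q = -1 := by
  have := Fact.mk hD.hp
  have hQ := Q_eq hD
  have hQ2 := two_X_le_Q hD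
  have hX := hD.hX
  have hodd : D.p % 2 = 1 := by
    rcases hD.hp.eq_two_or_odd with h | h
    · omega
    · exact h
  obtain ⟨k, hk⟩ : ∃ k, D.Q = 2 * k := ⟨D.Q / 2, by omega⟩
  have hk1 : 1 ≤ k := by omega
  have h1 : (D.w : ZMod D.p) ^ k = -1 := by
    have h2 : ((D.w : ZMod D.p) ^ k - 1) * ((D.w : ZMod D.p) ^ k + 1) = 0 := by
      have h3 := pow_Q hD
      rw [hk] at h3
      calc ((D.w : ZMod D.p) ^ k - 1) * ((D.w : ZMod D.p) ^ k + 1)
          = (D.w : ZMod D.p) ^ (2 * k) - 1 := by ring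
        _ = 0 := by rw [h3]; ring
    rcases mul_eq_zero.1 h2 with h3 | h3
    · exfalso
      have h4 : (D.w : ZMod D.p) ^ k = 1 := sub_eq_zero.1 h3
      have h5 := orderOf_dvd_of_pow_eq_one h4
      rw [hD.hw] at h5
      have h6 := Nat.le_of_dvd (by omega) h5
      unfold Dim.Q at hk
      omega
    · exact eq_neg_of_add_eq_zero_left h3
  have h2 : tri D.Q = k * (2 * (k - 1) + 1) := by
    unfold tri
    rw [hk]
    have : 2 * k - 1 = 2 * (k - 1) + 1 := by omega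
    rw [this, mul_assoc, Nat.mul_div_cancel_left _ (by norm_num)]
  rw [h2, pow_mul, h1, pow_succ, pow_mul]
  simp

/-- The exponents of the product of the three factors. -/
theorem exponent {X Q x y q c : ℕ} (hx : x < X) (hq : q < Q) :
    tri (X + q - x) + q * (c + (Q - 1) * (X + q)) + tri (Q + y - q) + q * (x + y) =
      tri (X - x) + tri y + tri Q + q * c + Q * (y + q * (X + q - 1)) := by
  obtain ⟨u, hu⟩ : ∃ u, X = x + u := ⟨X - x, by omega⟩
  obtain ⟨r, hr⟩ : ∃ r, Q = q + 1 + r := ⟨Q - q - 1, by omega⟩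
  have h1 : X + q - x = u + q := by omega
  have h2 : Q + y - q = y + (r + 1) := by omega
  have h3 : X - x = u := by omega
  have h4 : Q - 1 = q + r := by omega
  obtain ⟨m, hm⟩ : ∃ m, X + q = m + 1 := ⟨X + q - 1, by omega⟩
  have h5 : X + q - 1 = m := by omega
  have h6 : tri Q = tri q + tri (r + 1) + q * (r + 1) := by
    rw [← tri_add]
    congr 1
    omega
  rw [h5, h1, h2, h3, h4, h6, tri_add u q, tri_add y (r + 1), hm, hr]
  have h7 : x + u + q = m + 1 := by omega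
  have h8 : q * (x + u + q) = q * (m + 1) := by rw [h7]
  nlinarith [h8]

/-- The sum over `q`. -/
theorem sum_q (hD : D.Ok) {x x0 y : ℕ} (hx : x < D.X) (hx0 : x0 < D.X) :
    ∑ q ∈ range D.Q, (D.w : ZMod D.p) ^ (tri (D.X + q - x)) *
      (D.w : ZMod D.p) ^ (q * (y + x0 + (D.Q - 1) * (D.X + q))) *
      (D.w : ZMod D.p) ^ tri (D.Q + y - q) =
    if x = x0 then (D.w : ZMod D.p) ^ (tri (D.X - x) + tri y) else 0 := by
  have := Fact.mk hD.hp
  set z : ZMod D.p := (D.w : ZMod D.p) with hz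
  have hz0 : z ≠ 0 := w_ne_zero hD
  have hQ := Q_eq hD
  have hQ2 := two_X_le_Q hD
  set g : ZMod D.p := z ^ (y + x0) / z ^ (x + y) with hg
  have hterm : ∀ q ∈ range D.Q, z ^ (tri (D.X + q - x)) *
      z ^ (q * (y + x0 + (D.Q - 1) * (D.X + q))) * z ^ tri (D.Q + y - q) =
      -(z ^ (tri (D.X - x) + tri y)) * g ^ q := by
    intro q hq
    rw [Finset.mem_range] at hq
    have h1 := exponent (X := D.X) (Q := D.Q) (x := x) (y := y) (q := q) (c := y + x0) hx hq
    have h2 : z ^ (tri (D.X + q - x)) * z ^ (q * (y + x0 + (D.Q - 1) * (D.X + q))) *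
        z ^ tri (D.Q + y - q) * z ^ (q * (x + y)) =
        -(z ^ (tri (D.X - x) + tri y)) * z ^ (q * (y + x0)) := by
      rw [← pow_add, ← pow_add, ← pow_add, h1, pow_add, pow_mul, pow_Q hD, one_pow, mul_one,
        pow_add, pow_add, pow_tri_Q hD]
      ring
    rw [hg, div_pow, ← pow_mul, ← pow_mul, mul_comm (y + x0) q, mul_comm (x + y) q,
      mul_div_assoc', eq_div_iff (pow_ne_zero _ hz0), h2]
  rw [Finset.sum_congr rfl hterm, ← Finset.mul_sum]
  have hcard : ((D.Q : ℕ) : ZMod D.p) = -1 := by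
    have h3 : ((D.Q + 1 : ℕ) : ZMod D.p) = 0 := by rw [hQ]; simp
    push_cast at h3
    exact eq_neg_of_add_eq_zero_left h3
  by_cases hxx : x = x0
  · rw [if_pos hxx]
    have hg1 : g = 1 := by
      rw [hg, hxx, add_comm y x0]
      exact div_self (pow_ne_zero _ hz0)
    rw [hg1]
    simp [hcard]
  · rw [if_neg hxx]
    have hgQ : g ^ D.Q = 1 := by
      rw [hg, div_pow, ← pow_mul, ← pow_mul, mul_comm _ D.Q, mul_comm _ D.Q, pow_mul, pow_mul,
        pow_Q hD, one_pow, one_pow, div_one]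
    have hg1 : g ≠ 1 := by
      intro h
      apply hxx
      rw [hg, div_eq_one_iff_eq (pow_ne_zero _ hz0)] at h
      have h4 : z ^ x0 = z ^ x := by
        have h5 : z ^ y * z ^ x0 = z ^ y * z ^ x := by
          rw [← pow_add, ← pow_add, h, add_comm x y]
        exact mul_left_cancel₀ (pow_ne_zero _ hz0) h5
      have h6 : orderOf z = D.Q := by rw [hD.hw]; rfl
      have h7 := pow_injOn_Iio_orderOf (x := z) (Set.mem_Iio.2 (show x0 < orderOf z by omega))
        (Set.mem_Iio.2 (show x < orderOf z by omega)) h4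
      exact h7.symm
    have h8 : (∑ q ∈ range D.Q, g ^ q) * (g - 1) = 0 := by
      rw [geom_sum_mul, hgQ, sub_self]
    rcases mul_eq_zero.1 h8 with h9 | h9
    · rw [h9, mul_zero]
    · exact absurd (sub_eq_zero.1 h9) hg1

theorem aa_eq {a : ℕ → ℕ → ℕ} {x y : ℕ} (hy : y < D.X) : aa D a x (y + x) = a x y := by
  unfold aa
  rw [if_pos ⟨by omega, by omega⟩]
  congr 1
  omega

/-- The number level of a round: two multiplications exchange `x` and `y`. -/
theorem round_num (hD : D.Ok) {a : ℕ → ℕ → ℕ} {x y : ℕ} (ha : a x y < 2 ^ D.L)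
    (hx : x < D.X) (hy : y < D.X) :
    Z3 D a y (y + x) * D.post x y % D.p = a x y := by
  have := Fact.mk hD.hp
  have hap : a x y < D.p := lt_of_lt_of_le ha hD.hLp
  have hQ := Q_eq hD
  have hQ2 := two_X_le_Q hD
  have hX := hD.hX
  set z : ZMod D.p := (D.w : ZMod D.p) with hz
  have h1 : ((Z3 D a y (y + x) : ℕ) : ZMod D.p) = (a x y : ZMod D.p) *
      z ^ (tri (D.X - x) + tri y) := by
    have h2 : ((Z3 D a y (y + x) : ℕ) : ZMod D.p) = ∑ q ∈ range D.Q, ∑ x' ∈ range D.X,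
        (aa D a x' (y + x) : ZMod D.p) * (z ^ (tri (D.X + q - x')) *
        z ^ (q * (y + x + (D.Q - 1) * (D.X + q))) * z ^ tri (D.Q + y - q)) := by
      unfold Z3
      push_cast
      refine Finset.sum_congr rfl fun q _ => ?_
      unfold Z2
      rw [ZMod.natCast_mod]
      push_cast
      rw [cast_mid, cast_ker]
      unfold Z1
      push_cast
      rw [Finset.sum_mul, Finset.sum_mul]
      refine Finset.sum_congr rfl fun x' _ => ?_
      rw [cast_ker]
      ring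
    rw [h2, Finset.sum_comm]
    have h3 : ∀ x' ∈ range D.X, ∑ q ∈ range D.Q, (aa D a x' (y + x) : ZMod D.p) *
        (z ^ (tri (D.X + q - x')) * z ^ (q * (y + x + (D.Q - 1) * (D.X + q))) *
        z ^ tri (D.Q + y - q)) = (aa D a x' (y + x) : ZMod D.p) *
        (if x' = x then z ^ (tri (D.X - x') + tri y) else 0) := by
      intro x' hx'
      rw [← Finset.mul_sum, sum_q hD (Finset.mem_range.1 hx') hx]
    rw [Finset.sum_congr rfl h3, Finset.sum_eq_single x]
    · rw [if_pos rfl, aa_eq hy]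
    · intro x' _ hne
      rw [if_neg hne, mul_zero]
    · intro h
      exact absurd (Finset.mem_range.2 hx) h
  have h4 : ((Z3 D a y (y + x) * D.post x y : ℕ) : ZMod D.p) = ((a x y : ℕ) : ZMod D.p) := by
    push_cast
    rw [h1, cast_post, mul_assoc, ← pow_add]
    have h5 : tri (D.X - x) + tri y + (D.Q - 1) * (tri (D.X - x) + tri y) =
        D.Q * (tri (D.X - x) + tri y) := by
      obtain ⟨m, hm⟩ : ∃ m, D.Q = m + 1 := ⟨D.Q - 1, by omega⟩
      rw [hm]
      simp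
      ring
    rw [h5, pow_mul, pow_Q hD, one_pow, mul_one]
  rw [ZMod.natCast_eq_natCast_iff'] at h4
  rw [h4, Nat.mod_eq_of_lt hap]

/-! No overflow. -/

theorem ker_lt (hD : D.Ok) (d : ℕ) : D.ker d < D.p := Nat.mod_lt _ hD.hp.pos

theorem mid_lt (hD : D.Ok) (q c : ℕ) : D.mid q c < D.p := Nat.mod_lt _ hD.hp.pos

theorem post_lt (hD : D.Ok) (x y : ℕ) : D.post x y < D.p := Nat.mod_lt _ hD.hp.pos

theorem aa_lt {a : ℕ → ℕ → ℕ} (ha : ∀ x y, a x y < 2 ^ D.L) (x c : ℕ) : aa D a x c < 2 ^ D.L := by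
  unfold aa
  split_ifs
  · exact ha _ _
  · positivity

theorem Z1_lt (hD : D.Ok) {a : ℕ → ℕ → ℕ} (ha : ∀ x y, a x y < 2 ^ D.L) (q c : ℕ) :
    Z1 D a q c < D.p ^ 3 := by
  have hp := hD.hp.pos
  have hQ := Q_eq hD
  have hQ2 := two_X_le_Q hD
  have hX := hD.hX
  unfold Z1
  calc ∑ x ∈ range D.X, aa D a x c * D.ker (D.X + q - x)
      ≤ ∑ x ∈ range D.X, D.p * D.p := by
        refine Finset.sum_le_sum fun x _ => ?_
        exact Nat.mul_le_mul ((aa_lt ha x c).le.trans hD.hLp) (ker_lt hD _).le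
    _ = D.X * (D.p * D.p) := by simp
    _ < D.p * (D.p * D.p) := by
        apply Nat.mul_lt_mul_of_pos_right (by omega)
        positivity
    _ = D.p ^ 3 := by ring

theorem Z2_lt (hD : D.Ok) {a : ℕ → ℕ → ℕ} (q c : ℕ) : Z2 D a q c < D.p :=
  Nat.mod_lt _ hD.hp.pos

theorem Z3_lt (hD : D.Ok) {a : ℕ → ℕ → ℕ} (y c : ℕ) : Z3 D a y c < D.p ^ 3 := by
  have hp := hD.hp.pos
  have hQ := Q_eq hD
  have hQ2 := two_X_le_Q hD
  have hX := hD.hX
  unfold Z3
  calc ∑ q ∈ range D.Q, Z2 D a q c * D.ker (D.Q + y - q)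
      ≤ ∑ q ∈ range D.Q, D.p * D.p := by
        refine Finset.sum_le_sum fun q _ => ?_
        exact Nat.mul_le_mul (Z2_lt hD q c).le (ker_lt hD _).le
    _ = D.Q * (D.p * D.p) := by simp
    _ < D.p * (D.p * D.p) := by
        apply Nat.mul_lt_mul_of_pos_right (by omega)
        positivity
    _ = D.p ^ 3 := by ring

theorem lt_of_cube {D : Dim} (hD : D.Ok) {z m : ℕ} (hz : z < D.p ^ 3) (hm : m < D.p) :
    z * m * D.p < 2 ^ D.W := by
  have hp := hD.hp.pos
  calc z * m * D.p ≤ z * D.p * D.p :=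
        Nat.mul_le_mul_right _ (Nat.mul_le_mul_left _ hm.le)
    _ = z * (D.p * D.p) := by ring
    _ < D.p ^ 3 * (D.p * D.p) := Nat.mul_lt_mul_of_pos_right hz (by positivity)
    _ = D.p ^ 5 := by ring
    _ ≤ _ := hD.hW

theorem Z1_mid (hD : D.Ok) {a : ℕ → ℕ → ℕ} (ha : ∀ x y, a x y < 2 ^ D.L) (q c : ℕ) :
    Z1 D a q c * D.mid q c * D.p < 2 ^ D.W := lt_of_cube hD (Z1_lt hD ha q c) (mid_lt hD q c)

theorem Z3_post (hD : D.Ok) {a : ℕ → ℕ → ℕ} (y c x : ℕ) :
    Z3 D a y c * D.post x y * D.p < 2 ^ D.W := lt_of_cube hD (Z3_lt hD y c) (post_lt hD x y)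

/-- Products of three residues do not overflow. -/
theorem small_mul (hD : D.Ok) {x y : ℕ} (hx : x < D.p) (hy : y < D.p) :
    x * y * D.p < 2 ^ D.W := by
  refine lt_of_cube hD (lt_of_lt_of_le hx ?_) hy
  calc D.p = D.p ^ 1 := (pow_one _).symm
    _ ≤ D.p ^ 3 := Nat.pow_le_pow_right hD.hp.pos (by norm_num)

theorem p_lt (hD : D.Ok) : D.p < 2 ^ D.W := by
  have h1 := hD.hp.one_lt
  calc D.p = D.p ^ 1 := (pow_one _).symm
    _ < D.p ^ 5 := Nat.pow_lt_pow_right h1 (by norm_num)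
    _ ≤ _ := hD.hW

/-- The slots of the first product do not overflow. -/
theorem Z1_lt_slot (hD : D.Ok) {a : ℕ → ℕ → ℕ} (ha : ∀ x y, a x y < 2 ^ D.L) (q c : ℕ) :
    Z1 D a q c < 2 ^ D.W :=
  lt_of_lt_of_le (Z1_lt hD ha q c)
    ((Nat.pow_le_pow_right hD.hp.pos (by norm_num)).trans hD.hW)

theorem Z3_lt_slot (hD : D.Ok) {a : ℕ → ℕ → ℕ} (y c : ℕ) : Z3 D a y c < 2 ^ D.W :=
  lt_of_lt_of_le (Z3_lt hD y c)
    ((Nat.pow_le_pow_right hD.hp.pos (by norm_num)).trans hD.hW)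

/-! Recurrences. `D.w ^ (D.Q - 1) % D.p` is the inverse of `D.w`. -/

theorem mod_mul_mod {p : ℕ} (x y : ℕ) : (x % p) * (y % p) % p = x * y % p :=
  (Nat.mul_mod x y p).symm

theorem ker_zero (hD : D.Ok) : D.ker 0 = 1 := by
  unfold Dim.ker
  rw [tri_zero, pow_zero]
  exact Nat.mod_eq_of_lt hD.hp.one_lt

theorem ker_succ (d : ℕ) : D.ker (d + 1) = D.ker d * (D.w ^ d % D.p) % D.p := by
  unfold Dim.ker
  rw [mod_mul_mod, ← pow_add, tri_succ]

theorem pow_succ_mod (w p d : ℕ) : w ^ (d + 1) % p = (w ^ d % p) * (w % p) % p := by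
  rw [mod_mul_mod, pow_succ]

theorem mid_succ_right (q c : ℕ) : D.mid q (c + 1) = D.mid q c * (D.w ^ q % D.p) % D.p := by
  unfold Dim.mid
  rw [mod_mul_mod, ← pow_add]
  congr 2
  ring

theorem mid_zero_left (hD : D.Ok) (c : ℕ) : D.mid 0 c = 1 := by
  unfold Dim.mid
  rw [zero_mul, pow_zero]
  exact Nat.mod_eq_of_lt hD.hp.one_lt

/-- `mid (q + 1) 0 = mid q 0 * v ^ (X + 1 + 2 q)` with the inverse `v` of `w`. -/
theorem mid_succ_left (q : ℕ) : D.mid (q + 1) 0 =
    D.mid q 0 * ((D.w ^ (D.Q - 1)) ^ (D.X + 1 + 2 * q) % D.p) % D.p := by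
  unfold Dim.mid
  rw [mod_mul_mod, ← pow_mul, ← pow_add]
  congr 2
  ring

theorem pow_add_mod (v p i j : ℕ) : v ^ (i + j) % p = (v ^ i % p) * (v ^ j % p) % p := by
  rw [mod_mul_mod, pow_add]

theorem inv_mul (hD : D.Ok) : D.w ^ (D.Q - 1) * D.w % D.p = 1 := by
  have h1 : ((D.w ^ (D.Q - 1) * D.w : ℕ) : ZMod D.p) = ((1 : ℕ) : ZMod D.p) := by
    have h2 := two_X_le_Q hD
    have h3 := hD.hX
    push_cast
    rw [← pow_succ, show D.Q - 1 + 1 = D.Q by omega]
    exact pow_Q hD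
  rw [ZMod.natCast_eq_natCast_iff'] at h1
  rw [h1]
  exact Nat.mod_eq_of_lt hD.hp.one_lt

/-- Powers of `w` times powers of the inverse. -/
theorem pow_mul_inv (hD : D.Ok) (i j : ℕ) :
    D.w ^ (i + j) * (D.w ^ (D.Q - 1)) ^ j % D.p = D.w ^ i % D.p := by
  have h1 : ((D.w ^ (i + j) * (D.w ^ (D.Q - 1)) ^ j : ℕ) : ZMod D.p) =
      ((D.w ^ i : ℕ) : ZMod D.p) := by
    have h2 := two_X_le_Q hD
    have h3 := hD.hX
    push_cast
    rw [pow_add, mul_assoc, ← mul_pow, ← pow_succ', show D.Q - 1 + 1 = D.Q by omega, pow_Q hD,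
      one_pow, mul_one]
  rwa [ZMod.natCast_eq_natCast_iff'] at h1

theorem post_zero_zero : D.post 0 0 = (D.w ^ (D.Q - 1)) ^ tri D.X % D.p := by
  unfold Dim.post
  rw [← pow_mul]
  simp [tri_zero]

theorem post_zero_succ (y : ℕ) :
    D.post 0 (y + 1) = D.post 0 y * ((D.w ^ (D.Q - 1)) ^ y % D.p) % D.p := by
  unfold Dim.post
  rw [mod_mul_mod, ← pow_mul, ← pow_add, tri_succ]
  congr 2
  ring

/-- `post (x + 1) y = post x y * w ^ (X - 1 - x)`. -/
theorem post_succ (hD : D.Ok) {x : ℕ} (hx : x < D.X) (y : ℕ) :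
    D.post (x + 1) y = D.post x y * (D.w ^ (D.X - 1 - x) % D.p) % D.p := by
  unfold Dim.post
  rw [mod_mul_mod]
  have h1 : ((D.w ^ ((D.Q - 1) * (tri (D.X - (x + 1)) + tri y)) : ℕ) : ZMod D.p) =
      ((D.w ^ ((D.Q - 1) * (tri (D.X - x) + tri y)) * D.w ^ (D.X - 1 - x) : ℕ) : ZMod D.p) := by
    have h2 := two_X_le_Q hD
    have h3 := hD.hX
    have h4 : D.X - x = (D.X - (x + 1)) + 1 := by omega
    have h5 : D.X - 1 - x = D.X - (x + 1) := by omega
    obtain ⟨m, hm⟩ : ∃ m, D.Q = m + 1 := ⟨D.Q - 1, by omega⟩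
    push_cast
    rw [h4, h5, tri_succ, ← pow_add]
    have h6 : (D.Q - 1) * (tri (D.X - (x + 1)) + (D.X - (x + 1)) + tri y) + (D.X - (x + 1)) =
        (D.Q - 1) * (tri (D.X - (x + 1)) + tri y) + D.Q * (D.X - (x + 1)) := by
      rw [hm]
      simp
      ring
    rw [h6, pow_add, pow_mul _ D.Q, pow_Q hD, one_pow, mul_one]
  rwa [ZMod.natCast_eq_natCast_iff'] at h1

/-- The factors of the final recurrence: `w ^ (X - 1 - x)` times the inverse of `w`. -/
theorem pow_sub_step (hD : D.Ok) {x : ℕ} (hx : x + 1 < D.X) :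
    (D.w ^ (D.X - 1 - x) % D.p) * (D.w ^ (D.Q - 1) % D.p) % D.p = D.w ^ (D.X - 1 - (x + 1)) % D.p := by
  rw [mod_mul_mod]
  have h1 := pow_mul_inv hD (D.X - 1 - (x + 1)) 1
  rw [pow_one] at h1
  rw [← h1]
  congr 3
  omega

end Vale.Agent.P338.R2.H101.FpNum
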