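import Vale.Agent.P338.R2.H778.CostSum
import Vale.Agent.P338.R2.H898.Model

/-!
P338: the cost of the reduction with `k` phases.
-/

namespace Vale.Agent.P338.R2.H101

open Vale.Agent.P338.R2.H898

/-- `Ph T₀ c l k h h' V`: the `k` phases from the height `h` end at the height `h'`, the total
time of the small multiplications is `V`; in a phase at height `h₁` there are `K` of them. -/
inductive Ph (T₀ : ℕ → ℕ) (c l : ℕ) : ℕ → ℕ → ℕ → ℕ → Prop
  | zero (h : ℕ) : Ph T₀ c l 0 h h 0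
  | succ {k h h₁ h₂ K V : ℕ} (hp : Ph T₀ c l k h h₁ V) (h1 : h₂ ≤ h₁)
      (h2 : h₂ ≤ Nat.log 2 h₁ + 32) (hK : K * (h₁ + 1) ≤ c * 4 ^ l) :
      Ph T₀ c l (k + 1) h h₂ (V + K * (T₀ h₁ + h₁))

/-- The cost of the transposition with `k` phases: `n` is the size of the large
multiplications. -/
def CostK (k : ℕ) (A A₀ : MTM) (n l c tB : ℕ) : Prop :=
  ∃ t h V, Ph (mulTime A₀) c l k l h V ∧ h ≤ l ∧ H778.Tot l (mulTime A n) c c n h t ∧
    tB ≤ c * (t + mulTime A n + 4 ^ l + n + V)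

/-- The same for the program that repeats the phase until the height is less than `32`: every
phase starts at a height `h₁ ≥ 32`. -/
inductive Lp (T₀ : ℕ → ℕ) (c l : ℕ) : ℕ → ℕ → ℕ → ℕ → Prop
  | zero (h : ℕ) : Lp T₀ c l 0 h h 0
  | succ {k h h₁ h₂ K V : ℕ} (hp : Lp T₀ c l k h h₁ V) (h32 : 32 ≤ h₁)
      (h2 : h₂ ≤ Nat.log 2 h₁ + 3) (hK : K * (h₁ + 1) ≤ c * 4 ^ l) :
      Lp T₀ c l (k + 1) h h₂ (V + K * (T₀ h₁ + h₁))

/-- The cost of the transposition with phases until the height is less than `32`. -/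
def CostStar (A : MTM) (n l c tB : ℕ) : Prop :=
  ∃ k h V, Lp (mulTime A) c l k l h V ∧ tB ≤ c * ((k + 1) * (mulTime A n + 4 ^ l + n) + V)

end Vale.Agent.P338.R2.H101
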