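import Vale.Agent.P338.R2.H101.IterDef
import Vale.Agent.P338.R2.H101.Fast
import Vale.Agent.P338.R2.H101.Ph

/-!
P338: the analytic end of the reduction with `k` phases.
-/

namespace Vale.Agent.P338.R2.H101

open Vale.Agent.P338.R2.H898
open Vale.Agent.P338.R2.H778 (Tot)
open Vale.Agent.P338.R2.H784 (ex Near)

theorem Ph.le {T₀ : ℕ → ℕ} {c l k h₀ h V : ℕ} (hp : Ph T₀ c l k h₀ h V) : h ≤ h₀ := by
  induction hp with
  | zero => exact le_rfl
  | succ _ h1 _ _ ih => omega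

theorem ilog_zero (x : ℝ) : ilog 0 x = x := rfl

theorem ilog_succ (k : ℕ) (x : ℝ) : ilog (k + 1) x = Real.log (ilog k x + 2) := by
  unfold ilog
  rw [Function.iterate_succ_apply']

theorem ilog_nonneg {k : ℕ} {x : ℝ} (hx : 0 ≤ x) : 0 ≤ ilog k x := by
  induction k with
  | zero => exact hx
  | succ k ih =>
    rw [ilog_succ]
    exact Real.log_nonneg (by linarith)

theorem log_two_le_ilog {k : ℕ} {x : ℝ} (hx : 0 ≤ x) : Real.log 2 ≤ ilog (k + 1) x := by
  rw [ilog_succ]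
  exact Real.log_le_log (by norm_num) (by linarith [ilog_nonneg (k := k) hx])

/-- One logarithm. -/
theorem natLog_le (D y : ℝ) (hD : 0 ≤ D) (hy : 0 ≤ y) {h : ℕ} (hh : (h : ℝ) ≤ D * y) :
    (Nat.log 2 (h + 1) : ℝ) ≤ 2 * (Real.log (D + 1) + 1) * 2 * Real.log (y + 2) := by
  have h2 := Real.log_two_gt_d9
  have h2' := Real.log_two_lt_d9
  have e1 : ((2 : ℝ)) ^ Nat.log 2 (h + 1) ≤ (h : ℝ) + 1 := by
    have := Nat.pow_log_le_self 2 (x := h + 1) (by omega)
    exact_mod_cast this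
  have e2 : (h : ℝ) + 1 ≤ (D + 1) * (y + 2) := by nlinarith
  have e3 := Real.log_le_log (by positivity) (e1.trans e2)
  rw [Real.log_pow, Real.log_mul (by positivity) (by positivity)] at e3
  have e4 : Real.log 2 ≤ Real.log (y + 2) := Real.log_le_log (by norm_num) (by linarith)
  have e5 : 0 ≤ Real.log (D + 1) := Real.log_nonneg (by linarith)
  have e6 : Real.log (D + 1) ≤ 2 * Real.log (D + 1) * Real.log (y + 2) := by
    nlinarith
  have e7 : (0 : ℝ) ≤ Nat.log 2 (h + 1) := Nat.cast_nonneg _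
  nlinarith

/-- The height after `k` phases. -/
theorem Ph.height (k : ℕ) : ∃ D : ℝ, 0 ≤ D ∧ ∀ (T₀ : ℕ → ℕ) (c l h V : ℕ) (x : ℝ),
    0 ≤ x → (l : ℝ) ≤ 3 * Real.log (x + 2) → Ph T₀ c l k l h V →
      (h : ℝ) ≤ D * ilog (k + 1) x := by
  induction k with
  | zero =>
    refine ⟨3, by norm_num, ?_⟩
    intro T₀ c l h V x hx hl hp
    cases hp
    rw [ilog_succ, ilog_zero]
    exact hl
  | succ k ih =>
    obtain ⟨D, hD, h1⟩ := ih
    refine ⟨2 * (Real.log (D + 1) + 1) * 2 + 64, ?_, ?_⟩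
    · have : 0 ≤ Real.log (D + 1) := Real.log_nonneg (by linarith)
      positivity
    · intro T₀ c l h V x hx hl hp
      cases hp with
      | @succ _ _ h₁ h₂ K V hp h2 h3 hK =>
        have g1 := h1 T₀ c l _ _ x hx hl hp
        have g2 := natLog_le D _ hD (ilog_nonneg hx) g1
        rw [← ilog_succ] at g2
        have g3 : (h : ℝ) ≤ Nat.log 2 (h₁ + 1) + 32 := by
          have : Nat.log 2 h₁ ≤ Nat.log 2 (h₁ + 1) := Nat.log_mono_right (by omega)
          exact_mod_cast (by omega : h ≤ Nat.log 2 (h₁ + 1) + 32)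
        have g4 := log_two_le_ilog (k := k + 1) hx
        have := Real.log_two_gt_d9
        nlinarith

/-- The cost of the small multiplications. -/
theorem Ph.cost {T₀ : ℕ → ℕ} {c l : ℕ} {K T : ℝ}
    (hK : ∀ i ≤ l, (4 : ℝ) ^ l * T₀ i ≤ K * ((i + 1) * T)) {k h₀ h V : ℕ} (hh0 : h₀ ≤ l)
    (hp : Ph T₀ c l k h₀ h V) : (V : ℝ) ≤ k * (c * (K * T + 4 ^ l)) := by
  induction hp with
  | zero => simp
  | @succ k h h₁ h₂ N V hp h1 h2 hN ih =>
    have hp' := hp.le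
    have e1 := hK h₁ (by omega)
    have e2 := (Nat.cast_le (α := ℝ)).2 hN
    push_cast at e2
    have e0 := ih hh0
    have hc : (0 : ℝ) ≤ c := Nat.cast_nonneg _
    have hh : (0 : ℝ) < (h₁ : ℝ) + 1 := by positivity
    have hT₀ : (0 : ℝ) ≤ T₀ h₁ := Nat.cast_nonneg _
    have e3 : ((h₁ : ℝ) + 1) * (N * T₀ h₁) ≤ (h₁ + 1) * (c * (K * T)) := by
      calc ((h₁ : ℝ) + 1) * (N * T₀ h₁) = N * (h₁ + 1) * T₀ h₁ := by ring
        _ ≤ c * 4 ^ l * T₀ h₁ := mul_le_mul_of_nonneg_right e2 hT₀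
        _ = c * (4 ^ l * T₀ h₁) := by ring
        _ ≤ c * (K * ((h₁ + 1) * T)) := mul_le_mul_of_nonneg_left e1 hc
        _ = _ := by ring
    have e4 : (N : ℝ) * T₀ h₁ ≤ c * (K * T) := le_of_mul_le_mul_left e3 hh
    have e5 : (N : ℝ) * h₁ ≤ c * 4 ^ l := by
      refine le_trans ?_ e2
      apply mul_le_mul_of_nonneg_left _ (Nat.cast_nonneg _)
      linarith
    push_cast
    have e6 : (c : ℝ) * (K * T + 4 ^ l) = c * (K * T) + c * 4 ^ l := by ring
    have e7 : ((k : ℝ) + 1) * (c * (K * T + 4 ^ l)) = k * (c * (K * T + 4 ^ l)) +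
        (c * (K * T) + c * 4 ^ l) := by ring
    rw [e7]
    linarith

theorem maxRate_finite (A : MTM) (l : ℕ) :
    {x : ℝ | ∃ k : ℕ, 1 ≤ k ∧ k ≤ l ∧ x = mulTime A k / k}.Finite := by
  refine Set.Finite.subset ((Set.finite_Icc 1 l).image fun k : ℕ => (mulTime A k : ℝ) / k) ?_
  rintro x ⟨k, h1, h2, rfl⟩
  exact ⟨k, ⟨h1, h2⟩, rfl⟩

theorem le_maxRate (A : MTM) {k l : ℕ} (h1 : 1 ≤ k) (h2 : k ≤ l) :
    (mulTime A k : ℝ) / k ≤ maxRate A l :=
  le_csSup (maxRate_finite A l).bddAbove ⟨k, h1, h2, rfl⟩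

theorem exists_maxRate (A : MTM) {l : ℕ} (hl : 1 ≤ l) :
    ∃ k : ℕ, 1 ≤ k ∧ k ≤ l ∧ maxRate A l = mulTime A k / k := by
  have h : {x : ℝ | ∃ k : ℕ, 1 ≤ k ∧ k ≤ l ∧ x = mulTime A k / k}.Nonempty :=
    ⟨mulTime A 1 / (1 : ℕ), 1, le_rfl, hl, rfl⟩
  exact h.csSup_mem (maxRate_finite A l)

theorem maxRate_nonneg (A : MTM) (l : ℕ) : 0 ≤ maxRate A l :=
  Real.sSup_nonneg fun x hx => by
    obtain ⟨k, _, _, rfl⟩ := hx
    positivity

/-- The time of the small multiplications. -/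
theorem small_bound (A : MTM) {l i : ℕ} (hi : i ≤ l) :
    (4 : ℝ) ^ l * mulTime A i ≤
      1 * ((i + 1) * (4 ^ l * (maxRate A l + mulTime A 0))) := by
  have hM := maxRate_nonneg A l
  have h0 : (0 : ℝ) ≤ mulTime A 0 := Nat.cast_nonneg _
  have hp : (0 : ℝ) < 4 ^ l := by positivity
  have key : (mulTime A i : ℝ) ≤ (i + 1) * (maxRate A l + mulTime A 0) := by
    rcases Nat.eq_zero_or_pos i with rfl | hi0
    · push_cast
      linarith
    · have e1 := le_maxRate A (show 1 ≤ i from hi0) hi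
      have hi' : (0 : ℝ) < i := by exact_mod_cast hi0
      rw [div_le_iff₀ hi'] at e1
      nlinarith
  calc (4 : ℝ) ^ l * mulTime A i ≤ 4 ^ l * ((i + 1) * (maxRate A l + mulTime A 0)) :=
        mul_le_mul_of_nonneg_left key hp.le
    _ = _ := by ring

/-- The cost of the adaptive loop from the height `h`. -/
theorem exists_loop_bound (c c3 : ℕ) (D E : ℝ) (hD : 0 ≤ D) (hE : 0 ≤ E) :
    ∃ G : ℝ, 0 ≤ G ∧ ∀ (l T n h t j : ℕ) (x Y : ℝ), 0 ≤ x → 0 ≤ Y → (4 : ℝ) ^ l ≤ 16 * x →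
      x ≤ 2 * T → n ≤ c3 * 4 ^ l → (h : ℝ) ≤ D * Y →
      (Nat.log 2 (h + 1) : ℝ) ≤ E * Real.log (Y + 2) → Tot l T c c n h t →
      (t : ℝ) ≤ G * ((j + 1) * T + x * Y / 2 ^ j) := by
  refine ⟨4 * c + 32 * (c * (c3 + 1) + 2 * c + 4 * c) * (E + 1) + 64 * c * D +
    16 * (c * (c3 + 1) + 2 * c + 4 * c) * E, by positivity, ?_⟩
  intro l T n h t j x Y hx hY h4 hxT hn hh hlog ht
  have h1 := ht.le hn j
  have hc : (0 : ℝ) ≤ c := Nat.cast_nonneg _
  have hc3 : (0 : ℝ) ≤ c3 := Nat.cast_nonneg _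
  have hT : (0 : ℝ) ≤ T := Nat.cast_nonneg _
  have hj : (0 : ℝ) ≤ j := Nat.cast_nonneg _
  have h2j : (0 : ℝ) < 2 ^ j := by positivity
  have hp : (0 : ℝ) < 4 ^ l := by positivity
  set a : ℝ := c * (c3 + 1) + 2 * c + 4 * c with ha
  have ha0 : 0 ≤ a := by positivity
  set Z : ℝ := Y / 2 ^ j with hZ
  have hZ0 : 0 ≤ Z := by positivity
  have e1 : (h : ℝ) / 2 ^ j ≤ D * Z := by
    rw [hZ, ← mul_div_assoc]
    exact div_le_div_of_nonneg_right hh h2j.le
  have e2 : (Nat.log 2 (h - 1) : ℝ) ≤ E * ((j + 1) + Z) := by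
    have g1 : (Nat.log 2 (h - 1) : ℝ) ≤ Nat.log 2 (h + 1) := by
      exact_mod_cast Nat.log_mono_right (by omega)
    have g2 := log_add_two_le hY j
    exact g1.trans (hlog.trans (mul_le_mul_of_nonneg_left g2 hE))
  have e3 : 4 * (c : ℝ) * (h / 2 ^ j) + a * ((Nat.log 2 (h - 1) : ℝ) + 1) ≤
      4 * c * (D * Z) + a * (E * ((j + 1) + Z) + (j + 1)) := by
    apply add_le_add (mul_le_mul_of_nonneg_left e1 (by positivity))
    apply mul_le_mul_of_nonneg_left _ ha0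
    linarith
  have e4 : (4 : ℝ) ^ l * (4 * (c : ℝ) * (h / 2 ^ j) + a * ((Nat.log 2 (h - 1) : ℝ) + 1)) ≤
      16 * x * (4 * c * (D * Z) + a * (E * ((j + 1) + Z) + (j + 1))) :=
    mul_le_mul h4 e3 (by positivity) (by positivity)
  have e5 : 16 * x * (4 * c * (D * Z) + a * (E * ((j + 1) + Z) + (j + 1))) =
      64 * c * D * (x * Z) + 16 * a * E * (x * Z) + 16 * a * (E + 1) * ((j + 1) * x) := by ring
  have e6 : ((j : ℝ) + 1) * x ≤ (j + 1) * (2 * T) := mul_le_mul_of_nonneg_left hxT (by positivity)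
  have e7 : 16 * a * (E + 1) * (((j : ℝ) + 1) * x) ≤ 16 * a * (E + 1) * ((j + 1) * (2 * T)) :=
    mul_le_mul_of_nonneg_left e6 (by positivity)
  have e8 : (2 * (c : ℝ) * j + 2 * c + 2 * c) * T ≤ 4 * c * ((j + 1) * T) := by
    have : (2 * (c : ℝ) * j + 2 * c + 2 * c) ≤ 4 * c * (j + 1) := by nlinarith [mul_nonneg hc hj]
    calc (2 * (c : ℝ) * j + 2 * c + 2 * c) * T ≤ 4 * c * (j + 1) * T :=
          mul_le_mul_of_nonneg_right this hT
      _ = _ := by ring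
  have e9 : x * Y / 2 ^ j = x * Z := by rw [hZ, mul_div_assoc]
  have hU : 0 ≤ ((j : ℝ) + 1) * T := by positivity
  have hXZ : 0 ≤ x * Z := by positivity
  rw [e9]
  have f1 : 0 ≤ (4 * (c : ℝ) + 32 * a * (E + 1)) * (x * Z) := by positivity
  have f2 : 0 ≤ (64 * (c : ℝ) * D + 16 * a * E) * ((j + 1) * T) := by positivity
  calc (t : ℝ) ≤ _ := h1
    _ ≤ 4 * c * ((j + 1) * T) + (64 * c * D * (x * Z) + 16 * a * E * (x * Z) +
        16 * a * (E + 1) * ((j + 1) * (2 * T))) := by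
        rw [e5] at e4
        linarith
    _ ≤ (4 * c + 32 * a * (E + 1) + 64 * c * D + 16 * a * E) * ((j + 1) * T + x * Z) := by
        have f3 : (4 * c + 32 * a * (E + 1) + 64 * c * D + 16 * a * E) * ((j + 1) * T + x * Z) =
          4 * c * ((j + 1) * T) + (64 * c * D * (x * Z) + 16 * a * E * (x * Z) +
          16 * a * (E + 1) * ((j + 1) * (2 * T))) + (4 * (c : ℝ) + 32 * a * (E + 1)) * (x * Z) +
          (64 * (c : ℝ) * D + 16 * a * E) * ((j + 1) * T) := by ring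
        rw [f3]
        linarith

/-- Facts about the sizes. -/
theorem size_facts {C₀ ρ r s : ℕ} {A : MTM} (hA : Multiplies A) (hC₀ : 32 ≤ C₀) (hρ : ρ < C₀)
    (hr : 2 ≤ r) (hs : 2 ≤ s) (hn : Near r s) :
    4 ^ ex r s ≤ C₀ * H898.mu r s + ρ ∧ C₀ * H898.mu r s + ρ ≤ 3 * C₀ * 4 ^ ex r s ∧
    C₀ * H898.mu r s + ρ ≤ mulTime A (C₀ * H898.mu r s + ρ) ∧
    (ex r s : ℝ) ≤ 3 * Real.log ((r : ℝ) * s + 2) := by
  have h1 : 4 ^ ex r s ≤ 16 * (r * s) := H784.four_pow_ex_le (by omega) hn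
  have h2 : r * s ≤ 2 * H898.mu r s := H784.mul_le_two_mu
  have h3 : H898.mu r s ≤ 2 * (r * s) := H784.mu_le_two_mul (by omega) (by omega)
  have h4 : r * s ≤ 4 ^ ex r s := H784.mul_le_four_pow_ex r s
  have h5 : 32 * H898.mu r s ≤ C₀ * H898.mu r s := Nat.mul_le_mul_right _ hC₀
  have h6 : C₀ * H898.mu r s ≤ C₀ * (2 * (r * s)) := Nat.mul_le_mul_left _ h3
  have h7 : 1 ≤ 4 ^ ex r s := Nat.one_le_pow _ _ (by norm_num)
  have h8 : C₀ * (2 * (r * s)) ≤ C₀ * (2 * 4 ^ ex r s) := by gcongr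
  have h9 : C₀ ≤ C₀ * 4 ^ ex r s := Nat.le_mul_of_pos_right _ (by omega)
  have h10 : C₀ * (2 * 4 ^ ex r s) + C₀ * 4 ^ ex r s = 3 * C₀ * 4 ^ ex r s := by ring
  refine ⟨by omega, by omega, le_mulTime hA (by omega), ?_⟩
  have g1 := H207.ex_le_log hr hs hn
  have hrs : (0 : ℝ) < (r : ℝ) * s := by
    have : 0 < r * s := Nat.mul_pos (by omega) (by omega)
    exact_mod_cast this
  have g2 : Real.log ((r : ℝ) * s) ≤ Real.log ((r : ℝ) * s + 2) :=
    Real.log_le_log hrs (by linarith)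
  linarith

/-- The common part of the two inequalities. -/
theorem costK_bound {C₀ k : ℕ} (hC₀ : 32 ≤ C₀) {A A' : MTM} (hA : Multiplies A) {ρ : ℕ}
    (hρ : ρ < C₀) (c : ℕ) : ∃ G : ℝ, 0 ≤ G ∧ ∀ r s tB j : ℕ, 2 ≤ r → 2 ≤ s → Near r s →
      CostK k A A' (C₀ * H898.mu r s + ρ) (ex r s) c tB → ∃ h V : ℕ,
      Ph (mulTime A') c (ex r s) k (ex r s) h V ∧
      (tB : ℝ) ≤ G * ((j + 1) * mulTime A (C₀ * H898.mu r s + ρ) +
        (r * s) * ilog (k + 1) (r * s) / 2 ^ j) + c * V := by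
  obtain ⟨D, hD, hheight⟩ := Ph.height k
  have hE0 : 0 ≤ Real.log (D + 1) := Real.log_nonneg (by linarith)
  obtain ⟨G, hG, hloop⟩ := exists_loop_bound c (3 * C₀) D (2 * (Real.log (D + 1) + 1) * 2) hD
    (by positivity)
  refine ⟨c * G + 3 * c, by positivity, ?_⟩
  intro r s tB j hr hs hnear hcost
  obtain ⟨t, h, V, hph, hhl, htot, htB⟩ := hcost
  refine ⟨h, V, hph, ?_⟩
  obtain ⟨f1, f2, f3, f4⟩ := size_facts hA hC₀ hρ hr hs hnear
  set n := C₀ * H898.mu r s + ρ with hn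
  set l := ex r s with hl
  have h4 : (4 : ℝ) ^ l ≤ 16 * ((r : ℝ) * s) := by
    have := H784.four_pow_ex_le (show 1 ≤ r by omega) hnear
    rw [← hl] at this
    exact_mod_cast this
  set x : ℝ := (r : ℝ) * s with hx
  have hrs : (0 : ℝ) ≤ x := by positivity
  have hY : 0 ≤ ilog (k + 1) x := ilog_nonneg hrs
  have g1 := hheight (mulTime A') c l h V x hrs f4 hph
  have g2 := natLog_le D _ hD hY g1
  have g3 := mul_le_mulTime hA (show 1 ≤ C₀ by omega) ρ (show 1 ≤ r by omega)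
    (show 1 ≤ s by omega)
  rw [← hn] at g3
  have g4 := hloop l (mulTime A n) n h t j x _ hrs hY h4 g3 f2 g1 g2 htot
  set T : ℝ := (mulTime A n : ℝ) with hT
  have hT0 : 0 ≤ T := Nat.cast_nonneg _
  have hc : (0 : ℝ) ≤ c := Nat.cast_nonneg _
  have hj : (0 : ℝ) ≤ j := Nat.cast_nonneg _
  have e1 : (4 : ℝ) ^ l ≤ T := by
    have : 4 ^ l ≤ mulTime A n := f1.trans f3
    rw [hT]
    exact_mod_cast this
  have e2 : (n : ℝ) ≤ T := by
    rw [hT]
    exact_mod_cast f3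
  have e3 : (tB : ℝ) ≤ c * (t + T + 4 ^ l + n + V) := by
    rw [hT]
    exact_mod_cast htB
  set S : ℝ := ((j : ℝ) + 1) * T + x * ilog (k + 1) x / 2 ^ j with hS
  have e4 : T ≤ S := by
    have a1 : 0 ≤ (j : ℝ) * T := mul_nonneg hj hT0
    have a2 : 0 ≤ x * ilog (k + 1) x / 2 ^ j := by positivity
    have a3 : ((j : ℝ) + 1) * T = j * T + T := by ring
    rw [hS]
    linarith
  calc (tB : ℝ) ≤ c * (t + T + 4 ^ l + n + V) := e3
    _ ≤ c * (G * S + S + S + S + V) := by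
        apply mul_le_mul_of_nonneg_left _ hc
        linarith
    _ = (c * G + 3 * c) * S + c * V := by ring

/-- The total time of the small multiplications. -/
theorem small_total {C₀ ρ r s k V : ℕ} {A A' : MTM} (hA : Multiplies A) (hC₀ : 32 ≤ C₀)
    (hρ : ρ < C₀) (hr : 2 ≤ r) (hs : 2 ≤ s) (hn : Near r s) {c : ℕ}
    (hV : (V : ℝ) ≤ k * (c * (1 * (4 ^ ex r s * (maxRate A' (ex r s) + mulTime A' 0)) +
      4 ^ ex r s))) :
    (V : ℝ) ≤ k * (c * (16 + mulTime A' 0 + 1) *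
      (mulTime A (C₀ * H898.mu r s + ρ) + r * s * maxRate A' (ex r s))) := by
  obtain ⟨f1, f2, f3, f4⟩ := size_facts hA hC₀ hρ hr hs hn
  have h4 : (4 : ℝ) ^ ex r s ≤ 16 * ((r : ℝ) * s) := by
    have := H784.four_pow_ex_le (show 1 ≤ r by omega) hn
    exact_mod_cast this
  have e1 : (4 : ℝ) ^ ex r s ≤ mulTime A (C₀ * H898.mu r s + ρ) := by
    exact_mod_cast f1.trans f3
  have hM := maxRate_nonneg A' (ex r s)
  have h0 : (0 : ℝ) ≤ mulTime A' 0 := Nat.cast_nonneg _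
  have hc : (0 : ℝ) ≤ c := Nat.cast_nonneg _
  set T : ℝ := (mulTime A (C₀ * H898.mu r s + ρ) : ℝ) with hT
  have hT0 : 0 ≤ T := Nat.cast_nonneg _
  set M : ℝ := maxRate A' (ex r s) with hMd
  set x : ℝ := (r : ℝ) * s with hx
  have hx0 : 0 ≤ x := by positivity
  set D : ℝ := (4 : ℝ) ^ ex r s with hD
  have e2 : D * M ≤ 16 * x * M := mul_le_mul_of_nonneg_right h4 hM
  have e3 : D * mulTime A' 0 ≤ T * mulTime A' 0 := mul_le_mul_of_nonneg_right e1 h0
  have hxM : 0 ≤ x * M := mul_nonneg hx0 hM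
  have e4 : 1 * (D * (M + mulTime A' 0)) + D ≤ (16 + mulTime A' 0 + 1) * (T + x * M) := by
    have a1 : (16 + (mulTime A' 0 : ℝ) + 1) * (T + x * M) = 16 * x * M + T * mulTime A' 0 + T +
        (16 * T + mulTime A' 0 * (x * M) + x * M) := by ring
    have a2 : 0 ≤ 16 * T + mulTime A' 0 * (x * M) + x * M := by positivity
    have a3 : 1 * (D * (M + mulTime A' 0)) + D = D * M + D * mulTime A' 0 + D := by ring
    rw [a1, a3]
    linarith
  refine hV.trans ?_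
  apply mul_le_mul_of_nonneg_left _ (Nat.cast_nonneg _)
  calc (c : ℝ) * (1 * (D * (M + mulTime A' 0)) + D)
      ≤ c * ((16 + mulTime A' 0 + 1) * (T + x * M)) := mul_le_mul_of_nonneg_left e4 hc
    _ = _ := by ring

/-- **The inequality with `k` phases.** -/
theorem iterIneq_of_costK {C₀ k : ℕ} (hC₀ : 32 ≤ C₀) {A A' : MTM} (hA : Multiplies A)
    (h : ∀ ρ < C₀, ∃ B : MTM, Transposes B ∧ ∃ c : ℕ, ∀ r s : ℕ, 1 ≤ r →
      1 ≤ s → Near r s → ∀ N : Fin r → Fin s → Bool,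
        CostK k A A' (C₀ * H898.mu r s + ρ) (ex r s) c (B.time (matWord N))) :
    IterIneq C₀ A A' k := by
  intro ρ hρ
  obtain ⟨B, hB, c, hc⟩ := h ρ hρ
  obtain ⟨G, hG, hmain⟩ := costK_bound (k := k) (A' := A') hC₀ hA hρ c
  refine ⟨B, hB, G + c * (k * (c * (16 + mulTime A' 0 + 1))), fun r s hr hs h1 h2 j => ?_⟩
  obtain ⟨N, hN⟩ := H207.exists_transTime B r s
  have hnear : Near r s := ⟨h1, h2⟩
  obtain ⟨h', V, hph, hle⟩ := hmain r s _ j hr hs hnear (hc r s (by omega) (by omega) hnear N)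
  rw [hN, lg_eq_ex]
  have g1 := small_total hA hC₀ hρ hr hs hnear (hph.cost (K := 1)
    (T := 4 ^ ex r s * (maxRate A' (ex r s) + mulTime A' 0)) (fun i hi => small_bound A' hi)
    le_rfl)
  set n := C₀ * H898.mu r s + ρ with hn
  set l := ex r s with hl
  have hM := maxRate_nonneg A' l
  set M : ℝ := maxRate A' l with hMd
  set x : ℝ := (r : ℝ) * s with hx
  set T : ℝ := (mulTime A n : ℝ) with hT
  have hT0 : 0 ≤ T := Nat.cast_nonneg _
  have hx0 : 0 ≤ x := by positivity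
  have hY : 0 ≤ ilog (k + 1) x := ilog_nonneg hx0
  have hj : (0 : ℝ) ≤ j := Nat.cast_nonneg _
  have hcc : (0 : ℝ) ≤ c := Nat.cast_nonneg _
  have h0 : (0 : ℝ) ≤ mulTime A' 0 := Nat.cast_nonneg _
  have hxM : 0 ≤ x * M := mul_nonneg hx0 hM
  set Z : ℝ := x * ilog (k + 1) x / 2 ^ j with hZ
  have hZ0 : 0 ≤ Z := by positivity
  set U : ℝ := ((j : ℝ) + 1) * T with hU
  have hTU : T ≤ U := by
    have a1 : 0 ≤ (j : ℝ) * T := mul_nonneg hj hT0
    have a3 : ((j : ℝ) + 1) * T = j * T + T := by ring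
    rw [hU, a3]
    linarith
  set H : ℝ := c * (k * (c * (16 + mulTime A' 0 + 1))) with hH
  have hH0 : 0 ≤ H := by positivity
  have e5 : (c : ℝ) * V ≤ H * (T + x * M) := by
    calc (c : ℝ) * V ≤ c * (k * (c * (16 + mulTime A' 0 + 1) * (T + x * M))) :=
          mul_le_mul_of_nonneg_left g1 hcc
      _ = _ := by ring
  calc (B.time (matWord N) : ℝ) ≤ G * (U + Z) + c * V := hle
    _ ≤ G * (U + x * M + Z) + H * (U + x * M + Z) := by
        apply add_le_add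
        · apply mul_le_mul_of_nonneg_left _ hG
          linarith
        · refine e5.trans (mul_le_mul_of_nonneg_left ?_ hH0)
          linarith
    _ = (G + H) * (U + x * M + Z) := by ring

/-- `log (log (x + 2) + 2) ≤ 8 log log x` for `x ≥ 4`. -/
theorem ilog_two_le {x : ℝ} (hx : 4 ≤ x) : ilog 2 x ≤ 8 * Real.log (Real.log x) := by
  rw [ilog_succ, ilog_succ, ilog_zero]
  have h0 : 0 ≤ Real.log x := Real.log_nonneg (by linarith)
  have h1 : Real.log (x + 2) ≤ 2 * Real.log x := by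
    have e1 : x + 2 ≤ x ^ 2 := by nlinarith
    have e2 := Real.log_le_log (by linarith) e1
    rw [Real.log_pow] at e2
    exact_mod_cast e2
  have h2 : Real.log (x + 2) + 2 ≤ (Real.log x + 2) ^ 2 := by nlinarith
  have h3 : 0 ≤ Real.log (x + 2) := Real.log_nonneg (by linarith)
  have h4 := Real.log_le_log (by linarith) h2
  rw [Real.log_pow] at h4
  push_cast at h4
  have h5 := log_add_two_le_pow hx
  linarith

/-- **The inequality with a bounded number of large multiplications.** -/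
theorem fastIneq_of_costK {C₀ : ℕ} (hC₀ : 32 ≤ C₀) {A A' : MTM} (hA : Multiplies A)
    (h : ∀ ρ < C₀, ∃ B : MTM, Transposes B ∧ ∃ c : ℕ, ∀ r s : ℕ, 1 ≤ r →
      1 ≤ s → Near r s → ∀ N : Fin r → Fin s → Bool,
        CostK 1 A A' (C₀ * H898.mu r s + ρ) (ex r s) c (B.time (matWord N))) :
    FastIneq C₀ A A' := by
  intro ρ hρ
  obtain ⟨B, hB, c, hc⟩ := h ρ hρ
  obtain ⟨G, hG, hmain⟩ := costK_bound (k := 1) (A' := A') hC₀ hA hρ c
  refine ⟨B, hB, 8 * G + 16 * c * c, fun r s hr hs h1 h2 j => ?_⟩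
  obtain ⟨N, hN⟩ := H207.exists_transTime B r s
  have hnear : Near r s := ⟨h1, h2⟩
  obtain ⟨h', V, hph, hle⟩ := hmain r s _ j hr hs hnear (hc r s (by omega) (by omega) hnear N)
  obtain ⟨f1, f2, f3, f4⟩ := size_facts hA hC₀ hρ hr hs hnear
  rw [hN, lg_eq_ex]
  set n := C₀ * H898.mu r s + ρ with hn
  have hl1 : 1 ≤ ex r s := one_le_ex hr
  set l := ex r s with hl
  have hrs4 : (4 : ℝ) ≤ (r : ℝ) * s := by
    have : 2 * 2 ≤ r * s := Nat.mul_le_mul hr hs
    exact_mod_cast this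
  have h4 : (4 : ℝ) ^ l ≤ 16 * ((r : ℝ) * s) := by
    have := H784.four_pow_ex_le (show 1 ≤ r by omega) hnear
    rw [← hl] at this
    exact_mod_cast this
  set x : ℝ := (r : ℝ) * s with hx
  set T : ℝ := (mulTime A n : ℝ) with hT
  have hT0 : 0 ≤ T := Nat.cast_nonneg _
  have e1 : (4 : ℝ) ^ l ≤ T := by
    have : 4 ^ l ≤ mulTime A n := f1.trans f3
    rw [hT]
    exact_mod_cast this
  have hcc : (0 : ℝ) ≤ c := Nat.cast_nonneg _
  have hj : (0 : ℝ) ≤ j := Nat.cast_nonneg _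
  have hl0 : (0 : ℝ) < l := by exact_mod_cast hl1
  set T' : ℝ := (mulTime A' l : ℝ) with hT'
  have hT'0 : 0 ≤ T' := Nat.cast_nonneg _
  -- the small multiplications
  have e2 : (V : ℝ) ≤ c * (16 * (x * (T' / l))) + c * T := by
    cases hph with
    | @succ _ _ h₁ h₂ K V hp' a1 a2 hK =>
      cases hp' with
      | zero =>
        have b1 := (Nat.cast_le (α := ℝ)).2 hK
        push_cast at b1
        have hK0 : (0 : ℝ) ≤ K := Nat.cast_nonneg _
        have b2 : (K : ℝ) * l ≤ c * 4 ^ l := by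
          refine le_trans ?_ b1
          apply mul_le_mul_of_nonneg_left _ hK0
          linarith
        have b3 : (K : ℝ) ≤ c * 4 ^ l / l := by
          rw [le_div_iff₀ hl0]
          exact b2
        have b4 : (K : ℝ) * T' ≤ c * (16 * (x * (T' / l))) := by
          calc (K : ℝ) * T' ≤ c * 4 ^ l / l * T' := mul_le_mul_of_nonneg_right b3 hT'0
            _ = c * (4 ^ l * (T' / l)) := by ring
            _ ≤ c * (16 * x * (T' / l)) := by
                apply mul_le_mul_of_nonneg_left _ hcc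
                exact mul_le_mul_of_nonneg_right h4 (by positivity)
            _ = _ := by ring
        have b5 : (K : ℝ) * l ≤ c * T := b2.trans (mul_le_mul_of_nonneg_left e1 hcc)
        push_cast
        rw [zero_add, mul_add]
        linarith
  have hLL := loglog_nonneg hrs4
  have hi2 := ilog_two_le hrs4
  have g5 : x * ilog (1 + 1) x / 2 ^ j ≤ 8 * (x * Real.log (Real.log x) / 2 ^ j) := by
    have : x * ilog (1 + 1) x ≤ 8 * (x * Real.log (Real.log x)) := by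
      have := mul_le_mul_of_nonneg_left hi2 (show (0 : ℝ) ≤ x by linarith)
      linarith
    calc x * ilog (1 + 1) x / 2 ^ j ≤ 8 * (x * Real.log (Real.log x)) / 2 ^ j := by gcongr
      _ = _ := by ring
  have g6 : 0 ≤ ((j : ℝ) + 1) * T := by positivity
  have g7 : 0 ≤ x * (T' / l) := by positivity
  have g8 : 0 ≤ x * Real.log (Real.log x) / 2 ^ j := by positivity
  have g9 : T ≤ ((j : ℝ) + 1) * T := by
    have : 0 ≤ (j : ℝ) * T := mul_nonneg hj hT0
    linarith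
  set Z : ℝ := x * Real.log (Real.log x) / 2 ^ j with hZ
  set U : ℝ := ((j : ℝ) + 1) * T with hU
  have k1 : G * (U + x * ilog (1 + 1) x / 2 ^ j) ≤ G * (U + 8 * Z) := by
    apply mul_le_mul_of_nonneg_left _ hG
    linarith
  have k2 : (c : ℝ) * V ≤ c * (c * (16 * (x * (T' / l))) + c * U) := by
    apply mul_le_mul_of_nonneg_left _ hcc
    refine e2.trans (add_le_add le_rfl (mul_le_mul_of_nonneg_left g9 hcc))
  have k3 : 0 ≤ G * U := mul_nonneg hG g6
  have k4 : 0 ≤ G * (x * (T' / l)) := mul_nonneg hG g7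
  have k5 : 0 ≤ (c : ℝ) * c * U := by positivity
  have k6 : 0 ≤ (c : ℝ) * c * Z := by positivity
  have k7 : (8 * G + 16 * c * c) * (U + x * (T' / l) + Z) = 8 * (G * U) + 8 * (G * (x * (T' / l))) +
      8 * (G * Z) + 16 * (c * c * U) + 16 * (c * c * (x * (T' / l))) + 16 * (c * c * Z) := by ring
  have k8 : G * (U + 8 * Z) = G * U + 8 * (G * Z) := by ring
  have k9 : (c : ℝ) * (c * (16 * (x * (T' / l))) + c * U) =
      16 * (c * c * (x * (T' / l))) + c * c * U := by ring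
  rw [k7]
  linarith

end Vale.Agent.P338.R2.H101
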