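import Vale.Agent.P338.R2.H101.FastDef

/-!
P338: the iterated form of the reduction, definitions.
-/

namespace Vale.Agent.P338.R2.H898

/-- The maximum of `T_A(k) / k` over `1 ≤ k ≤ l`. -/
noncomputable def maxRate (A : MTM) (l : ℕ) : ℝ :=
  sSup {x : ℝ | ∃ k : ℕ, 1 ≤ k ∧ k ≤ l ∧ x = mulTime A k / k}

/-- The `k`-fold iterate of the function `log (x + 2)`. -/
noncomputable def ilog (k : ℕ) (x : ℝ) : ℝ := (fun y : ℝ => Real.log (y + 2))^[k] x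

/-- The inequality of the reduction with `k` phases: `A` is the machine for large
multiplications, `A'` the machine for multiplications of at most `lg r s`-bit numbers. -/
def IterIneq (C₀ : ℕ) (A A' : MTM) (k : ℕ) : Prop :=
  ∀ ρ < C₀, ∃ B : MTM, Transposes B ∧ ∃ C : ℝ, ∀ r s : ℕ, 2 ≤ r → 2 ≤ s → r ≤ 4 * s → s ≤ 4 * r →
    ∀ j : ℕ, (transTime B r s : ℝ) ≤
      C * ((j + 1) * mulTime A (C₀ * mu r s + ρ) + r * s * maxRate A' (lg r s) +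
        r * s * ilog (k + 1) (r * s) / 2 ^ j)

/-- The number of logarithms that must be taken to get from `x` to a number `≤ 1`. -/
noncomputable def logStar (x : ℝ) : ℕ := sInf {k : ℕ | Real.log^[k] x ≤ 1}

/-- The inequality of the reduction with `log*` phases. -/
def StarIneq (C₀ : ℕ) (A A' : MTM) : Prop :=
  ∀ ρ < C₀, ∃ B : MTM, Transposes B ∧ ∃ C : ℝ, ∀ r s : ℕ, 2 ≤ r → 2 ≤ s → r ≤ 4 * s → s ≤ 4 * r →
    (transTime B r s : ℝ) ≤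
      C * (logStar (r * s) * (mulTime A (C₀ * mu r s + ρ) + r * s * maxRate A' (lg r s)))

/-- `g` is eventually nondecreasing, `g (x ^ 2) = O(g x)`, and `g` grows at least as fast as some
iterated logarithm. -/
def Slow (g : ℝ → ℝ) : Prop :=
  ∃ K X : ℝ, ∃ k : ℕ, 0 < K ∧ (∀ x y : ℝ, X ≤ x → x ≤ y → g x ≤ g y) ∧
    (∀ x : ℝ, X ≤ x → g (x ^ 2) ≤ K * g x) ∧ ∀ x : ℝ, X ≤ x → ilog (k + 1) x ≤ K * g x

/-- Transposing near-square bit matrices requires `Ω(rs g(rs))` steps on every machine. -/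
def TransHardBy (g : ℝ → ℝ) : Prop :=
  ∀ B : MTM, Transposes B → ∃ c : ℝ, 0 < c ∧ ∃ N : ℕ, ∀ r s : ℕ, N ≤ r → N ≤ s → r ≤ 4 * s →
    s ≤ 4 * r → c * (r * s * g (r * s)) ≤ transTime B r s

/-- Some machine transposes near-square bit matrices in `o(rs g(rs))` steps. -/
def TransFastBy (g : ℝ → ℝ) : Prop :=
  ∃ B : MTM, Transposes B ∧ ∀ ε : ℝ, 0 < ε → ∃ N : ℕ, ∀ r s : ℕ, N ≤ r → N ≤ s → r ≤ 4 * s →
    s ≤ 4 * r → (transTime B r s : ℝ) ≤ ε * (r * s * g (r * s))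

/-- The machine `A` needs `Ω(n g(n))` steps. -/
def MulHardBy (g : ℝ → ℝ) (A : MTM) : Prop :=
  ∃ c : ℝ, 0 < c ∧ ∃ N : ℕ, ∀ n : ℕ, N ≤ n → c * (n * g n) ≤ mulTime A n

/-- The machine `A` needs `o(n g(n))` steps. -/
def MulFastBy (g : ℝ → ℝ) (A : MTM) : Prop :=
  ∀ ε : ℝ, 0 < ε → ∃ N : ℕ, ∀ n : ℕ, N ≤ n → (mulTime A n : ℝ) ≤ ε * (n * g n)

/-- For all large `n`, the machine `A` needs `c n g(n)` steps for `n`-bit numbers, or the
machine `A'` needs `c k g(n)` steps for `k`-bit numbers, for some `k ≤ log₂ n`. -/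
def MulHardOr (g : ℝ → ℝ) (A A' : MTM) : Prop :=
  ∃ c : ℝ, 0 < c ∧ ∃ N : ℕ, ∀ n : ℕ, N ≤ n → c * (n * g n) ≤ mulTime A n ∨
    ∃ k : ℕ, 1 ≤ k ∧ 2 ^ k ≤ n ∧ c * (k * g n) ≤ mulTime A' k

/-- `T_A(k) / k = O(T_A(n) / n)` for `k ≤ log₂ n`. -/
def Regular (A : MTM) : Prop :=
  ∃ K : ℝ, ∀ k n : ℕ, 1 ≤ k → 2 ^ k ≤ n → (mulTime A k : ℝ) / k ≤ K * (mulTime A n / n)

end Vale.Agent.P338.R2.H898
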