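import Mathlib
import Vale.Agent.P338.R2.H101.Count

/-!
P338, unconditional lower bounds: there is an input on which no short list of visits predicts many
product bits.
-/

namespace Vale.Agent.P338.R2.H101

open Vale.Agent.P338.R2.H898

open Classical

variable {A : MTM} {M σ : ℕ}

/-- A list of visits as a list of pairs. -/
def toL {q c : ℕ} (a : Fin c → Iface A M σ × Fin (q + 1)) : List (Iface A M σ × ℕ) :=
  List.ofFn fun i => ((a i).1, ((a i).2 : ℕ))

theorem exists_toL {q : ℕ} (L : List (Iface A M σ × ℕ)) (hL : total L ≤ q) :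
    ∃ a : Fin L.length → Iface A M σ × Fin (q + 1), toL a = L := by
  have h1 : ∀ x ∈ L, x.2 ≤ q := by
    intro x hx
    refine le_trans ?_ hL
    unfold total
    exact List.single_le_sum (by simp) _ (List.mem_map_of_mem hx)
  refine ⟨fun i => (L[i].1, ⟨L[i].2, Nat.lt_succ_of_le (h1 _ (List.getElem_mem _))⟩), ?_⟩
  unfold toL
  simp

/-- The configuration with blank tapes. -/
def blankConf (A : MTM) : A.Conf :=
  { state := A.start, tape := fun _ _ => A.blank, head := fun _ => 0 }

/-- The configuration with the contents `g` on the segment `s` of the tape `W` for the division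
into segments of length `w` with the offset `b`. -/
noncomputable def baseConf (W : A.Tape) (w b s : ℕ) (g : Fin w → A.Sym) : A.Conf :=
  { state := A.start
    tape := fun i p => if i = W ∧ (p + b) / w = s then
      (if h : 0 < w then g ⟨(p + b) % w, Nat.mod_lt _ h⟩ else A.blank) else A.blank
    head := fun _ => 0 }

section

variable [Fintype A.State] [Fintype A.Tape] [Fintype A.Sym]

/-- The inputs for which the given list of visits predicts many product bits. -/
noncomputable def badOf (n D X Y μ w Sg lam gam : ℕ) (W : A.Tape) (L : List (Iface A M σ × ℕ)) :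
    Finset (Inp X Y) :=
  lucky n D X Y μ W (blankConf A) L (lam * (L.length + 2)) ∪
    (Finset.univ : Finset (Fin w × Fin Sg × (Fin w → A.Sym))).biUnion fun x =>
      lucky n D X Y μ W (baseConf W w x.1 x.2.1 x.2.2) L (lam * (L.length + 2) + gam * w)

omit [Fintype A.State] [Fintype A.Tape] in
theorem badOf_card {n D X Y μ w Sg lam gam : ℕ} (hD : 1 ≤ D) (hY : D * Y ≤ n)
    (hXY : X + μ ≤ Y + 1) (hgam : Fintype.card A.Sym ≤ 2 ^ gam) (W : A.Tape)
    (L : List (Iface A M σ × ℕ)) (hL : 2 * total L / D + L.length + 2 * μ ≤ X) :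
    2 ^ (lam * (L.length + 2)) * (badOf n D X Y μ w Sg lam gam W L).card ≤
      (1 + w * Sg) * (2 * 2 ^ (X + Y)) := by
  have h1 := lucky_card hD hY hXY W (blankConf A) L hL (lam * (L.length + 2))
  have h2 : ∀ x : Fin w × Fin Sg × (Fin w → A.Sym),
      2 ^ (lam * (L.length + 2) + gam * w) *
      (lucky n D X Y μ W (baseConf W w x.1 x.2.1 x.2.2) L
        (lam * (L.length + 2) + gam * w)).card ≤ 2 * 2 ^ (X + Y) :=
    fun x => lucky_card hD hY hXY W _ L hL _
  have h3 : 2 ^ (gam * w) * (2 ^ (lam * (L.length + 2)) *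
      ((Finset.univ : Finset (Fin w × Fin Sg × (Fin w → A.Sym))).biUnion fun x =>
      lucky n D X Y μ W (baseConf W w x.1 x.2.1 x.2.2) L
        (lam * (L.length + 2) + gam * w)).card) ≤
      2 ^ (gam * w) * (w * Sg * (2 * 2 ^ (X + Y))) := by
    calc _ = 2 ^ (lam * (L.length + 2) + gam * w) *
        ((Finset.univ : Finset (Fin w × Fin Sg × (Fin w → A.Sym))).biUnion fun x =>
        lucky n D X Y μ W (baseConf W w x.1 x.2.1 x.2.2) L
          (lam * (L.length + 2) + gam * w)).card := by rw [pow_add]; ring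
      _ ≤ 2 ^ (lam * (L.length + 2) + gam * w) *
          ∑ x : Fin w × Fin Sg × (Fin w → A.Sym),
          (lucky n D X Y μ W (baseConf W w x.1 x.2.1 x.2.2) L
          (lam * (L.length + 2) + gam * w)).card :=
        Nat.mul_le_mul_left _ Finset.card_biUnion_le
      _ = ∑ x : Fin w × Fin Sg × (Fin w → A.Sym), 2 ^ (lam * (L.length + 2) + gam * w) *
          (lucky n D X Y μ W (baseConf W w x.1 x.2.1 x.2.2) L
          (lam * (L.length + 2) + gam * w)).card := by rw [Finset.mul_sum]
      _ ≤ ∑ x : Fin w × Fin Sg × (Fin w → A.Sym), 2 * 2 ^ (X + Y) :=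
        Finset.sum_le_sum fun x _ => h2 x
      _ = (w * (Sg * Fintype.card A.Sym ^ w)) * (2 * 2 ^ (X + Y)) := by
        rw [Finset.sum_const, smul_eq_mul, Finset.card_univ, Fintype.card_prod, Fintype.card_prod,
          Fintype.card_fin, Fintype.card_fin, Fintype.card_fun, Fintype.card_fin]
      _ ≤ (w * (Sg * (2 ^ gam) ^ w)) * (2 * 2 ^ (X + Y)) := by
        gcongr
      _ = _ := by
        rw [← pow_mul]
        ring
  have h4 := Nat.le_of_mul_le_mul_left h3 (by positivity)
  calc 2 ^ (lam * (L.length + 2)) * (badOf n D X Y μ w Sg lam gam W L).card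
      ≤ 2 ^ (lam * (L.length + 2)) * ((lucky n D X Y μ W (blankConf A) L
          (lam * (L.length + 2))).card +
          ((Finset.univ : Finset (Fin w × Fin Sg × (Fin w → A.Sym))).biUnion fun x =>
          lucky n D X Y μ W (baseConf W w x.1 x.2.1 x.2.2) L
          (lam * (L.length + 2) + gam * w)).card) :=
        Nat.mul_le_mul_left _ (Finset.card_union_le _ _)
    _ ≤ 2 * 2 ^ (X + Y) + w * Sg * (2 * 2 ^ (X + Y)) := by
        rw [mul_add]
        exact Nat.add_le_add h1 h4
    _ = _ := by ring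

/-- There is an input on which no short list of visits predicts many product bits. -/
theorem exists_good {n D μ w Sg lam gam q : ℕ} (hD : 1 ≤ D) (hn : D * (5 * μ) ≤ n)
    (hq : 2 * q / D ≤ μ) (hgam : Fintype.card A.Sym ≤ 2 ^ gam)
    (hlam : Fintype.card (Iface A M σ) * (q + 1) ≤ 2 ^ lam)
    (hlam2 : 2 * Fintype.card A.Tape * (μ + 1) * (1 + w * Sg) < 2 ^ (2 * lam)) :
    ∃ ω : Inp (4 * μ) (5 * μ), ∀ (W : A.Tape) (L : List (Iface A M σ × ℕ)),
      L.length ≤ μ → total L ≤ q → ω ∉ badOf n D (4 * μ) (5 * μ) μ w Sg lam gam W L := by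
  set X := 4 * μ with hX
  set Y := 5 * μ with hY
  set F := Iface A M σ × Fin (q + 1) with hF
  have hcF : Fintype.card F ≤ 2 ^ lam := by
    show Fintype.card (Iface A M σ × Fin (q + 1)) ≤ 2 ^ lam
    rw [Fintype.card_prod, Fintype.card_fin]
    exact hlam
  set B : Finset (Inp X Y) := (Finset.univ : Finset A.Tape).biUnion fun W =>
    (Finset.range (μ + 1)).biUnion fun c => (Finset.univ : Finset (Fin c → F)).biUnion fun a =>
      if total (toL a) ≤ q then badOf n D X Y μ w Sg lam gam W (toL a) else ∅ with hB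
  have hone : ∀ (W : A.Tape) (c : ℕ), c ≤ μ → ∀ a : Fin c → F, 2 ^ (lam * (c + 2)) *
      (if total (toL a) ≤ q then badOf n D X Y μ w Sg lam gam W (toL a) else ∅).card ≤
      (1 + w * Sg) * (2 * 2 ^ (X + Y)) := by
    intro W c hc a
    by_cases h : total (toL a) ≤ q
    · rw [if_pos h]
      have hlen : (toL a).length = c := by simp [toL]
      have h2 := badOf_card (w := w) (Sg := Sg) (lam := lam) (X := X) (Y := Y) (μ := μ) hD hn
        (by omega) hgam W (toL a) (by
        have h3 : 2 * total (toL a) / D ≤ 2 * q / D := Nat.div_le_div_right (by omega)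
        omega)
      rw [hlen] at h2
      exact h2
    · rw [if_neg h]
      simp
  have hlevel : ∀ (W : A.Tape) (c : ℕ), c ≤ μ → 2 ^ (2 * lam) *
      ((Finset.univ : Finset (Fin c → F)).biUnion fun a =>
      if total (toL a) ≤ q then badOf n D X Y μ w Sg lam gam W (toL a) else ∅).card ≤
      (1 + w * Sg) * (2 * 2 ^ (X + Y)) := by
    intro W c hc
    have h1 : 2 ^ (lam * c) * (2 ^ (2 * lam) *
        ((Finset.univ : Finset (Fin c → F)).biUnion fun a =>
        if total (toL a) ≤ q then badOf n D X Y μ w Sg lam gam W (toL a) else ∅).card) ≤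
        2 ^ (lam * c) * ((1 + w * Sg) * (2 * 2 ^ (X + Y))) := by
      calc _ ≤ 2 ^ (lam * c) * (2 ^ (2 * lam) * ∑ a : Fin c → F,
            (if total (toL a) ≤ q then badOf n D X Y μ w Sg lam gam W (toL a) else ∅).card) :=
            Nat.mul_le_mul_left _ (Nat.mul_le_mul_left _ Finset.card_biUnion_le)
        _ = ∑ a : Fin c → F, 2 ^ (lam * (c + 2)) *
            (if total (toL a) ≤ q then badOf n D X Y μ w Sg lam gam W (toL a) else ∅).card := by
            rw [← Finset.mul_sum, ← mul_assoc, ← pow_add]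
            congr 2
            ring
        _ ≤ ∑ a : Fin c → F, (1 + w * Sg) * (2 * 2 ^ (X + Y)) :=
            Finset.sum_le_sum fun a _ => hone W c hc a
        _ = Fintype.card F ^ c * ((1 + w * Sg) * (2 * 2 ^ (X + Y))) := by
            rw [Finset.sum_const, smul_eq_mul, Finset.card_univ, Fintype.card_fun,
              Fintype.card_fin]
        _ ≤ (2 ^ lam) ^ c * ((1 + w * Sg) * (2 * 2 ^ (X + Y))) :=
            Nat.mul_le_mul_right _ (Nat.pow_le_pow_left hcF c)
        _ = _ := by rw [← pow_mul]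
    exact Nat.le_of_mul_le_mul_left h1 (by positivity)
  have hcard : 2 ^ (2 * lam) * B.card ≤
      Fintype.card A.Tape * ((μ + 1) * ((1 + w * Sg) * (2 * 2 ^ (X + Y)))) := by
    calc 2 ^ (2 * lam) * B.card ≤ 2 ^ (2 * lam) * ∑ W : A.Tape, ∑ c ∈ Finset.range (μ + 1),
          ((Finset.univ : Finset (Fin c → F)).biUnion fun a =>
          if total (toL a) ≤ q then badOf n D X Y μ w Sg lam gam W (toL a) else ∅).card := by
          refine Nat.mul_le_mul_left _ ?_
          refine Finset.card_biUnion_le.trans (Finset.sum_le_sum fun W _ => ?_)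
          exact Finset.card_biUnion_le
      _ = ∑ W : A.Tape, ∑ c ∈ Finset.range (μ + 1), 2 ^ (2 * lam) *
          ((Finset.univ : Finset (Fin c → F)).biUnion fun a =>
          if total (toL a) ≤ q then badOf n D X Y μ w Sg lam gam W (toL a) else ∅).card := by
          rw [Finset.mul_sum]
          refine Finset.sum_congr rfl fun W _ => ?_
          rw [Finset.mul_sum]
      _ ≤ ∑ W : A.Tape, ∑ c ∈ Finset.range (μ + 1), (1 + w * Sg) * (2 * 2 ^ (X + Y)) := by
          refine Finset.sum_le_sum fun W _ => Finset.sum_le_sum fun c hc => ?_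
          rw [Finset.mem_range] at hc
          exact hlevel W c (by omega)
      _ = _ := by simp [Finset.card_univ]
  have hcU : Fintype.card (Inp X Y) = 2 ^ (X + Y) := by
    rw [Fintype.card_prod]
    simp only [Fintype.card_fun, Fintype.card_fin, ZMod.card]
    rw [← pow_add]
  have hlt : B.card < 2 ^ (X + Y) := by
    have h1 : 2 ^ (2 * lam) * B.card < 2 ^ (2 * lam) * 2 ^ (X + Y) := by
      calc 2 ^ (2 * lam) * B.card ≤
          Fintype.card A.Tape * ((μ + 1) * ((1 + w * Sg) * (2 * 2 ^ (X + Y)))) := hcard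
        _ = (2 * Fintype.card A.Tape * (μ + 1) * (1 + w * Sg)) * 2 ^ (X + Y) := by ring
        _ < 2 ^ (2 * lam) * 2 ^ (X + Y) := Nat.mul_lt_mul_of_pos_right hlam2 (by positivity)
    exact Nat.lt_of_mul_lt_mul_left h1
  obtain ⟨ω, hω⟩ : ∃ ω : Inp X Y, ω ∉ B := by
    by_contra hcon
    push Not at hcon
    have : B = Finset.univ := Finset.eq_univ_iff_forall.2 hcon
    rw [this, Finset.card_univ, hcU] at hlt
    exact lt_irrefl _ hlt
  refine ⟨ω, fun W L hlen htot hmem => hω ?_⟩
  obtain ⟨a, ha⟩ := exists_toL L htot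
  rw [hB, Finset.mem_biUnion]
  refine ⟨W, Finset.mem_univ _, ?_⟩
  rw [Finset.mem_biUnion]
  refine ⟨L.length, Finset.mem_range.2 (by omega), ?_⟩
  rw [Finset.mem_biUnion]
  refine ⟨a, Finset.mem_univ _, ?_⟩
  rw [ha, if_pos htot]
  exact hmem

end

end Vale.Agent.P338.R2.H101
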