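import Mathlib
import Vale.Agent.P338.R2.H101.Union
import Vale.Agent.P338.R2.H968.Seg

/-!
P338, unconditional lower bounds: the inequality between the running time and the number of
product bits.
-/

namespace Vale.Agent.P338.R2.H101

open Vale.Agent.P338.R2.H898

open Classical

section runs

variable {A : MTM} {v : List Letter}

theorem conf_succ (A : MTM) (v : List Letter) (t : ℕ) : A.conf v (t + 1) = A.next (A.conf v t) := by
  unfold MTM.conf
  exact Function.iterate_succ_apply' _ _ _

theorem next_head (A : MTM) (c : A.Conf) (i : A.Tape) :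
    (A.next c).head i ≤ c.head i + 1 ∧ c.head i ≤ (A.next c).head i + 1 := by
  unfold MTM.next
  rcases A.act c with _ | ⟨q, a⟩
  · exact ⟨by simp, by simp⟩
  · show (a i).2.app (c.head i) ≤ c.head i + 1 ∧ c.head i ≤ (a i).2.app (c.head i) + 1
    rcases (a i).2 with _ | _ | _ <;> simp only [Move.app] <;> omega

theorem head_le (A : MTM) (v : List Letter) (i : A.Tape) (t : ℕ) : (A.conf v t).head i ≤ t := by
  induction t with
  | zero => exact le_rfl
  | succ t ih =>
    rw [conf_succ]
    have := (next_head A (A.conf v t) i).1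
    omega

/-- A cell does not change while the head is elsewhere. -/
theorem tape_const (A : MTM) (v : List Letter) (i : A.Tape) (p t0 : ℕ)
    (h : ∀ t < t0, (A.conf v t).head i ≠ p) :
    (A.conf v t0).tape i p = (A.conf v 0).tape i p := by
  induction t0 with
  | zero => rfl
  | succ t ih =>
    rw [conf_succ, ← ih (fun t' ht' => h t' (by omega))]
    unfold MTM.next
    rcases A.act (A.conf v t) with _ | ⟨q, a⟩
    · rfl
    · show Function.update _ _ _ p = _
      rw [Function.update_of_ne (Ne.symm (h t (by omega)))]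

theorem once_const (ho : ∀ t p, (A.conf v t).tape A.out p ≠ A.blank →
      (A.conf v (t + 1)).tape A.out p = (A.conf v t).tape A.out p) {t t' p : ℕ} (htt : t ≤ t')
    (hp : (A.conf v t).tape A.out p ≠ A.blank) :
    (A.conf v t').tape A.out p = (A.conf v t).tape A.out p := by
  induction t', htt using Nat.le_induction with
  | base => rfl
  | succ t' _ ih =>
    rw [ho t' p (by rw [ih]; exact hp), ih]

theorem time_le_mulTime' (A : MTM) {n : ℕ} {x y : List Bool} (hx : x.length = n)
    (hy : y.length = n) : A.time (mulWord x y) ≤ mulTime A n := by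
  unfold mulTime
  apply le_csSup
  · apply Set.Finite.bddAbove
    have h1 : {t | ∃ x y : List Bool, x.length = n ∧ y.length = n ∧ t = A.time (mulWord x y)} ⊆
        (fun p : List Bool × List Bool => A.time (mulWord p.1 p.2)) ''
          ({x : List Bool | x.length = n} ×ˢ {y : List Bool | y.length = n}) := by
      rintro t ⟨x, y, h1, h2, rfl⟩
      exact ⟨(x, y), ⟨h1, h2⟩, rfl⟩
    exact ((List.finite_length_eq Bool n).prod (List.finite_length_eq Bool n)).image _ |>.subset h1
  · exact ⟨x, y, hx, hy, rfl⟩

end runs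

/-- The main inequality. -/
theorem main_ineq (A : MTM) [Fintype A.State] [Fintype A.Tape] [Fintype A.Sym]
    (hA : Multiplies A) (hio : A.inp ≠ A.out) (hwo : WriteOnly A) {n σ : ℕ} (hn1 : 1 ≤ n)
    (hcls : OneLong A σ n)
    {D μ q w lam gam : ℕ} (hD : 1 ≤ D) (hX : 4 * μ < 2 ^ D) (hn : D * (5 * μ) ≤ n)
    (hq1 : 1 ≤ q) (hq : 2 * q / D ≤ μ) (hw : 1 ≤ w) (hgam : Fintype.card A.Sym ≤ 2 ^ gam)
    (hlam : Fintype.card (Iface A (mulTime A n) σ) * (q + 1) ≤ 2 ^ lam)
    (hlam2 : 2 * Fintype.card A.Tape * (μ + 1) * (1 + w * (mulTime A n + w + 1)) <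
      2 ^ (2 * lam)) :
    μ ≤ 3 * lam * (1 + mulTime A n / w + mulTime A n / q) + gam * w * (mulTime A n / q) := by
  set T := mulTime A n with hT
  obtain ⟨ω, hgood⟩ := exists_good (A := A) (M := T) (σ := σ) (Sg := T + w + 1) hD hn hq hgam hlam
    hlam2
  -- the run on this input
  set v := word n D ω with hv
  have hlx : (wx n D ω).length = n := by simp [wx]
  have hly : (wy n D ω).length = n := by simp [wy]
  obtain ⟨W, hW⟩ := hcls _ _ hlx hly
  have hW' : ∀ t : ℕ,
    (A.conf v t).tape A.inp = (A.init v).tape A.inp ∧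
    (∀ p, (A.conf v t).tape A.out p ≠ A.blank →
      (A.conf v (t + 1)).tape A.out p = (A.conf v t).tape A.out p) ∧
    ∀ i, i ≠ A.inp → i ≠ A.out → i ≠ W →
      (A.conf v t).head i < σ ∨ ∀ t' p, (A.conf v t').tape i p = A.blank := hW
  set τ := A.time v with hτ
  have hτT : τ ≤ T := time_le_mulTime' A hlx hly
  set u := tapeOf A n D ω with hu
  set Z : A.Tape → Prop := fun i => ∀ t' p, (A.conf v t').tape i p = A.blank with hZ
  have hinit : (A.init v).tape A.inp = u := by
    funext p
    simp [MTM.init, hu, tapeOf, hv]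
  have hruns : Runs A T σ W Z u (A.conf v) τ := by
    refine ⟨fun t _ => conf_succ A v t, fun t _ => ?_, fun t ht i => ?_, fun t _ => (hW' t).2.2,
      fun t _ i hi p => hi t p⟩
    · rw [(hW' t).1, hinit]
    · exact (head_le A v i t).trans (by omega)
  have honce : ∀ t p, (A.conf v t).tape A.out p ≠ A.blank →
      (A.conf v (t + 1)).tape A.out p = (A.conf v t).tape A.out p := fun t => (hW' t).2.1
  -- the final contents of the output tape
  obtain ⟨-, hout⟩ := hA n hn1 _ _ hlx hly
  have hvx : val (wx n D ω) = spread D ω.1 := by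
    rw [wx, val_bin, Nat.mod_eq_of_lt]
    refine lt_of_lt_of_le (spread_lt hD ω.1) (Nat.pow_le_pow_right (by norm_num) ?_)
    calc D * (4 * μ) ≤ D * (5 * μ) := Nat.mul_le_mul_left _ (by omega)
      _ ≤ n := hn
  have hvy : val (wy n D ω) = spread D ω.2 := by
    rw [wy, val_bin, Nat.mod_eq_of_lt]
    exact lt_of_lt_of_le (spread_lt hD ω.2) (Nat.pow_le_pow_right (by norm_num) hn)
  have hcell : ∀ s : Fin μ, D * (4 * μ - 1 + s) < 2 * n := by
    intro s
    have hs := s.2
    calc D * (4 * μ - 1 + s) ≤ D * (5 * μ) := Nat.mul_le_mul_left _ (by omega)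
      _ ≤ n := hn
      _ < 2 * n := by omega
  have hfinal : ∀ s : Fin μ, (A.conf v τ).tape A.out (ocell n D (4 * μ) s) =
      A.letter (bitL (decide (conv μ ω.1 ω.2 s = 1))) := by
    intro s
    have h1 := hout (ocell n D (4 * μ) s)
    have h2 : ocell n D (4 * μ) s < 2 * n := by
      unfold ocell
      have := hcell s
      omega
    have h3 : ((bin (2 * n) (val (wx n D ω) * val (wy n D ω))).map bitL)[ocell n D (4 * μ) s]? =
        some (bitL (decide (conv μ ω.1 ω.2 s = 1))) := by
      rw [List.getElem?_map, getElem?_bin _ _ _ h2, hvx, hvy]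
      have h4 : 2 * n - 1 - ocell n D (4 * μ) s = D * (4 * μ - 1 + s) := by
        unfold ocell
        have := hcell s
        omega
      rw [h4, prod_bit hD hX]
      rfl
    rw [h3] at h1
    exact h1
  have hletter : ∀ a b : Bool, A.letter (bitL a) = A.letter (bitL b) → a = b := by
    intro a b h
    have := A.letter_inj h
    cases a <;> cases b <;> simp_all [bitL]
  -- segments
  obtain ⟨b, hb, hcs⟩ := H968.exists_seg (fun t => (A.conf v t).head W)
    (fun t => by rw [conf_succ]; exact next_head A _ W) hw hq1 τ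
  set seg : ℕ → ℕ := fun t => ((A.conf v t).head W + b) / w with hseg
  set key := H968.key seg q with hkey
  set K : Finset (ℕ × ℕ) := (Finset.range τ).image key with hK
  set S : ℕ → Set ℕ := fun s => {p | (p + b) / w = s} with hS
  set L : ℕ × ℕ → List (Iface A T σ × ℕ) := fun κ => lst T σ (A.conf v) key κ τ with hL
  -- the first time of a key and the base configuration
  have hex : ∀ κ ∈ K, ∃ t0, t0 < τ ∧ key t0 = κ ∧ ∀ t < t0, key t ≠ κ := by
    intro κ hκ
    rw [hK, Finset.mem_image] at hκ
    obtain ⟨t, ht, hκt⟩ := hκ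
    have h1 : ∃ t, key t = κ := ⟨t, hκt⟩
    refine ⟨Nat.find h1, ?_, Nat.find_spec h1, fun t' ht' => Nat.find_min h1 ht'⟩
    exact lt_of_le_of_lt (Nat.find_min' h1 hκt) (Finset.mem_range.1 ht)
  choose! f hf1 hf2 hf3 using hex
  set g : ℕ × ℕ → Fin w → A.Sym := fun κ j =>
    (A.conf v (f κ)).tape W (κ.1 * w + j - b) with hg
  set c0 : ℕ × ℕ → A.Conf := fun κ =>
    if κ.2 = 0 then blankConf A else baseConf W w b κ.1 (g κ) with hc0
  have hcont : ∀ κ ∈ K, Cont W (S κ.1) (c0 κ) (A.conf v (f κ)) := by
    intro κ hκ h1 h2 p hp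
    rw [hc0]
    by_cases h3 : κ.2 = 0
    · simp only [h3, if_true]
      have h4 : ∀ t < f κ, (A.conf v t).head W ≠ p := by
        intro t ht h5
        have h6 : H968.key seg q (f κ) = (κ.1, 0) := by
          have := hf2 κ hκ
          rw [hkey] at this
          rw [this, ← h3]
        have h7 : ∀ t < f κ, H968.key seg q t ≠ (κ.1, 0) := by
          intro t' ht' h8
          apply hf3 κ hκ t' ht'
          rw [hkey, h8, ← h3]
        have h8 := H968.seg_ne_of_first hq1 h6 h7 ht
        apply h8
        rw [hseg]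
        simp only
        rw [h5]
        exact hp
      rw [tape_const A v W p _ h4]
      simp [blankConf, MTM.conf, MTM.init, h1]
    · simp only [h3, if_false]
      have hp' : (p + b) / w = κ.1 := hp
      have h4 : κ.1 * w + (p + b) % w - b = p := by
        have h5 := Nat.div_add_mod (p + b) w
        rw [hp'] at h5
        have : κ.1 * w = w * κ.1 := Nat.mul_comm _ _
        omega
      simp only [baseConf, hp', and_self, if_true, dif_pos (show 0 < w by omega), hg]
      rw [h4]
  have hagree : ∀ κ ∈ K, ∀ t < τ, key t = κ →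
      Full W σ Z (pre T σ u W (c0 κ) (A.conf v) key κ t) (A.conf v t) ∧
      Cont W (S κ.1) (pre T σ u W (c0 κ) (A.conf v) key κ t) (A.conf v t) := by
    intro κ hκ
    refine pre_agree hwo hio hruns (S := S κ.1) ?_ ?_ (hf2 κ hκ) (hf3 κ hκ) (hcont κ hκ)
    · intro t _ h1
      have h2 : seg t = κ.1 := congrArg Prod.fst h1
      exact h2
    · intro t0 t t1 _ h1 h2 h3 h4 h5
      exact H968.key_eq_of_mem hq1 h1 h2 h3 h4 h5
  have hmemS : ∀ κ, ∀ t, key t = κ → (A.conf v t).head W ∈ S κ.1 := by
    intro κ t h1
    have h2 : seg t = κ.1 := congrArg Prod.fst h1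
    exact h2
  -- the predictions
  set P : ℕ × ℕ → Finset (Fin μ × ZMod 2) := fun κ =>
    preds A n D (4 * μ) μ (ems u W (c0 κ) (L κ)) with hP
  have hcorrect : ∀ κ ∈ K, ∀ p ∈ P κ, conv μ ω.1 ω.2 p.1 = p.2 := by
    intro κ hκ p hp
    rw [hP] at hp
    simp only [preds, Finset.mem_filter, Finset.mem_univ, true_and] at hp
    rw [hL] at hp
    simp only at hp
    rw [mem_ems] at hp
    obtain ⟨t, ht, hkt, hem⟩ := hp
    obtain ⟨hF, hC⟩ := hagree κ hκ t ht hkt
    obtain ⟨h1, h2⟩ := em_sound hwo hio hF hC (hruns.inp t ht) (hmemS κ t hkt)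
      (hruns.small t ht) hem
    rw [← conf_succ] at h2
    have h3 := once_const honce (show t + 1 ≤ τ by omega) (by rw [h2]; exact h1)
    rw [hfinal, h2] at h3
    have h4 := hletter _ _ h3
    have h5 : ∀ a b : ZMod 2, decide (a = 1) = decide (b = 1) → a = b := by decide
    exact h5 _ _ h4
  have hlam1 : 1 ≤ lam := by
    by_contra hcon
    have h0 : lam = 0 := by omega
    rw [h0, pow_zero] at hlam
    have h1 : 0 < Fintype.card (Iface A T σ) := Fintype.card_pos_iff.2 ⟨iface (A.conf v 0)⟩
    have h2 : 1 * 2 ≤ Fintype.card (Iface A T σ) * (q + 1) := Nat.mul_le_mul h1 (by omega)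
    omega
  have hfew : ∀ κ ∈ K, ((P κ).image Prod.fst).card ≤
      lam * ((L κ).length + 2) + (if 1 ≤ κ.2 then gam * w else 0) := by
    intro κ hκ
    by_cases hlen : (L κ).length ≤ μ
    · have htot : total (L κ) ≤ q := by
        rw [hL]
        exact (total_lst _ _ _ _).trans (H968.card_key_le hq1 τ κ)
      have h1 := hgood W (L κ) hlen htot
      unfold badOf at h1
      rw [Finset.mem_union] at h1
      push Not at h1
      obtain ⟨h2, h3⟩ := h1
      by_cases h4 : κ.2 = 0
      · rw [if_neg (by omega), add_zero]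
        by_contra hcon
        apply h2
        unfold lucky
        rw [Finset.mem_filter]
        have hc0κ : c0 κ = blankConf A := by rw [hc0]; simp [h4]
        refine ⟨Finset.mem_univ _, ?_, ?_⟩
        · have : P κ = preds A n D (4 * μ) μ (ems u W (blankConf A) (L κ)) := by
            rw [hP]; simp only [hc0κ]
          rw [this] at hcon
          rw [hu] at hcon
          omega
        · intro p hp
          apply hcorrect κ hκ
          rw [hP]
          simp only [hc0κ]
          exact hp
      · rw [if_pos (by omega)]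
        by_contra hcon
        apply h3
        rw [Finset.mem_biUnion]
        have hκ1 : κ.1 < T + w + 1 := by
          have h5 := hmemS κ (f κ) (hf2 κ hκ)
          have h6 : ((A.conf v (f κ)).head W + b) / w = κ.1 := h5
          have h7 := head_le A v W (f κ)
          have h8 := hf1 κ hκ
          have h9 := Nat.div_le_self ((A.conf v (f κ)).head W + b) w
          omega
        refine ⟨(⟨b, hb⟩, ⟨κ.1, hκ1⟩, g κ), Finset.mem_univ _, ?_⟩
        unfold lucky
        rw [Finset.mem_filter]
        have hc0κ : c0 κ = baseConf W w b κ.1 (g κ) := by rw [hc0]; simp [h4]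
        refine ⟨Finset.mem_univ _, ?_, ?_⟩
        · have : P κ = preds A n D (4 * μ) μ (ems u W (baseConf W w b κ.1 (g κ)) (L κ)) := by
            rw [hP]; simp only [hc0κ]
          rw [this] at hcon
          rw [hu] at hcon
          simp only at hcon ⊢
          omega
        · intro p hp
          apply hcorrect κ hκ
          rw [hP]
          simp only [hc0κ]
          exact hp
    · have h1 : ((P κ).image Prod.fst).card ≤ μ := by
        simpa using Finset.card_le_univ ((P κ).image Prod.fst)
      have h2 : (L κ).length + 2 ≤ lam * ((L κ).length + 2) := Nat.le_mul_of_pos_left _ hlam1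
      omega
  have hcover : (Finset.univ : Finset (Fin μ)) ⊆ K.biUnion fun κ => (P κ).image Prod.fst := by
    intro s _
    have hlast : (A.conf v τ).tape A.out (ocell n D (4 * μ) s) ≠ A.blank := by
      rw [hfinal]
      exact A.letter_ne_blank _
    have hzero : (A.conf v 0).tape A.out (ocell n D (4 * μ) s) = A.blank := by
      simp [MTM.conf, MTM.init, Ne.symm hio]
    have hexs : ∃ t, (A.conf v t).tape A.out (ocell n D (4 * μ) s) ≠ A.blank := ⟨τ, hlast⟩
    have h1 := Nat.find_spec hexs
    have h2 := Nat.find_min' hexs hlast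
    have h3 : ∀ t < Nat.find hexs, (A.conf v t).tape A.out (ocell n D (4 * μ) s) = A.blank := by
      intro t ht
      by_contra hcon
      exact Nat.find_min hexs ht hcon
    set r := Nat.find hexs with hr
    have hr0 : r ≠ 0 := by
      intro h
      rw [h] at h1
      exact h1 hzero
    obtain ⟨t, ht⟩ : ∃ t, r = t + 1 := ⟨r - 1, by omega⟩
    have htτ : t < τ := by omega
    have hκ : key t ∈ K := by
      rw [hK]
      exact Finset.mem_image_of_mem _ (Finset.mem_range.2 htτ)
    obtain ⟨hF, hC⟩ := hagree (key t) hκ t htτ rfl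
    have h4 := em_complete hwo hio hF hC (hruns.inp t htτ) (hmemS (key t) t rfl)
      (hruns.small t htτ) (h3 t (by omega)) (by
        rw [← conf_succ, ← ht]; exact h1)
    rw [← conf_succ] at h4
    have h5 := once_const honce (show t + 1 ≤ τ by omega) (by rw [← ht]; exact h1)
    rw [← h5, hfinal] at h4
    rw [Finset.mem_biUnion]
    refine ⟨key t, hκ, ?_⟩
    rw [Finset.mem_image]
    refine ⟨(s, conv μ ω.1 ω.2 s), ?_, rfl⟩
    rw [hP]
    simp only [preds, Finset.mem_filter, Finset.mem_univ, true_and]
    rw [hL]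
    simp only
    rw [mem_ems]
    exact ⟨t, htτ, rfl, h4⟩
  -- summation
  have hsum1 : μ ≤ ∑ κ ∈ K, (lam * ((L κ).length + 2) + (if 1 ≤ κ.2 then gam * w else 0)) := by
    calc μ = (Finset.univ : Finset (Fin μ)).card := by simp
      _ ≤ (K.biUnion fun κ => (P κ).image Prod.fst).card := Finset.card_le_card hcover
      _ ≤ ∑ κ ∈ K, ((P κ).image Prod.fst).card := Finset.card_biUnion_le
      _ ≤ _ := Finset.sum_le_sum hfew
  have hlen : ∑ κ ∈ K, (L κ).length = ((Finset.range τ).filter fun t => H968.cs seg q t).card := by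
    have h1 : ∀ κ ∈ K, (L κ).length = (((Finset.range τ).filter fun t =>
        H968.cs seg q t).filter fun t => key t = κ).card := by
      intro κ _
      rw [hL]
      simp only
      rw [length_lst, Finset.filter_filter]
      congr 1
      apply Finset.filter_congr
      intro t _
      unfold H968.cs
      rw [and_comm]
    rw [Finset.sum_congr rfl h1]
    symm
    apply Finset.card_eq_sum_card_fiberwise
    intro t ht
    simp only [Finset.coe_filter, Finset.mem_range, Set.mem_ofPred_eq] at ht
    rw [hK]
    exact Finset.mem_coe.2 (Finset.mem_image_of_mem _ (Finset.mem_range.2 ht.1))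
  have hcardK : K.card ≤ ((Finset.range τ).filter fun t => H968.cs seg q t).card :=
    H968.card_image_key_le q τ
  have hlate : (K.filter fun κ => 1 ≤ κ.2).card ≤ τ / q := by
    rw [Nat.le_div_iff_mul_le (by omega), Nat.mul_comm]
    exact H968.card_late_le hq1 τ
  have hsum2 : ∑ κ ∈ K, (lam * ((L κ).length + 2) + (if 1 ≤ κ.2 then gam * w else 0)) =
      lam * (∑ κ ∈ K, (L κ).length) + 2 * lam * K.card +
        gam * w * (K.filter fun κ => 1 ≤ κ.2).card := by
    rw [Finset.sum_add_distrib, ← Finset.mul_sum, Finset.sum_add_distrib, Finset.sum_const,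
      ← Finset.sum_filter, Finset.sum_const, smul_eq_mul, smul_eq_mul]
    ring
  rw [hsum2, hlen] at hsum1
  have hTw : τ / w ≤ T / w := Nat.div_le_div_right hτT
  have hTq : τ / q ≤ T / q := Nat.div_le_div_right hτT
  have hcs' : ((Finset.range τ).filter fun t => H968.cs seg q t).card ≤ 1 + T / w + T / q := by
    have : ((Finset.range τ).filter fun t => H968.cs seg q t).card ≤ 1 + τ / w + τ / q := by
      convert hcs using 2
    omega
  calc μ ≤ lam * ((Finset.range τ).filter fun t => H968.cs seg q t).card + 2 * lam * K.card +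
        gam * w * (K.filter fun κ => 1 ≤ κ.2).card := hsum1
    _ ≤ lam * (1 + T / w + T / q) + 2 * lam * (1 + T / w + T / q) + gam * w * (T / q) := by
        refine Nat.add_le_add (Nat.add_le_add ?_ ?_) ?_
        · exact Nat.mul_le_mul_left _ hcs'
        · exact Nat.mul_le_mul_left _ (hcardK.trans hcs')
        · exact Nat.mul_le_mul_left _ (hlate.trans hTq)
    _ = _ := by ring

end Vale.Agent.P338.R2.H101
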