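import Mathlib
import Vale.Agent.P338.R2.H101.Main
import Vale.Agent.P338.R2.H968.EndMain

/-!
P338, unconditional lower bounds: machines with one long work tape.
-/

namespace Vale.Agent.P338.R2.H101

open Vale.Agent.P338.R2.H898

/-- A machine with a separate output tape needs at least `n` steps. -/
theorem le_mulTime (A : MTM) (hA : Multiplies A) (hio : A.inp ≠ A.out) {n : ℕ} (hn : 1 ≤ n) :
    n ≤ mulTime A n := by
  set x : List Bool := List.replicate n false with hx
  have hlx : x.length = n := by simp [hx]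
  obtain ⟨-, hout⟩ := hA n hn x x hlx hlx
  have hT := time_le_mulTime' A hlx hlx
  have h1 := hout (2 * n - 1)
  rw [List.getElem?_map, getElem?_bin _ _ _ (by omega)] at h1
  have h2 : (A.conf (mulWord x x) (A.time (mulWord x x))).tape A.out (2 * n - 1) ≠ A.blank := by
    rw [h1]
    exact A.letter_ne_blank _
  by_contra hcon
  apply h2
  rw [tape_const]
  · simp [MTM.conf, MTM.init, Ne.symm hio]
  · intro t ht hh
    have := head_le A (mulWord x x) A.out t
    omega

/-- The finite inequality for machines with one long work tape. -/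
theorem finIneq (A : MTM) [Fintype A.State] [Fintype A.Tape] [Fintype A.Sym]
    (hA : Multiplies A) (hio : A.inp ≠ A.out) (hwo : WriteOnly A) {n σ : ℕ} (hn : 1 ≤ n)
    (hcls : OneLong A σ n) :
    H968.FinIneq (Fintype.card A.Tape) (Fintype.card A.Sym) (Fintype.card A.Sym)
      (Fintype.card A.State) n σ (mulTime A n) := by
  classical
  intro D μ q hD hμ hq w lam hw hq1 _ hlam hlam2
  have hDpos : 1 ≤ D := by omega
  have h1 : D * (5 * μ) ≤ n := by
    rw [hμ]
    calc D * (5 * (n / (5 * D))) = (5 * D) * (n / (5 * D)) := by ring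
      _ ≤ n := Nat.mul_div_le _ _
  refine main_ineq A hA hio hwo hn hcls hDpos ?_ h1 hq1 ?_ hw (Nat.lt_two_pow_self).le ?_ ?_
  · have h2 : n < 2 ^ D := by
      rw [hD]
      exact Nat.lt_pow_succ_log_self (by norm_num) n
    have h3 : 5 * μ ≤ D * (5 * μ) := Nat.le_mul_of_pos_left _ hDpos
    omega
  · rw [hq]
    calc 2 * (D * μ / 2) / D ≤ D * μ / D := Nat.div_le_div_right (Nat.mul_div_le _ _)
      _ = μ := Nat.mul_div_cancel_left _ (by omega)
  · refine le_trans (Nat.mul_le_mul_right _ ?_) hlam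
    rw [Fintype.card_prod, Fintype.card_prod, Fintype.card_fun, Fintype.card_fun, Fintype.card_fun,
      Fintype.card_fin, Fintype.card_fin, ← pow_mul, ← mul_assoc]
    refine Nat.mul_le_mul (Nat.mul_le_mul_left _ (Nat.pow_le_pow_left (by omega) _)) ?_
    rw [mul_comm σ]
  · refine lt_of_le_of_lt ?_ hlam2
    gcongr
    omega

/-- Lower bounds for machines with one long work tape. -/
theorem one_long_tape (A : MTM) (hA : Multiplies A) (hio : A.inp ≠ A.out) (hwo : WriteOnly A) :
    (∃ c : ℝ, 0 < c ∧ ∃ N : ℕ, ∀ n : ℕ, N ≤ n → ∀ σ : ℕ, OneLong A σ n →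
      c * (n : ℝ) ^ (3 / 2 : ℝ) / (Real.log n * Real.sqrt (σ + Real.log n)) ≤ mulTime A n) ∧
    (∃ c : ℝ, 0 < c ∧ ∃ N : ℕ, ∀ n : ℕ, N ≤ n → ∀ σ : ℕ, OneLong A σ n →
      (σ : ℝ) ≤ n / Real.log n ^ 4 → c * (n * Real.log n) ≤ mulTime A n) ∧
    (∀ ε : ℝ, 0 < ε → ε ≤ 1 → ∃ N : ℕ, ∀ n : ℕ, N ≤ n → ∀ σ : ℕ, OneLong A σ n →
      (σ : ℝ) ≤ (n : ℝ) ^ (1 - ε) → (n : ℝ) ^ (1 + ε / 3) ≤ mulTime A n) := by
  have := A.finState
  have := A.finTape
  have := A.finSym
  let _ := Fintype.ofFinite A.State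
  let _ := Fintype.ofFinite A.Tape
  let _ := Fintype.ofFinite A.Sym
  refine ⟨?_, ?_, ?_⟩
  · obtain ⟨c, hc, N, hN⟩ := H968.main_bound (Fintype.card A.Tape) (Fintype.card A.Sym)
      (Fintype.card A.Sym) (Fintype.card A.State)
    refine ⟨c, hc, max N 1, fun n hn σ hcls => ?_⟩
    have hn1 : 1 ≤ n := (le_max_right _ _).trans hn
    exact hN n ((le_max_left _ _).trans hn) σ _ (le_mulTime A hA hio hn1)
      (finIneq A hA hio hwo hn1 hcls)
  · obtain ⟨c, hc, N, hN⟩ := H968.main_nlogn (Fintype.card A.Tape) (Fintype.card A.Sym)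
      (Fintype.card A.Sym) (Fintype.card A.State)
    refine ⟨c, hc, max N 1, fun n hn σ hcls => ?_⟩
    have hn1 : 1 ≤ n := (le_max_right _ _).trans hn
    exact hN n ((le_max_left _ _).trans hn) σ _ (le_mulTime A hA hio hn1)
      (finIneq A hA hio hwo hn1 hcls)
  · intro ε hε hε1
    obtain ⟨N, hN⟩ := H968.main_power (Fintype.card A.Tape) (Fintype.card A.Sym)
      (Fintype.card A.Sym) (Fintype.card A.State) ε hε hε1
    refine ⟨max N 1, fun n hn σ hcls => ?_⟩
    have hn1 : 1 ≤ n := (le_max_right _ _).trans hn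
    exact hN n ((le_max_left _ _).trans hn) σ _ (le_mulTime A hA hio hn1)
      (finIneq A hA hio hwo hn1 hcls)

end Vale.Agent.P338.R2.H101
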